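import Vale.Agent.P235.H536.PlaneDefs

namespace Vale.Agent.P235

/-- `σ` is a rotation system of the connected graph `G` on an orientable surface of Euler genus at
most `g` (the sphere with at most `g / 2` handles): it permutes the darts starting at any vertex
cyclically, and `|V| - |E| + |faces| ≥ 2 - g`. -/
structure SurfMap {V : Type} (g : ℕ) (G : SimpleGraph V) (σ : Equiv.Perm G.Dart) : Prop where
  fst : ∀ d, (σ d).fst = d.fst
  cyc : ∀ d d' : G.Dart, d.fst = d'.fst → σ.SameCycle d d'
  euler : Nat.card G.edgeSet + 2 ≤
    Nat.card V + Nat.card (Quotient (Equiv.Perm.SameCycle.setoid (faceNext σ))) + g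

end Vale.Agent.P235
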