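import Vale.Agent.P235.Comp.Defs
import Vale.Agent.P235.H206.SurfDefs

namespace Vale.Agent.P235

/-- `X` is the union of at most `s` nonempty lanes: sets on each of which one function `u : V → ℝ`,
which is nonexpanding for the path metric of `G` with the edge lengths `ℓ`, is isometric. (For
example at most `s` vertices, or a shortest path, or at most `s` shortest paths which start at the
same vertex `r`, with `u` the distance to `r`.) -/
def Lanes {V : Type} (G : SimpleGraph V) (ℓ : Sym2 V → ℝ) (s : ℕ) (X : Set V) : Prop :=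
  ∃ (u : V → ℝ) (n : ℕ) (L : Fin n → Set V), n ≤ s ∧
    (∀ a b, |u a - u b| ≤ pathDist G ℓ a b) ∧ (∀ i, (L i).Nonempty) ∧
    (∀ i, ∀ a ∈ L i, ∀ b ∈ L i, pathDist G ℓ a b ≤ |u a - u b|) ∧ X = ⋃ i, L i

/-- `SurfStrip P s g k G ℓ`: at most `k` rounds, each of which deletes from every component either
a nonempty union of at most `s` lanes or all vertices on the boundary of one face of a rotation
system of Euler genus at most `g` of this component, leave components in the class `P`. -/
inductive SurfStrip (P : ∀ (V : Type), SimpleGraph V → Prop) (s g : ℕ) :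
    ℕ → ∀ {V : Type}, SimpleGraph V → (Sym2 V → ℝ) → Prop
  | leaf {k : ℕ} {V : Type} {G : SimpleGraph V} {ℓ : Sym2 V → ℝ} : P V G → SurfStrip P s g k G ℓ
  | lanes {k : ℕ} {V : Type} {G : SimpleGraph V} {ℓ : Sym2 V → ℝ} {X : Set V} : X.Nonempty →
      Lanes G ℓ s X →
      (∀ u ∉ X, SurfStrip P s g k (G.induce (compSet G X u)) (fun e => ℓ (e.map Subtype.val))) →
      SurfStrip P s g (k + 1) G ℓ
  | face {k : ℕ} {V : Type} {G : SimpleGraph V} {ℓ : Sym2 V → ℝ} {σ : Equiv.Perm G.Dart}
      {d : G.Dart} : SurfMap g G σ →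
      (∀ u ∉ onFace σ d,
        SurfStrip P s g k (G.induce (compSet G (onFace σ d) u)) (fun e => ℓ (e.map Subtype.val))) →
      SurfStrip P s g (k + 1) G ℓ

end Vale.Agent.P235
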