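import Vale.Agent.P235.H206.Defs
import Vale.Agent.P235.Comp.PathSum

namespace Vale.Agent.P235

open Finset

/-- line property of a metric: a random `1`-Lipschitz real function has expected difference at
least `c * ρ x y` for all pairs -/
def LineM {V : Type} (ρ : V → V → ℝ) (c : ℝ) : Prop :=
  ∃ (ι : Type) (_ : Fintype ι) (w : ι → ℝ) (g : ι → V → ℝ),
    (∀ i, 0 ≤ w i) ∧ ∑ i, w i = 1 ∧ (∀ i x y, |g i x - g i y| ≤ ρ x y) ∧
    ∀ x y, c * ρ x y ≤ ∑ i, w i * |g i x - g i y|

theorem LineM.mono {V : Type} {ρ : V → V → ℝ} {c c' : ℝ} (h : LineM ρ c) (hc : c' ≤ c)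
    (hρ : ∀ x y, 0 ≤ ρ x y) : LineM ρ c' := by
  obtain ⟨ι, _, w, g, h1, h2, h3, h4⟩ := h
  exact ⟨ι, inferInstance, w, g, h1, h2, h3, fun x y =>
    (mul_le_mul_of_nonneg_right hc (hρ x y)).trans (h4 x y)⟩

/-- marginals of a product of finite probability families -/
theorem prod_marginal {κ : Type} [Fintype κ] [DecidableEq κ] (ι : κ → Type)
    [∀ k, Fintype (ι k)] (w : ∀ k, ι k → ℝ) (hw : ∀ k, ∑ i, w k i = 1) (k : κ) (h : ι k → ℝ) :
    ∑ p : (∀ k, ι k), (∏ k', w k' (p k')) * h (p k) = ∑ i, w k i * h i := by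
  classical
  have e1 : ∀ p : (∀ k, ι k), (∏ k', w k' (p k')) * h (p k) =
      ∏ k', (w k' (p k') * (if e : k' = k then h (e ▸ p k') else 1)) := by
    intro p
    rw [Finset.prod_mul_distrib]
    congr 1
    rw [Finset.prod_eq_single k]
    · simp
    · intro b _ hb
      rw [dif_neg hb]
    · intro hk
      exact absurd (Finset.mem_univ k) hk
  have e2 := Finset.prod_univ_sum (fun k : κ => (Finset.univ : Finset (ι k)))
    (fun k' j => w k' j * (if e : k' = k then h (e ▸ j) else 1))
  rw [Fintype.piFinset_univ] at e2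
  rw [Finset.sum_congr rfl fun p _ => e1 p, ← e2, Finset.prod_eq_single k]
  · simp
  · intro b _ hb
    simp only [dif_neg hb, mul_one]
    exact hw b
  · intro hk
    exact absurd (Finset.mem_univ k) hk

variable {V : Type} {G : SimpleGraph V} {X : Set V} {ℓ : Sym2 V → ℝ}

theorem compSet_congr {u v : V} (h : ReachOff G X u v) : compSet G X u = compSet G X v := by
  ext x
  exact ⟨fun hx => h.symm.trans hx, fun hx => h.trans hx⟩

theorem mem_compSet_self {u : V} (hu : u ∉ X) : u ∈ compSet G X u := ReachOff.refl hu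

theorem not_mem_of_mem_compSet {u v : V} (h : v ∈ compSet G X u) : v ∉ X := ReachOff.right h

theorem compSet_eq {u v : V} (h : v ∈ compSet G X u) : compSet G X v = compSet G X u :=
  (compSet_congr h).symm

/-- the chosen family of one component, as functions on `V` -/
theorem comp_family [Finite V] {c : ℝ} (hℓ : ∀ e ∈ G.edgeSet, 0 < ℓ e)
    (hK : ∀ u ∉ X, LineM (pathDist (G.induce (compSet G X u)) (fun e => ℓ (e.map Subtype.val))) c)
    (K : Set V) : ∃ (ι : Type) (_ : Fintype ι) (w : ι → ℝ) (g : ι → V → ℝ),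
      (∀ i, 0 ≤ w i) ∧ ∑ i, w i = 1 ∧
      ∀ u ∉ X, K = compSet G X u →
        (∀ i x y, x ∈ K → y ∈ K → G.Adj x y → |g i x - g i y| ≤ ℓ s(x, y)) ∧
        (∀ x y, x ∈ K → y ∈ K → x ≠ y → ∃ R : ℝ, 0 < R ∧ (∀ i, |g i x - g i y| ≤ R) ∧
          c * R ≤ ∑ i, w i * |g i x - g i y| ∧
          ∀ f : V → ℝ, (∀ a b, G.Adj a b → |f a - f b| ≤ ℓ s(a, b)) → |f x - f y| ≤ R) := by
  classical
  by_cases h : ∃ u, u ∉ X ∧ K = compSet G X u
  · obtain ⟨u, hu, rfl⟩ := h
    obtain ⟨ι, _, w, g, h1, h2, h3, h4⟩ := hK u hu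
    have hcc : (G.induce (compSet G X u)).Connected := comp_connected hu
    have hpos : ∀ e ∈ (G.induce (compSet G X u)).edgeSet, 0 < ℓ (e.map Subtype.val) := by
      intro e
      induction e using Sym2.ind with
      | _ a b =>
        intro he
        exact hℓ _ he
    have hd := pathDist_isMet hcc hpos
    refine ⟨ι, inferInstance, w, fun i x => if hx : x ∈ compSet G X u then g i ⟨x, hx⟩ else 0,
      h1, h2, fun u' _ _ => ⟨?_, ?_⟩⟩
    · intro i x y hx hy hxy
      beta_reduce
      rw [dif_pos hx, dif_pos hy]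
      refine (h3 i _ _).trans ?_
      exact pathDist_adj hpos (x := ⟨x, hx⟩) (y := ⟨y, hy⟩) hxy
    · intro x y hx hy hne
      refine ⟨pathDist (G.induce (compSet G X u)) (fun e => ℓ (e.map Subtype.val)) ⟨x, hx⟩ ⟨y, hy⟩,
        hd.pos _ _ (fun e => hne (congrArg Subtype.val e)), ?_, ?_, ?_⟩
      · intro i
        beta_reduce
        rw [dif_pos hx, dif_pos hy]
        exact h3 i _ _
      · simp only [dif_pos hx, dif_pos hy]
        exact h4 _ _
      · intro f hf
        exact pathDist_gen hcc (f := fun z : compSet G X u => f z.1)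
          (fun a b hab => hf a.1 b.1 hab) ⟨x, hx⟩ ⟨y, hy⟩
  · refine ⟨Unit, inferInstance, fun _ => 1, fun _ _ => 0, fun _ => zero_le_one, by simp, ?_⟩
    intro u hu hKu
    exact absurd ⟨u, hu, hKu⟩ h

/-- Lipschitz families on the components of `G - X` give a rich family of admissible functions
vanishing on `X`. -/
theorem fam_comps [Finite V] {cF c : ℝ} (hcF : 0 < cF) (hc0 : 0 < c) (hc1 : c ≤ 1)
    (hF : FanStatement cF) (hℓ : ∀ e ∈ G.edgeSet, 0 < ℓ e) {H : V → ℝ} (hH : ∀ x, 0 ≤ H x)
    (hHX : ∀ x ∈ X, H x = 0) (hHl : ∀ u v, G.Adj u v → |H u - H v| ≤ ℓ s(u, v))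
    (hK : ∀ u ∉ X, LineM (pathDist (G.induce (compSet G X u)) (fun e => ℓ (e.map Subtype.val))) c) :
    Fam G (fun u v => ℓ s(u, v)) H (cF * c) := by
  classical
  have := Fintype.ofFinite V
  have hpick := fun K : Set V => comp_family hℓ hK K
  choose ι hι w g hw hs hg using hpick
  let J := ∀ K : Set V, ι K
  let W : J → ℝ := fun p => ∏ K, w K (p K)
  let t : J → V → ℝ := fun p x => g (compSet G X x) (p (compSet G X x)) x
  have hW : ∀ p, 0 ≤ W p := fun p => Finset.prod_nonneg fun K _ => hw K (p K)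
  have hWs : ∑ p, W p = 1 := by
    have e := Finset.prod_univ_sum (fun K : Set V => (Finset.univ : Finset (ι K)))
      (fun K j => w K j)
    rw [Fintype.piFinset_univ] at e
    rw [← e]
    exact Finset.prod_eq_one fun K _ => hs K
  have hfan := fun p : J => fan' hF (fun x => compSet G X x) (t p) H hH
  choose ι' hι' w' g' hw' hs' hb' hm' hl' hd' _ using hfan
  have hw'W : ∀ z : (Σ p : J, ι' p), 0 ≤ W z.1 * w' z.1 z.2 := fun z => mul_nonneg (hW _) (hw' _ _)
  have hsig : ∀ h : (Σ p : J, ι' p) → ℝ, ∑ z, h z = ∑ p, ∑ i, h ⟨p, i⟩ := fun h =>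
    Fintype.sum_sigma h
  refine ⟨Σ p : J, ι' p, inferInstance, fun z => W z.1 * w' z.1 z.2, fun z => g' z.1 z.2,
    hw'W, ?_, ?_, ?_⟩
  · rw [hsig]
    simp only [← Finset.mul_sum, hs', mul_one]
    exact hWs
  · rintro ⟨p, i⟩
    refine ⟨hb' p i, fun u v huv => ?_⟩
    by_cases hu : u ∈ X
    · have e0 := hHX u hu
      have e1 := hb' p i u
      rw [e0] at e1
      have e2 : g' p i u = 0 := by simpa using e1
      have e3 := hHl u v huv
      rw [e0, zero_sub, abs_neg, abs_of_nonneg (hH v)] at e3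
      show |g' p i u - g' p i v| ≤ ℓ s(u, v)
      rw [e2, zero_sub, abs_neg]
      exact (hb' p i v).trans e3
    · by_cases hv : v ∈ X
      · have e0 := hHX v hv
        have e1 := hb' p i v
        rw [e0] at e1
        have e2 : g' p i v = 0 := by simpa using e1
        have e3 := hHl u v huv
        rw [e0, sub_zero, abs_of_nonneg (hH u)] at e3
        show |g' p i u - g' p i v| ≤ ℓ s(u, v)
        rw [e2, sub_zero]
        exact (hb' p i u).trans e3
      · have hr : ReachOff G X u v := ReachOff.adj hu hv huv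
        have hC : compSet G X u = compSet G X v := compSet_congr hr
        refine (hm' p i u v hC).trans (max_le ?_ (hHl u v huv))
        have e1 := (hg (compSet G X u) u hu rfl).1 (p (compSet G X u)) u v (mem_compSet_self hu) hr
          huv
        have e2 : t p v = g (compSet G X u) (p (compSet G X u)) v := by
          show g (compSet G X v) (p (compSet G X v)) v = _
          rw [hC]
        show |t p u - t p v| ≤ ℓ s(u, v)
        rw [e2]
        exact e1
  · intro f hf x y
    rw [hsig]
    have hle : |f x - f y| ≤ H x + H y := (abs_sub _ _).trans (add_le_add (hf.1 x) (hf.1 y))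
    have hH2 : 0 ≤ H x + H y := add_nonneg (hH x) (hH y)
    have hdiff : cF * c * |f x - f y| ≤ cF * (H x + H y) := by
      have e1 : c * |f x - f y| ≤ 1 * (H x + H y) :=
        mul_le_mul hc1 hle (abs_nonneg _) zero_le_one
      rw [mul_assoc]
      exact mul_le_mul_of_nonneg_left (by linarith) hcF.le
    have hnn : 0 ≤ ∑ p, ∑ i, W p * w' p i * |g' p i x - g' p i y| :=
      Finset.sum_nonneg fun p _ => Finset.sum_nonneg fun i _ =>
        mul_nonneg (mul_nonneg (hW p) (hw' p i)) (abs_nonneg _)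
    by_cases hC : compSet G X x = compSet G X y
    · by_cases hx : x ∈ X
      · have hy : y ∈ X := by
          by_contra hy
          have h1 : y ∈ compSet G X x := by rw [hC]; exact mem_compSet_self hy
          exact (ReachOff.left h1) hx
        have e : |f x - f y| = 0 := by
          apply le_antisymm _ (abs_nonneg _)
          rw [hHX x hx, hHX y hy] at hle
          simpa using hle
        rw [e, mul_zero]
        exact hnn
      · have hy : y ∈ compSet G X x := by
          have hy' : y ∉ X := by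
            intro hy
            have h1 : x ∈ compSet G X y := by rw [← hC]; exact mem_compSet_self hx
            exact (ReachOff.left h1) hy
          rw [hC]; exact mem_compSet_self hy'
        by_cases hxy : x = y
        · subst hxy
          simp
        obtain ⟨R, hR, hRg, hRl, hRf⟩ := (hg (compSet G X x) x hx rfl).2 x y
          (mem_compSet_self hx) hy hxy
        set M := |f x - f y| with hM
        have hM0 : 0 ≤ M := abs_nonneg _
        have hMR : M ≤ R := hRf f hf.2
        have ht : ∀ p, |t p x - t p y| =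
            |g (compSet G X x) (p (compSet G X x)) x - g (compSet G X x) (p (compSet G X x)) y| := by
          intro p
          have e2 : t p y = g (compSet G X x) (p (compSet G X x)) y := by
            show g (compSet G X y) (p (compSet G X y)) y = _
            rw [hC]
          rw [e2]
        have h1 : ∀ p, W p * (cF * (M / R * |t p x - t p y|)) ≤
            ∑ i, W p * w' p i * |g' p i x - g' p i y| := by
          intro p
          have e1 : M / R * |t p x - t p y| ≤ min |t p x - t p y| (H x + H y) := by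
            have hMR1 : M / R ≤ 1 := (div_le_one hR).mpr hMR
            apply le_min
            · calc M / R * |t p x - t p y| ≤ 1 * |t p x - t p y| :=
                  mul_le_mul_of_nonneg_right hMR1 (abs_nonneg _)
                _ = _ := one_mul _
            · have e3 : |t p x - t p y| ≤ R := by rw [ht]; exact hRg _
              calc M / R * |t p x - t p y| ≤ M / R * R :=
                  mul_le_mul_of_nonneg_left e3 (div_nonneg hM0 hR.le)
                _ = M := div_mul_cancel₀ M hR.ne'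
                _ ≤ _ := hle
          have e2 := (mul_le_mul_of_nonneg_left e1 hcF.le).trans (hl' p x y hC)
          have e3 := mul_le_mul_of_nonneg_left e2 (hW p)
          refine e3.trans (le_of_eq ?_)
          rw [Finset.mul_sum]
          exact Finset.sum_congr rfl fun i _ => by ring
        refine le_trans ?_ (Finset.sum_le_sum fun p _ => h1 p)
        have h2 : ∑ p, W p * (cF * (M / R * |t p x - t p y|)) =
            cF * (M / R) * ∑ p, W p * |g (compSet G X x) (p (compSet G X x)) x -
              g (compSet G X x) (p (compSet G X x)) y| := by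
          rw [Finset.mul_sum]
          exact Finset.sum_congr rfl fun p _ => by rw [ht]; ring
        have h3 := prod_marginal ι w hs (compSet G X x)
          (fun j => |g (compSet G X x) j x - g (compSet G X x) j y|)
        rw [h2]
        have h4 : ∑ p, W p * |g (compSet G X x) (p (compSet G X x)) x -
              g (compSet G X x) (p (compSet G X x)) y| =
            ∑ i, w (compSet G X x) i * |g (compSet G X x) i x - g (compSet G X x) i y| := h3
        rw [h4]
        calc cF * c * M = cF * (M / R) * (c * R) := by field_simp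
          _ ≤ _ := mul_le_mul_of_nonneg_left hRl (mul_nonneg hcF.le (div_nonneg hM0 hR.le))
    · refine hdiff.trans ?_
      have h1 : ∀ p, W p * (cF * (H x + H y)) ≤ ∑ i, W p * w' p i * |g' p i x - g' p i y| := by
        intro p
        have e3 := mul_le_mul_of_nonneg_left (hd' p x y hC) (hW p)
        refine e3.trans (le_of_eq ?_)
        rw [Finset.mul_sum]
        exact Finset.sum_congr rfl fun i _ => by ring
      refine le_trans (le_of_eq ?_) (Finset.sum_le_sum fun p _ => h1 p)
      rw [← Finset.sum_mul, hWs, one_mul]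

/-- the constant of one round -/
noncomputable def roundC (c1 c2 : ℝ) : ℝ := 1 / 2 * min (1 / 2000 * c2 * (c1 / 4)) (c1 / 2)

theorem roundC_pos {c1 c2 : ℝ} (h1 : 0 < c1) (h2 : 0 < c2) : 0 < roundC c1 c2 := by
  unfold roundC; positivity

theorem roundC_le {c1 c2 : ℝ} (h1' : c1 ≤ 1) : roundC c1 c2 ≤ 1 := by
  unfold roundC
  have := min_le_right (1 / 2000 * c2 * (c1 / 4)) (c1 / 2)
  linarith

/-- A set `X` on which a Lipschitz family is rich, and components of `G - X` with rich Lipschitz
families. -/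
theorem line_step [Finite V] {c1 c2 : ℝ} (h1 : 0 < c1) (h1' : c1 ≤ 1) (h2 : 0 < c2) (h2' : c2 ≤ 1)
    (hc : G.Connected) (hℓ : ∀ e ∈ G.edgeSet, 0 < ℓ e) (hX : X.Nonempty)
    (hfX : ∃ (ι : Type) (_ : Fintype ι) (w : ι → ℝ) (g : ι → V → ℝ), (∀ i, 0 ≤ w i) ∧
      ∑ i, w i = 1 ∧ (∀ i x y, |g i x - g i y| ≤ pathDist G ℓ x y) ∧
      ∀ x ∈ X, ∀ y ∈ X, c1 * pathDist G ℓ x y ≤ ∑ i, w i * |g i x - g i y|)
    (hK : ∀ u ∉ X, LineM (pathDist (G.induce (compSet G X u)) (fun e => ℓ (e.map Subtype.val))) c2) :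
    LineM (pathDist G ℓ) (roundC c1 c2) := by
  classical
  have hd := pathDist_isMet hc hℓ
  obtain ⟨ν, hν⟩ := exists_near hc hℓ hX
  set φ : V → ℝ := fun x => pathDist G ℓ x (ν x) with hφdef
  have hφ0 : ∀ x, 0 ≤ φ x := fun x => hd.nonneg _ _
  have hφX : ∀ x ∈ X, φ x = 0 := by
    intro x hx
    show pathDist G ℓ x (ν x) = 0
    rw [hν.self x hx, hd.self]
  have hφl : ∀ u v, G.Adj u v → |φ u - φ v| ≤ ℓ s(u, v) := by
    intro u v huv
    have e1 := hν.lip hc hℓ u v
    have e2 := hν.lip hc hℓ v u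
    rw [hd.symm v u] at e2
    have e3 := pathDist_adj hℓ huv
    rw [abs_le]
    constructor
    · show -_ ≤ pathDist G ℓ u (ν u) - pathDist G ℓ v (ν v)
      linarith
    · show pathDist G ℓ u (ν u) - pathDist G ℓ v (ν v) ≤ _
      linarith
  obtain ⟨ι1, _, w1, g1, hw1, hs1, ha1, hl1⟩ := fam_comps (cF := 1 / 2000) (by norm_num) h2 h2' fan
    hℓ hφ0 hφX hφl hK
  obtain ⟨ι2, _, w2, g2, hw2, hs2, ha2, hl2⟩ := hfX
  refine ⟨ι1 ⊕ ι2, inferInstance, Sum.elim (fun i => (1 / 2) * w1 i) (fun i => (1 / 2) * w2 i),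
    Sum.elim g1 g2, ?_, ?_, ?_, ?_⟩
  · rintro (i | i)
    · have := hw1 i
      show 0 ≤ (1 / 2) * w1 i
      linarith only [this]
    · have := hw2 i
      show 0 ≤ (1 / 2) * w2 i
      linarith
  · rw [Fintype.sum_sum_type]
    simp only [Sum.elim_inl, Sum.elim_inr]
    rw [← Finset.mul_sum, ← Finset.mul_sum, hs1, hs2]
    norm_num
  · rintro (i | i)
    · intro x y
      exact pathDist_gen hc (ha1 i).2 x y
    · exact ha2 i
  · have hsum : ∀ x y, ∑ i, (Sum.elim (fun i => (1 / 2) * w1 i) (fun i => (1 / 2) * w2 i) : ι1 ⊕ ι2 → ℝ) i *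
        |(Sum.elim g1 g2 : ι1 ⊕ ι2 → V → ℝ) i x - (Sum.elim g1 g2 : ι1 ⊕ ι2 → V → ℝ) i y| =
        (1 / 2) * (∑ i, w1 i * |g1 i x - g1 i y|) + (1 / 2) * (∑ i, w2 i * |g2 i x - g2 i y|) := by
      intro x y
      rw [Fintype.sum_sum_type, Finset.mul_sum, Finset.mul_sum]
      simp only [Sum.elim_inl, Sum.elim_inr, mul_assoc]
    intro x y
    rw [hsum]
    set M := pathDist G ℓ x y with hMdef
    have hM : 0 ≤ M := hd.nonneg x y
    have n1 : 0 ≤ ∑ i, w1 i * |g1 i x - g1 i y| :=
      Finset.sum_nonneg fun i _ => mul_nonneg (hw1 i) (abs_nonneg _)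
    have n2 : 0 ≤ ∑ i, w2 i * |g2 i x - g2 i y| :=
      Finset.sum_nonneg fun i _ => mul_nonneg (hw2 i) (abs_nonneg _)
    have hf : ∀ u v, G.Adj u v → |pathDist G ℓ u y - pathDist G ℓ v y| ≤ ℓ s(u, v) := by
      intro u v huv
      have e1 := hd.tri u v y
      have e2 := hd.tri v u y
      rw [hd.symm v u] at e2
      have e3 := pathDist_adj hℓ huv
      rw [abs_le]
      constructor <;> linarith
    have key : min (1 / 2000 * c2 * (c1 / 4)) (c1 / 2) * M ≤
        (∑ i, w1 i * |g1 i x - g1 i y|) + (∑ i, w2 i * |g2 i x - g2 i y|) := by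
      by_cases hcase : c1 / 4 * M ≤ φ x + φ y
      · have h5 := hl1 _ (adm_clamp (G := G) (ρ := fun u v => ℓ s(u, v)) (φ := φ)
          (f := fun v => pathDist G ℓ v y) hφ0 hφl hf (pathDist G ℓ y y + min M (φ y))) x y
        beta_reduce at h5
        rw [clamp_diff (X := pathDist G ℓ x y) (Y := pathDist G ℓ y y) hM (hφ0 x) (hφ0 y)
          (by rw [hd.self, sub_zero]) rfl] at h5
        have h6 : c1 / 4 * M ≤ min M (φ x + φ y) := by
          apply le_min _ hcase
          nlinarith only [hM, h1']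
        have h7 : 0 ≤ min M (φ x + φ y) := le_min hM (add_nonneg (hφ0 x) (hφ0 y))
        rw [abs_of_nonneg h7] at h5
        have h8 : 1 / 2000 * c2 * (c1 / 4 * M) ≤ 1 / 2000 * c2 * min M (φ x + φ y) :=
          mul_le_mul_of_nonneg_left h6 (by positivity)
        have h9 : min (1 / 2000 * c2 * (c1 / 4)) (c1 / 2) * M ≤ 1 / 2000 * c2 * (c1 / 4) * M :=
          mul_le_mul_of_nonneg_right (min_le_left _ _) hM
        linarith only [n2, h5, h8, h9]
      · push Not at hcase
        have h5 : M ≤ pathDist G ℓ (ν x) (ν y) + φ x + φ y := by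
          have e1 := hd.tri x (ν x) y
          have e2 := hd.tri (ν x) (ν y) y
          have e3 := hd.symm (ν y) y
          show M ≤ pathDist G ℓ (ν x) (ν y) + pathDist G ℓ x (ν x) + pathDist G ℓ y (ν y)
          linarith only [e1, e2, e3, hMdef]
        have h6 : ∑ i, w2 i * |g2 i (ν x) - g2 i (ν y)| ≤
            (∑ i, w2 i * |g2 i x - g2 i y|) + φ x + φ y := by
          have e1 : ∀ i, w2 i * |g2 i (ν x) - g2 i (ν y)| ≤
              w2 i * |g2 i x - g2 i y| + w2 i * (φ x + φ y) := by
            intro i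
            rw [← mul_add]
            apply mul_le_mul_of_nonneg_left _ (hw2 i)
            have e2 := ha2 i x (ν x)
            have e3 := ha2 i y (ν y)
            have e4 : g2 i (ν x) - g2 i (ν y) = (g2 i (ν x) - g2 i x) +
                (g2 i x - g2 i y) + (g2 i y - g2 i (ν y)) := by ring
            rw [e4]
            refine (abs_add_three _ _ _).trans ?_
            rw [abs_sub_comm (g2 i (ν x))]
            show |g2 i x - g2 i (ν x)| + |g2 i x - g2 i y| + |g2 i y - g2 i (ν y)| ≤
              |g2 i x - g2 i y| + (pathDist G ℓ x (ν x) + pathDist G ℓ y (ν y))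
            linarith only [e2, e3]
          refine (Finset.sum_le_sum fun i _ => e1 i).trans ?_
          rw [Finset.sum_add_distrib, ← Finset.sum_mul, hs2, one_mul, add_assoc]
        have h7 := hl2 (ν x) (hν.mem x) (ν y) (hν.mem y)
        have h8 : c1 / 2 * M ≤ ∑ i, w2 i * |g2 i x - g2 i y| := by
          have e1 : (φ x + φ y) ≤ c1 / 4 * M := hcase.le
          have e2 : c1 * (M - (φ x + φ y)) ≤ c1 * pathDist G ℓ (ν x) (ν y) :=
            mul_le_mul_of_nonneg_left (by linarith only [h5]) h1.le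
          have e3 : c1 * (φ x + φ y) ≤ 1 * (φ x + φ y) :=
            mul_le_mul_of_nonneg_right h1' (add_nonneg (hφ0 x) (hφ0 y))
          linarith
        have h9 : min (1 / 2000 * c2 * (c1 / 4)) (c1 / 2) * M ≤ c1 / 2 * M :=
          mul_le_mul_of_nonneg_right (min_le_right _ _) hM
        linarith only [n1, h8, h9]
    have e0 : roundC c1 c2 * M = 1 / 2 * (min (1 / 2000 * c2 * (c1 / 4)) (c1 / 2) * M) := by
      unfold roundC; ring
    rw [e0]
    linarith only [key]

/-- Lipschitz extension from a subset of a finite metric space -/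
theorem mcshane [Finite V] {d : V → V → ℝ} (hd : IsMet d) (hX : X.Nonempty) (g : X → ℝ)
    (hg : ∀ x y : X, |g x - g y| ≤ d x y) :
    ∃ f : V → ℝ, (∀ x y, |f x - f y| ≤ d x y) ∧ ∀ x : X, f x = g x := by
  obtain ⟨x0, hx0⟩ := hX
  have : Nonempty X := ⟨⟨x0, hx0⟩⟩
  have hbdd : ∀ v, BddBelow (Set.range fun x : X => g x + d x v) := fun v =>
    (Set.finite_range _).bddBelow
  refine ⟨fun v => ⨅ x : X, g x + d x v, ?_, ?_⟩
  · have key : ∀ u v, (⨅ x : X, g x + d x u) ≤ (⨅ x : X, g x + d x v) + d u v := by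
      intro u v
      rw [← sub_le_iff_le_add]
      refine le_ciInf fun x => ?_
      have e1 := ciInf_le (hbdd u) x
      have e2 := hd.tri x v u
      rw [hd.symm v u] at e2
      linarith
    intro u v
    have e1 := key u v
    have e2 := key v u
    rw [hd.symm v u] at e2
    rw [abs_le]
    constructor <;> linarith
  · intro x
    apply le_antisymm
    · have e1 := ciInf_le (hbdd x) x
      rw [hd.self, add_zero] at e1
      exact e1
    · refine le_ciInf fun y => ?_
      have e1 := (abs_le.mp (hg x y)).2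
      rw [hd.symm x y] at e1
      linarith

/-- the torso rule -/
theorem line_torso [Finite V] {c1 c2 : ℝ} (h1 : 0 < c1) (h1' : c1 ≤ 1) (h2 : 0 < c2)
    (h2' : c2 ≤ 1) (hc : G.Connected) (hℓ : ∀ e ∈ G.edgeSet, 0 < ℓ e) (hX : X.Nonempty)
    (hT : LineM (fun x y : X => pathDist G ℓ x y) c1)
    (hK : ∀ u ∉ X, LineM (pathDist (G.induce (compSet G X u)) (fun e => ℓ (e.map Subtype.val))) c2) :
    LineM (pathDist G ℓ) (roundC c1 c2) := by
  have hd := pathDist_isMet hc hℓ
  obtain ⟨ι, hι, w, g, hw, hs, hl, hlow⟩ := hT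
  have hext := fun i => mcshane hd hX (g i) (hl i)
  choose f hf1 hf2 using hext
  refine line_step h1 h1' h2 h2' hc hℓ hX ⟨ι, hι, w, f, hw, hs, hf1, ?_⟩ hK
  intro x hx y hy
  have h := hlow ⟨x, hx⟩ ⟨y, hy⟩
  have e : ∀ i, w i * |f i x - f i y| = w i * |g i ⟨x, hx⟩ - g i ⟨y, hy⟩| := by
    intro i
    rw [hf2 i ⟨x, hx⟩, hf2 i ⟨y, hy⟩]
  rw [Finset.sum_congr rfl fun i _ => e i]
  exact h

/-- the shortest path rule -/
theorem line_path [Finite V] {c2 : ℝ} (h2 : 0 < c2) (h2' : c2 ≤ 1) (hc : G.Connected)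
    (hℓ : ∀ e ∈ G.edgeSet, 0 < ℓ e) {x y : V} (q : G.Walk x y)
    (hq : (q.edges.map ℓ).sum = pathDist G ℓ x y)
    (hK : ∀ u ∉ q.support, LineM (pathDist (G.induce (compSet G {v | v ∈ q.support} u))
      (fun e => ℓ (e.map Subtype.val))) c2) :
    LineM (pathDist G ℓ) (roundC 1 c2) := by
  have hd := pathDist_isMet hc hℓ
  refine line_step (X := {v | v ∈ q.support}) one_pos le_rfl h2 h2' hc hℓ
    ⟨x, q.start_mem_support⟩ ⟨Unit, inferInstance, fun _ => 1, fun _ v => pathDist G ℓ x v,
      fun _ => zero_le_one, by simp, ?_, ?_⟩ hK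
  · intro _ u v
    have h1 := hd.tri x u v
    have h2 := hd.tri x v u
    rw [hd.symm v u] at h2
    rw [abs_le]; constructor <;> linarith
  · intro u hu v hv
    have := geodesic_line hc hℓ q hq hu hv
    simpa using this

end Vale.Agent.P235
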