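import Vale.Agent.P235.H206.Genus
import Vale.Agent.P235.H206.SurfRoundDefs
import Vale.Agent.P235.H536.Strip

/-!
# Surfaces: the bounds for the distortion
-/

namespace Vale.Agent.P235

open Finset H536 H206

/-- a graph on one vertex -/
theorem distortion_subsingleton {V : Type} [Subsingleton V] (G : SimpleGraph V) {C : ℝ}
    (hG : Nonempty V) : DistortionLE G C := by
  intro ℓ hℓ
  have h0 : ∀ x y : V, pathDist G ℓ x y = 0 := by
    intro x y
    rw [Subsingleton.elim x y]
    have h1 := pathDist_le hℓ (SimpleGraph.Walk.nil : G.Walk y y)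
    have h2 : 0 ≤ pathDist G ℓ y y := by
      have hc : G.Connected := ⟨fun a b => by rw [Subsingleton.elim a b]⟩
      exact (pathDist_isMet hc hℓ).nonneg y y
    simp at h1
    linarith
  have hI : IsL1 (fun _ _ : V => (0 : ℝ)) := IsL1.zero
  exact hI.embeds (fun x y => (h0 x y).le) (fun x y => by rw [h0, mul_zero])

/-- a connected graph without darts has one vertex -/
theorem subsingleton_of_no_dart {V : Type} {G : SimpleGraph V} (hc : G.Connected)
    (h : ¬ Nonempty G.Dart) : Subsingleton V := by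
  refine ⟨fun a b => ?_⟩
  by_contra hab
  obtain ⟨w⟩ := hc.preconnected a b
  cases w with
  | nil => exact hab rfl
  | cons h1 _ => exact h ⟨⟨(_, _), h1⟩⟩

theorem genus_const {C : ℝ} (hC : 1 ≤ C) (g : ℕ) :
    16000 * (96 * C + 112 + 100 * ((Nat.log 2 (2 * g + 1) + 1 : ℕ) : ℝ)) ≤
      10000000 * (C + Real.log (g + 2)) := by
  have h1 := log_add_two (2 * g + 1)
  have h2 : Real.log (((2 * g + 1 : ℕ) : ℝ) + 2) ≤ 2 * Real.log (g + 2) := by
    have hg : (0 : ℝ) ≤ g := Nat.cast_nonneg g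
    rw [← Real.log_rpow (by linarith)]
    apply Real.log_le_log (by positivity)
    push_cast
    norm_num
    nlinarith
  have h3 : 0 ≤ Real.log ((g : ℝ) + 2) := Real.log_nonneg (by
    have hg : (0 : ℝ) ≤ g := Nat.cast_nonneg g
    linarith)
  linarith

/-- **The additive bound for the genus**, with a given root -/
theorem genus_gen {g : ℕ} {V : Type} [Finite V] {G : SimpleGraph V} (hc : G.Connected)
    {σ : Equiv.Perm G.Dart} (hσ : SurfMap g G σ) (r : V) {C : ℝ} (hC : 1 ≤ C)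
    (h : ∀ X : Set V, r ∈ X → (∀ x ∈ X, ∃ p : G.Walk x r, ∀ w ∈ p.support, w ∈ X) → ∀ v ∉ X,
      (∀ (_ : Fintype G.Dart) (_ : DecidableEq V) (z : G.Dart → ZMod 2),
        (∀ d : G.Dart, z d.symm = z d) → (∀ d : G.Dart, z d ≠ 0 → d.fst ∈ compSet G X v) →
        (∀ v, ∑ d : G.Dart, (if d.fst = v then z d else 0) = 0) →
        ∃ u : G.Dart → ZMod 2, (∀ d, u (faceNext σ d) = u d) ∧ ∀ d, z d = u d + u d.symm) →
      DistortionLE (G.induce (compSet G X v)) C) :
    DistortionLE G (10000000 * (C + Real.log (g + 2))) := by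
  intro ℓ hℓ
  have hd := pathDist_isMet hc hℓ
  have hC0 : 0 < C := by linarith
  obtain ⟨Ω, m, μ, f, hf⟩ := pointed_embeds
    (K := 96 * C + 112 + 100 * ((Nat.log 2 (2 * g + 1) + 1 : ℕ) : ℝ)) (by positivity) hc hℓ
    (fun H hH hHl => genus_step_root hc hℓ hH hHl hσ r (by positivity)
      fun X hrX hX v hv hz H' hH' hHl' => pointed_leaf hC0 (comp_connected hv) (induce_pos hℓ _)
        hH' hHl' (h X hrX hX v hv hz))
  exact ⟨Ω, m, μ, f, fun x y => ⟨(hf x y).1, (hf x y).2.trans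
    (mul_le_mul_of_nonneg_right (genus_const hC g) (hd.nonneg x y))⟩⟩

/-- **The additive bound for the genus**: if all connected induced plane subgraphs have `c₁ ≤ C`,
then a graph of Euler genus `g` has `c₁ ≤ O(C + log g)`. -/
theorem genus_distortion (g : ℕ) {C : ℝ} (hC : 1 ≤ C) (V : Type) [Finite V] (G : SimpleGraph V)
    (hc : G.Connected) (hσ : ∃ σ, SurfMap g G σ)
    (h : ∀ S : Set V, (G.induce S).Connected → (∃ σ, SurfMap 0 (G.induce S) σ) →
      DistortionLE (G.induce S) C) :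
    DistortionLE G (10000000 * (C + Real.log (g + 2))) := by
  obtain ⟨σ, hσ⟩ := hσ
  obtain ⟨r⟩ := hc.nonempty
  refine genus_gen hc hσ r hC fun X _ _ v hv hz => ?_
  have hS := comp_connected (G := G) hv
  by_cases hne : Nonempty (G.induce (compSet G X v)).Dart
  · exact h _ hS (induced_surf hσ.fst hσ.cyc hS hne hz)
  · have := subsingleton_of_no_dart hS hne
    exact distortion_subsingleton _ hS.nonempty

/-- the rounds on surfaces, pointed form -/
theorem surfStrip_pointed {P : ∀ (V : Type), SimpleGraph V → Prop} {C : ℝ} (hC : 0 < C)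
    (hP : ∀ (V : Type) [Finite V] (G : SimpleGraph V), G.Connected → P V G → DistortionLE G C)
    {s g k : ℕ} {V : Type} {G : SimpleGraph V}
    {ℓ : Sym2 V → ℝ} (h : SurfStrip P s g k G ℓ) : Finite V → G.Connected →
      (∀ e ∈ G.edgeSet, 0 < ℓ e) → ∀ H : V → ℝ, (∀ v, 0 < H v) →
      (∀ u v, G.Adj u v → |H u - H v| ≤ ℓ s(u, v)) →
      Pointed G ℓ H (96 * C + 112 + k * (100 * ((Nat.log 2 s + 1 : ℕ) : ℝ) + g)) := by
  have hm1 : (1 : ℝ) ≤ ((Nat.log 2 s + 1 : ℕ) : ℝ) := by
    exact_mod_cast Nat.le_add_left 1 _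
  set m : ℝ := ((Nat.log 2 s + 1 : ℕ) : ℝ) with hmdef
  have hg0 : (0 : ℝ) ≤ g := Nat.cast_nonneg g
  induction h with
  | @leaf k V G ℓ hD =>
    intro _ hc hℓ H hH hHl
    refine pointed_mono hℓ hH ?_ (pointed_leaf hC hc hℓ hH hHl (hP V G hc hD))
    have : (0 : ℝ) ≤ k * (100 * m + g) := by positivity
    linarith
  | @lanes k V G ℓ X hX hR _ ih =>
    intro hfin hc hℓ H hH hHl
    have hK : (0 : ℝ) ≤ 96 * C + 112 + k * (100 * m + g) := by positivity
    have e : (96 * C + 112 + k * (100 * m + g)) + (100 * m + g) =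
        96 * C + 112 + ((k + 1 : ℕ) : ℝ) * (100 * m + g) := by
      push_cast; ring
    rw [← e]
    obtain ⟨u, n, L, hns, hu, hne, hiso, rfl⟩ := hR
    have hn : 0 < n := by
      obtain ⟨x, hx⟩ := hX
      obtain ⟨i, _⟩ := Set.mem_iUnion.1 hx
      exact i.pos
    refine pointed_mono hℓ hH (by linarith) (pointed_step_lanes (fun {V} _ {d} hsym hnn {I} _ _ D
      h1 h2 => H105.lanes_fam hsym hnn D h1 h2) hc hℓ hH hHl hn hns hne hu hiso hK
      fun v hv H' hH' hHl' => ih v hv inferInstance (comp_connected hv) (induce_pos hℓ _) H' hH'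
        hHl')
  | @face k V G ℓ σ d hσ _ ih =>
    intro hfin hc hℓ H hH hHl
    have hK : (0 : ℝ) ≤ 96 * C + 112 + k * (100 * m + g) := by positivity
    have e : (96 * C + 112 + k * (100 * m + g)) + (100 * m + g) =
        96 * C + 112 + ((k + 1 : ℕ) : ℝ) * (100 * m + g) := by
      push_cast; ring
    rw [← e]
    refine pointed_mono hℓ hH ?_ (pointed_step_surf hc hℓ hH hHl hσ d hK
      fun v hv H' hH' hHl' => ih v hv inferInstance (comp_connected hv) (induce_pos hℓ _) H' hH'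
        hHl')
    push_cast
    linarith

/-- **Rounds on surfaces.** -/
theorem surfStrip_distortion (P : ∀ (V : Type), SimpleGraph V → Prop) {C : ℝ} (hC : 1 ≤ C)
    (hP : ∀ (V : Type) [Finite V] (G : SimpleGraph V), G.Connected → P V G → DistortionLE G C)
    (s g k : ℕ) (V : Type) [Finite V] (G : SimpleGraph V) (hc : G.Connected)
    (h : ∀ ℓ : Sym2 V → ℝ, (∀ e ∈ G.edgeSet, 0 < ℓ e) → SurfStrip P s g k G ℓ) :
    DistortionLE G (5000000 * (C + k * (g + Real.log (s + 2)))) := by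
  intro ℓ hℓ
  have hd := pathDist_isMet hc hℓ
  have hC0 : 0 < C := by linarith
  obtain ⟨Ω, m, μ, f, hf⟩ := pointed_embeds
    (K := 96 * C + 112 + k * (100 * ((Nat.log 2 s + 1 : ℕ) : ℝ) + g)) (by positivity) hc hℓ
    (fun H hH hHl => surfStrip_pointed hC0 hP (h ℓ hℓ) inferInstance hc hℓ H hH hHl)
  refine ⟨Ω, m, μ, f, fun x y => ⟨(hf x y).1, (hf x y).2.trans
    (mul_le_mul_of_nonneg_right ?_ (hd.nonneg x y))⟩⟩
  have hk0 : (0 : ℝ) ≤ k := Nat.cast_nonneg k
  have h1 := mul_le_mul_of_nonneg_left (log_add_two s) hk0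
  have h2 : 0 ≤ (k : ℝ) * Real.log (s + 2) :=
    mul_nonneg hk0 (Real.log_nonneg (by
      have : (0 : ℝ) ≤ s := Nat.cast_nonneg s
      linarith))
  have h3 : 0 ≤ (k : ℝ) * g := mul_nonneg hk0 (Nat.cast_nonneg g)
  nlinarith

end Vale.Agent.P235
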