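import Vale.Agent.P235.H206.PlaneDefs

/-!
# Mod 2 homology of a sphere map
-/

namespace Vale.Agent.P235.H206

open Finset

theorem self_add' {ι : Type*} (f : ι → ZMod 2) : f + f = 0 :=
  funext fun _ => CharTwo.add_self_eq_zero _

section

variable {V : Type} (G : SimpleGraph V)

@[simp] theorem facePerm_apply (σ : Equiv.Perm G.Dart) (d : G.Dart) :
    facePerm G σ d = σ d.symm := rfl

variable {G}

/-- the edge of a dart -/
def eOf (d : G.Dart) : G.edgeSet := ⟨d.edge, d.edge_mem⟩

theorem eOf_symm (d : G.Dart) : eOf d.symm = eOf d := Subtype.ext d.edge_symm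

theorem eOf_eq {d d' : G.Dart} (h : eOf d = eOf d') : d = d' ∨ d = d'.symm := by
  have h1 : d.edge = d'.edge := congrArg Subtype.val h
  exact SimpleGraph.dart_edge_eq_iff _ _ |>.mp h1

theorem exists_dart (e : G.edgeSet) : ∃ d : G.Dart, eOf d = e := by
  obtain ⟨e, he⟩ := e
  induction e using Sym2.ind with
  | _ a b => exact ⟨⟨(a, b), he⟩, rfl⟩

/-- a dart of an edge -/
noncomputable def rep (e : G.edgeSet) : G.Dart := (exists_dart e).choose

theorem eOf_rep (e : G.edgeSet) : eOf (rep e) = e := (exists_dart e).choose_spec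

variable [Fintype V] [DecidableEq V] [Fintype G.Dart]

/-- the boundary map mod 2 -/
def bd (G : SimpleGraph V) [Fintype G.Dart] : (G.edgeSet → ZMod 2) →ₗ[ZMod 2] (V → ZMod 2) where
  toFun z v := ∑ d : G.Dart with d.fst = v, z (eOf d)
  map_add' x y := by
    funext v
    simp [Finset.sum_add_distrib]
  map_smul' c x := by
    funext v
    simp [Finset.mul_sum]

/-- the coboundary of a set of faces mod 2 -/
noncomputable def cb (σ : Equiv.Perm G.Dart) :
    (Faces G σ → ZMod 2) →ₗ[ZMod 2] (G.edgeSet → ZMod 2) where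
  toFun s e := s ⟦rep e⟧ + s ⟦(rep e).symm⟧
  map_add' x y := by
    funext e
    simp only [Pi.add_apply]
    ring
  map_smul' c x := by
    funext e
    simp only [Pi.smul_apply, smul_eq_mul, RingHom.id_apply]
    ring

omit [Fintype V] [DecidableEq V] [Fintype G.Dart] in
theorem cb_apply (σ : Equiv.Perm G.Dart) (s : Faces G σ → ZMod 2) (d : G.Dart) :
    cb σ s (eOf d) = s ⟦d⟧ + s ⟦d.symm⟧ := by
  show s ⟦rep (eOf d)⟧ + s ⟦(rep (eOf d)).symm⟧ = _
  rcases eOf_eq (eOf_rep (eOf d)) with h | h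
  · rw [h]
  · rw [h, SimpleGraph.Dart.symm_symm, add_comm]

omit [Fintype V] [DecidableEq V] [Fintype G.Dart] in
theorem face_eq (σ : Equiv.Perm G.Dart) (d : G.Dart) :
    (⟦σ d.symm⟧ : Faces G σ) = ⟦d⟧ := by
  apply Quotient.sound
  exact (Equiv.Perm.sameCycle_apply_left (f := facePerm G σ) (x := d) (y := d)).mpr
    (Equiv.Perm.SameCycle.refl _ _)

omit [Fintype V] [DecidableEq V] [Fintype G.Dart] in
theorem face_eq' (σ : Equiv.Perm G.Dart) (d : G.Dart) :
    (⟦d.symm⟧ : Faces G σ) = ⟦σ d⟧ := by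
  have := face_eq σ d.symm
  rw [SimpleGraph.Dart.symm_symm] at this
  exact this.symm

omit [Fintype V] in
theorem bd_cb {σ : Equiv.Perm G.Dart} (hσ : ∀ d, (σ d).fst = d.fst) (s : Faces G σ → ZMod 2) :
    bd G (cb σ s) = 0 := by
  funext v
  show ∑ d : G.Dart with d.fst = v, cb σ s (eOf d) = 0
  have h1 : ∀ d : G.Dart, cb σ s (eOf d) = s ⟦d⟧ + s ⟦σ d⟧ := by
    intro d
    rw [cb_apply, face_eq']
  simp only [h1, Finset.sum_add_distrib]
  have h2 : ∑ d : G.Dart with d.fst = v, s ⟦σ d⟧ = ∑ d : G.Dart with d.fst = v, s ⟦d⟧ := by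
    refine Finset.sum_bij (fun d _ => σ d) ?_ ?_ ?_ ?_
    · intro d hd
      simp only [Finset.mem_filter, Finset.mem_univ, true_and] at hd ⊢
      rw [hσ, hd]
    · intro a _ b _ h
      exact σ.injective h
    · intro b hb
      refine ⟨σ.symm b, ?_, by simp⟩
      simp only [Finset.mem_filter, Finset.mem_univ, true_and] at hb ⊢
      rw [← hσ, Equiv.apply_symm_apply, hb]
    · intro d _
      rfl
  rw [h2]
  exact CharTwo.add_self_eq_zero _

omit [Fintype V] in
theorem bd_single (d : G.Dart) :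
    bd G (Pi.single (eOf d) 1) = Pi.single d.fst 1 + Pi.single d.snd 1 := by
  classical
  funext v
  show ∑ d' : G.Dart with d'.fst = v, (Pi.single (eOf d) 1 : G.edgeSet → ZMod 2) (eOf d') = _
  have h1 : ∀ d' : G.Dart, (Pi.single (eOf d) 1 : G.edgeSet → ZMod 2) (eOf d') =
      (if d' = d then 1 else 0) + (if d' = d.symm then 1 else 0) := by
    intro d'
    by_cases e1 : d' = d
    · have e2 : d' ≠ d.symm := by
        rw [e1]; exact d.symm_ne.symm
      rw [if_pos e1, if_neg e2, e1, Pi.single_eq_same, add_zero]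
    · by_cases e2 : d' = d.symm
      · rw [if_neg e1, if_pos e2, e2, eOf_symm, Pi.single_eq_same, zero_add]
      · rw [if_neg e1, if_neg e2, Pi.single_eq_of_ne, add_zero]
        intro h
        rcases eOf_eq h with h | h
        · exact e1 h
        · exact e2 h
  simp only [h1, Finset.sum_add_distrib, Finset.sum_ite_eq', Finset.mem_filter, Finset.mem_univ,
    true_and, Pi.add_apply]
  congr 1
  · by_cases h : d.fst = v
    · rw [if_pos h, h, Pi.single_eq_same]
    · rw [if_neg h, Pi.single_eq_of_ne (Ne.symm h)]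
  · have : d.symm.fst = d.snd := rfl
    rw [this]
    by_cases h : d.snd = v
    · rw [if_pos h, h, Pi.single_eq_same]
    · rw [if_neg h, Pi.single_eq_of_ne (Ne.symm h)]

/-- the mod 2 chain of a walk -/
noncomputable def chain {x y : V} (w : G.Walk x y) : G.edgeSet → ZMod 2 :=
  fun e => (w.edges.count e.1 : ℕ)

omit [Fintype V] in
theorem bd_chain {x y : V} (w : G.Walk x y) :
    bd G (chain w) = Pi.single x 1 + Pi.single y 1 := by
  classical
  induction w with
  | @nil u =>
    have : chain (SimpleGraph.Walk.nil : G.Walk u u) = 0 := by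
      funext e; simp [chain]
    rw [this, map_zero, self_add']
  | @cons x a y h p ih =>
    have h1 : chain (SimpleGraph.Walk.cons h p) =
        Pi.single (eOf ⟨(x, a), h⟩) 1 + chain p := by
      funext e
      simp only [chain, SimpleGraph.Walk.edges_cons, List.count_cons, Pi.add_apply]
      push_cast
      rw [add_comm]
      congr 1
      by_cases he : e = eOf ⟨(x, a), h⟩
      · rw [he, Pi.single_eq_same]
        simp [eOf]
      · rw [Pi.single_eq_of_ne he]
        have : ¬ (s(x, a) == e.1) = true := by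
          intro h'
          apply he
          apply Subtype.ext
          exact (beq_iff_eq.mp h').symm
        rw [if_neg this]
    rw [h1, map_add, ih, bd_single]
    show Pi.single x 1 + Pi.single a 1 + (Pi.single a 1 + Pi.single y 1) = _
    have h2 : (Pi.single a 1 : V → ZMod 2) + Pi.single a 1 = 0 := self_add' _
    calc (Pi.single x 1 : V → ZMod 2) + Pi.single a 1 + (Pi.single a 1 + Pi.single y 1)
        = Pi.single x 1 + (Pi.single a 1 + Pi.single a 1) + Pi.single y 1 := by abel
      _ = _ := by rw [h2, add_zero]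

theorem perm_invariant {α β : Type*} (f : Equiv.Perm α) (g : α → β) (h : ∀ x, g (f x) = g x)
    {x y : α} (hxy : f.SameCycle x y) : g x = g y := by
  obtain ⟨i, rfl⟩ := hxy
  induction i with
  | zero => simp
  | succ n ih =>
    rw [ih, add_comm, zpow_add, zpow_one, Equiv.Perm.mul_apply, h]
  | pred n ih =>
    rw [ih]
    have h1 : (f ^ (-(n : ℤ))) x = f ((f ^ (-(n : ℤ) - 1)) x) := by
      rw [← Equiv.Perm.mul_apply]
      congr 1
      have : f * f ^ (-(n : ℤ) - 1) = f ^ (1 : ℤ) * f ^ (-(n : ℤ) - 1) := by rw [zpow_one]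
      rw [this, ← zpow_add]
      congr 1
      ring
    rw [h1, h]

omit [Fintype V] [DecidableEq V] [Fintype G.Dart] in
theorem face_const {σ : Equiv.Perm G.Dart} (hc : G.Connected)
    (hcyc : ∀ d d' : G.Dart, d.fst = d'.fst → σ.SameCycle d d') {β : Type*} (s : Faces G σ → β)
    (h : ∀ d : G.Dart, s ⟦d⟧ = s ⟦d.symm⟧) (d d' : G.Dart) : s ⟦d⟧ = s ⟦d'⟧ := by
  have h1 : ∀ d d' : G.Dart, d.fst = d'.fst → s ⟦d⟧ = s ⟦d'⟧ := by
    intro d d' hdd
    refine perm_invariant σ (fun d => s (⟦d⟧ : Faces G σ)) (fun x => ?_) (hcyc d d' hdd)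
    show s ⟦σ x⟧ = s ⟦x⟧
    rw [← face_eq', h x]
  have h2 : ∀ {u v : V} (w : G.Walk u v) (d d' : G.Dart), d.fst = u → d'.fst = v →
      s (⟦d⟧ : Faces G σ) = s ⟦d'⟧ := by
    intro u v w
    induction w with
    | nil => intro d d' hd hd'; exact h1 d d' (hd.trans hd'.symm)
    | @cons u a v hua p ih =>
      intro d d' hd hd'
      rw [h1 d ⟨(u, a), hua⟩ hd, h]
      exact ih _ d' rfl hd'
  exact h2 (hc d.fst d'.fst).some d d' rfl rfl

omit [Fintype V] [DecidableEq V] [Fintype G.Dart] in
theorem finrank_ker_cb {σ : Equiv.Perm G.Dart} (hc : G.Connected)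
    (hcyc : ∀ d d' : G.Dart, d.fst = d'.fst → σ.SameCycle d d') :
    Module.finrank (ZMod 2) (LinearMap.ker (cb σ)) ≤ 1 := by
  have hone : (1 : Faces G σ → ZMod 2) ∈ LinearMap.ker (cb σ) := by
    rw [LinearMap.mem_ker]
    funext e
    show (1 : ZMod 2) + 1 = 0
    decide
  refine finrank_le_one (⟨1, hone⟩ : LinearMap.ker (cb σ)) ?_
  rintro ⟨s, hs⟩
  have h1 : ∀ d : G.Dart, s ⟦d⟧ = s ⟦d.symm⟧ := by
    intro d
    have h2 := congrFun (LinearMap.mem_ker.mp hs) (eOf d)
    rw [cb_apply] at h2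
    exact CharTwo.add_eq_zero.mp h2
  by_cases hD : Nonempty G.Dart
  · obtain ⟨d0⟩ := hD
    refine ⟨s ⟦d0⟧, Subtype.ext ?_⟩
    funext f
    induction f using Quotient.inductionOn with
    | _ d =>
      show s ⟦d0⟧ * 1 = s ⟦d⟧
      rw [mul_one]
      exact face_const hc hcyc s h1 d0 d
  · refine ⟨0, Subtype.ext ?_⟩
    funext f
    induction f using Quotient.inductionOn with
    | _ d => exact absurd ⟨d⟩ hD

theorem finrank_range_bd (hc : G.Connected) :
    Fintype.card V ≤ Module.finrank (ZMod 2) (LinearMap.range (bd G)) + 1 := by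
  classical
  obtain ⟨v0⟩ := hc.nonempty
  have htop : LinearMap.range (bd G) ⊔ Submodule.span (ZMod 2) {(Pi.single v0 1 : V → ZMod 2)} =
      ⊤ := by
    rw [eq_top_iff]
    intro f _
    have hf : f = ∑ v, f v • (Pi.single v 1 : V → ZMod 2) := by
      funext x
      simp [Finset.sum_apply, Pi.single_apply]
    rw [hf]
    refine Submodule.sum_mem _ fun v _ => Submodule.smul_mem _ _ ?_
    have h1 : (Pi.single v 1 : V → ZMod 2) = bd G (chain (hc v v0).some) + Pi.single v0 1 := by
      rw [bd_chain, add_assoc, self_add', add_zero]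
    rw [h1]
    exact Submodule.add_mem _ (Submodule.mem_sup_left (LinearMap.mem_range_self _ _))
      (Submodule.mem_sup_right (Submodule.mem_span_singleton_self _))
  have h2 := Submodule.finrank_add_le_finrank_add_finrank (LinearMap.range (bd G))
    (Submodule.span (ZMod 2) {(Pi.single v0 1 : V → ZMod 2)})
  rw [htop, finrank_top, Module.finrank_fintype_fun_eq_card] at h2
  have h3 : Module.finrank (ZMod 2)
      (Submodule.span (ZMod 2) {(Pi.single v0 1 : V → ZMod 2)}) ≤ 1 := by
    have := finrank_span_le_card (R := ZMod 2) ({(Pi.single v0 1 : V → ZMod 2)} : Set (V → ZMod 2))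
    simpa using this
  omega

/-- every mod 2 cycle of a sphere map is the boundary of a set of faces -/
theorem exists_faces {σ : Equiv.Perm G.Dart} (hc : G.Connected) (hσ : SphereMap G σ)
    (z : G.edgeSet → ZMod 2) (hz : bd G z = 0) :
    ∃ s : Faces G σ → ZMod 2, ∀ d : G.Dart, z (eOf d) = s ⟦d⟧ + s ⟦d.symm⟧ := by
  classical
  have : Finite G.edgeSet := Finite.of_surjective (fun d : G.Dart => eOf d) exists_dart
  have : Fintype G.edgeSet := Fintype.ofFinite _
  have : Fintype (Faces G σ) := Fintype.ofFinite _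
  have h1 := finrank_ker_cb hc hσ.cyc
  have h2 := finrank_range_bd hc
  have h3 := LinearMap.finrank_range_add_finrank_ker (cb σ)
  have h4 := LinearMap.finrank_range_add_finrank_ker (bd G)
  rw [Module.finrank_fintype_fun_eq_card] at h3 h4
  have h5 := hσ.euler
  rw [Nat.card_eq_fintype_card, Nat.card_eq_fintype_card, Nat.card_eq_fintype_card] at h5
  have hle : LinearMap.range (cb σ) ≤ LinearMap.ker (bd G) := by
    rintro _ ⟨s, rfl⟩
    exact bd_cb hσ.fst s
  have heq : LinearMap.range (cb σ) = LinearMap.ker (bd G) := by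
    apply Submodule.eq_of_le_of_finrank_le hle
    omega
  have hz' : z ∈ LinearMap.range (cb σ) := by rw [heq]; exact hz
  obtain ⟨s, rfl⟩ := hz'
  exact ⟨s, fun d => cb_apply σ s d⟩

section crossing

variable {σ : Equiv.Perm G.Dart} (d0 : G.Dart)

/-- the `i`-th dart of the face of `d0` -/
def fd (σ : Equiv.Perm G.Dart) (d0 : G.Dart) (i : ℕ) : G.Dart := (facePerm G σ)^[i] d0

omit [Fintype V] [DecidableEq V] [Fintype G.Dart] in
theorem fd_succ (i : ℕ) : fd σ d0 (i + 1) = facePerm G σ (fd σ d0 i) :=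
  Function.iterate_succ_apply' _ _ _

omit [Fintype V] [DecidableEq V] [Fintype G.Dart] in
theorem fd_fst (hσ : ∀ d, (σ d).fst = d.fst) (i : ℕ) :
    (fd σ d0 (i + 1)).fst = (fd σ d0 i).snd := by
  rw [fd_succ, facePerm_apply, hσ]
  rfl

omit [Fintype V] [DecidableEq V] [Fintype G.Dart] in
theorem fd_face (i : ℕ) : (⟦fd σ d0 i⟧ : Faces G σ) = ⟦d0⟧ := by
  induction i with
  | zero => rfl
  | succ i ih => rw [fd_succ, facePerm_apply, face_eq, ih]

open Classical in
/-- multiplicity of a dart in the arc `a, …, c - 1` of the face of `d0` -/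
noncomputable def arcD (σ : Equiv.Perm G.Dart) (d0 : G.Dart) (a c : ℕ) (d : G.Dart) : ZMod 2 :=
  ∑ i ∈ Finset.Ico a c, if fd σ d0 i = d then 1 else 0

open Classical in
/-- the chain of this arc -/
noncomputable def arcC (σ : Equiv.Perm G.Dart) (d0 : G.Dart) (a c : ℕ) : G.edgeSet → ZMod 2 :=
  ∑ i ∈ Finset.Ico a c, Pi.single (eOf (fd σ d0 i)) 1

omit [Fintype V] [Fintype G.Dart] in
theorem arcC_apply (a c : ℕ) (d : G.Dart) :
    arcC σ d0 a c (eOf d) = arcD σ d0 a c d + arcD σ d0 a c d.symm := by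
  classical
  unfold arcC arcD
  rw [Finset.sum_apply, ← Finset.sum_add_distrib]
  refine Finset.sum_congr rfl fun i _ => ?_
  by_cases e1 : fd σ d0 i = d
  · have e2 : fd σ d0 i ≠ d.symm := by rw [e1]; exact d.symm_ne.symm
    rw [if_pos e1, if_neg e2, e1, Pi.single_eq_same, add_zero]
  · by_cases e2 : fd σ d0 i = d.symm
    · rw [if_neg e1, if_pos e2, e2, eOf_symm, Pi.single_eq_same, zero_add]
    · rw [if_neg e1, if_neg e2, Pi.single_eq_of_ne, add_zero]
      intro h
      rcases eOf_eq h with h | h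
      · exact e1 h.symm
      · exact e2 (by rw [h, SimpleGraph.Dart.symm_symm])

omit [Fintype V] in
theorem bd_arcC (hσ : ∀ d, (σ d).fst = d.fst) {a c : ℕ} (hac : a ≤ c) :
    bd G (arcC σ d0 a c) = Pi.single (fd σ d0 a).fst 1 + Pi.single (fd σ d0 c).fst 1 := by
  classical
  obtain ⟨m, rfl⟩ := Nat.exists_eq_add_of_le hac
  clear hac
  induction m with
  | zero => simp [arcC, self_add']
  | succ m ih =>
    have h1 : arcC σ d0 a (a + (m + 1)) = arcC σ d0 a (a + m) +
        Pi.single (eOf (fd σ d0 (a + m))) 1 := by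
      unfold arcC
      rw [← add_assoc, Finset.sum_Ico_succ_top (by omega)]
    rw [h1, map_add, ih, bd_single, ← add_assoc a m 1, fd_fst d0 hσ]
    calc (Pi.single (fd σ d0 a).fst 1 : V → ZMod 2) + Pi.single (fd σ d0 (a + m)).fst 1 +
          (Pi.single (fd σ d0 (a + m)).fst 1 + Pi.single (fd σ d0 (a + m)).snd 1)
        = Pi.single (fd σ d0 a).fst 1 + (Pi.single (fd σ d0 (a + m)).fst 1 +
          Pi.single (fd σ d0 (a + m)).fst 1) + Pi.single (fd σ d0 (a + m)).snd 1 := by abel
      _ = _ := by rw [self_add', add_zero]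

omit [Fintype V] [Fintype G.Dart] in
theorem arcD_face {a c : ℕ} (hac : a < c) {d : G.Dart} (ha : facePerm G σ d ≠ fd σ d0 a)
    (hc' : facePerm G σ d ≠ fd σ d0 c) :
    arcD σ d0 a c (facePerm G σ d) = arcD σ d0 a c d := by
  classical
  obtain ⟨m, rfl⟩ : ∃ m, c = m + 1 := ⟨c - 1, by omega⟩
  unfold arcD
  rw [Finset.sum_eq_sum_Ico_succ_bot hac, if_neg (Ne.symm ha), zero_add,
    Finset.sum_Ico_succ_top (by omega : a ≤ m), ← Finset.sum_Ico_add']
  have h1 : fd σ d0 m ≠ d := by
    intro h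
    apply hc'
    rw [fd_succ, h]
  rw [if_neg h1, add_zero]
  refine Finset.sum_congr rfl fun i _ => ?_
  have h2 : fd σ d0 (i + 1) = facePerm G σ d ↔ fd σ d0 i = d := by
    rw [fd_succ]
    exact (facePerm G σ).injective.eq_iff
  simp only [h2]

/-- the order of the face of `d0` -/
noncomputable def faceLen (σ : Equiv.Perm G.Dart) (d0 : G.Dart) : ℕ :=
  Function.minimalPeriod (facePerm G σ) d0

omit [Fintype V] [DecidableEq V] [Fintype G.Dart] in
theorem fd_inj {i j : ℕ} (hi : i < faceLen σ d0) (hj : j < faceLen σ d0)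
    (h : fd σ d0 i = fd σ d0 j) : i = j :=
  Function.iterate_injOn_Iio_minimalPeriod hi hj h

omit [Fintype V] [Fintype G.Dart] in
theorem arcD_in {a b c : ℕ} (hab : a ≤ b) (hbc : b < c) (hc' : c ≤ faceLen σ d0) :
    arcD σ d0 a c (fd σ d0 b) = 1 := by
  classical
  unfold arcD
  rw [Finset.sum_eq_single b]
  · rw [if_pos rfl]
  · intro i hi hne
    rw [if_neg]
    intro h
    have := Finset.mem_Ico.mp hi
    exact hne (fd_inj d0 (by omega) (by omega) h)
  · intro h
    exact absurd (Finset.mem_Ico.mpr ⟨hab, hbc⟩) h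

omit [Fintype V] [Fintype G.Dart] in
theorem arcD_out {a c d : ℕ} (hcd : c ≤ d) (hd : d < faceLen σ d0) :
    arcD σ d0 a c (fd σ d0 d) = 0 := by
  classical
  unfold arcD
  refine Finset.sum_eq_zero fun i hi => ?_
  rw [if_neg]
  intro h
  have := Finset.mem_Ico.mp hi
  have := fd_inj d0 (by omega) hd h
  omega

/-- two disjoint walks cannot join interlaced corners of a face of a sphere map -/
theorem face_crossing (hconn : G.Connected) (hσ : SphereMap G σ) {a b c d : ℕ} (hab : a < b)
    (hbc : b < c) (hcd : c < d) (hd : d < faceLen σ d0)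
    (p : G.Walk (fd σ d0 a).fst (fd σ d0 c).fst) (q : G.Walk (fd σ d0 b).fst (fd σ d0 d).fst) :
    ∃ z, z ∈ p.support ∧ z ∈ q.support := by
  classical
  by_contra hno
  push Not at hno
  have hz : bd G (chain p + arcC σ d0 a c) = 0 := by
    rw [map_add, bd_chain, bd_arcC d0 hσ.fst (by omega : a ≤ c), self_add']
  obtain ⟨s, hs⟩ := exists_faces hconn hσ _ hz
  let τ : G.Dart → ZMod 2 := fun e => s ⟦e⟧ + arcD σ d0 a c e
  -- edges off `p`
  have hE : ∀ e : G.Dart, e.fst ∉ p.support → τ e = τ e.symm := by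
    intro e he
    have h1 := hs e
    have h2 : chain p (eOf e) = 0 := by
      have : e.edge ∉ p.edges := fun h => he (p.fst_mem_support_of_mem_edges h)
      simp [chain, eOf, List.count_eq_zero_of_not_mem this]
    rw [Pi.add_apply, h2, zero_add, arcC_apply] at h1
    show s ⟦e⟧ + arcD σ d0 a c e = s ⟦e.symm⟧ + arcD σ d0 a c e.symm
    have h3 : s ⟦e⟧ + arcD σ d0 a c e + (s ⟦e.symm⟧ + arcD σ d0 a c e.symm) = 0 := by
      calc s ⟦e⟧ + arcD σ d0 a c e + (s ⟦e.symm⟧ + arcD σ d0 a c e.symm)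
          = (s ⟦e⟧ + s ⟦e.symm⟧) + (arcD σ d0 a c e + arcD σ d0 a c e.symm) := by ring
        _ = 0 := by rw [h1]; exact CharTwo.add_self_eq_zero _
    exact CharTwo.add_eq_zero.mp h3
  -- rotation at a vertex off `p`
  have hV : ∀ e : G.Dart, e.fst ∉ p.support → τ (σ e) = τ e := by
    intro e he
    have hface : σ e = facePerm G σ e.symm := by
      rw [facePerm_apply, SimpleGraph.Dart.symm_symm]
    have hfst : (facePerm G σ e.symm).fst = e.fst := by rw [← hface, hσ.fst]
    have h1 : facePerm G σ e.symm ≠ fd σ d0 a := by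
      intro h
      apply he
      rw [← hfst, h]
      exact p.start_mem_support
    have h2 : facePerm G σ e.symm ≠ fd σ d0 c := by
      intro h
      apply he
      rw [← hfst, h]
      exact p.end_mem_support
    rw [hE e he, hface]
    show s ⟦facePerm G σ e.symm⟧ + arcD σ d0 a c (facePerm G σ e.symm) = _
    rw [arcD_face d0 (by omega) h1 h2, facePerm_apply, face_eq]
  have hfst : ∀ e e' : G.Dart, e.fst = e'.fst → e.fst ∉ p.support → τ e = τ e' := by
    intro e e' hee he
    have h1 := perm_invariant σ (fun x => if x.fst = e.fst then τ x else 0) (fun x => by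
      show (if (σ x).fst = e.fst then τ (σ x) else 0) = if x.fst = e.fst then τ x else 0
      rw [hσ.fst]
      by_cases hx : x.fst = e.fst
      · rw [if_pos hx, if_pos hx, hV x (by rw [hx]; exact he)]
      · rw [if_neg hx, if_neg hx]) (hσ.cyc e e' hee)
    simpa [hee] using h1
  have hwalk : ∀ {u v : V} (w : G.Walk u v), (∀ x ∈ w.support, x ∉ p.support) →
      ∀ e e' : G.Dart, e.fst = u → e'.fst = v → τ e = τ e' := by
    intro u v w
    induction w with
    | nil =>
      intro hw e e' he he'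
      exact hfst e e' (he.trans he'.symm) (by rw [he]; exact hw _ (by simp))
    | @cons u x v hux r ih =>
      intro hw e e' he he'
      have hu : u ∉ p.support := hw u (by simp)
      rw [hfst e ⟨(u, x), hux⟩ he (by rw [he]; exact hu), hE ⟨(u, x), hux⟩ hu]
      exact ih (fun y hy => hw y (by simp [hy])) _ e' rfl he'
  have h1 := hwalk q (fun x hx hxp => hno x hxp hx) (fd σ d0 b) (fd σ d0 d) rfl rfl
  have h2 : s ⟦fd σ d0 b⟧ + arcD σ d0 a c (fd σ d0 b) =
      s ⟦fd σ d0 d⟧ + arcD σ d0 a c (fd σ d0 d) := h1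
  rw [fd_face, fd_face, arcD_in d0 hab.le hbc (by omega), arcD_out d0 hcd.le hd, add_zero] at h2
  exact one_ne_zero (add_eq_left.mp h2)

end crossing

end

end Vale.Agent.P235.H206
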