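import Vale.Agent.P235.Comp.Defs

namespace Vale.Agent.P235

open MeasureTheory

/-- For all positive edge lengths and every edge `s t` of `G` some map `f` of the vertices into
some `L₁(Ω, μ; ℝ)` does not increase distances, decreases them at most by the factor `D`, and
preserves the distance of `s` and `t`. -/
def EdgeIso {V : Type} (G : SimpleGraph V) (D : ℝ) : Prop :=
  ∀ ℓ : Sym2 V → ℝ, (∀ e ∈ G.edgeSet, 0 < ℓ e) → ∀ s t : V, G.Adj s t →
    ∃ (Ω : Type) (_ : MeasurableSpace Ω) (μ : Measure Ω) (f : V → Lp ℝ 1 μ),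
      ‖f s - f t‖ = pathDist G ℓ s t ∧
      ∀ x y, ‖f x - f y‖ ≤ pathDist G ℓ x y ∧ pathDist G ℓ x y ≤ D * ‖f x - f y‖

/-- The graphs of treewidth at most `3` and the graphs of pathwidth at most `w`. -/
def Piece (w : ℕ) (V : Type) (G : SimpleGraph V) : Prop := TreewidthLE G 3 ∨ PathwidthLE G w

/-- `BuiltOver P w j G`: the base graphs (round `0`) are those of `P`; every round is closed under
gluing two graphs at one vertex; and `G` is allowed in round `j + 1` in each of these cases.
`compose`: there is a nonempty vertex set `X` such that every component of `G - X` has at most `w`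
neighbours in `X`, and the torso of `X` and all components of `G - X` are allowed in round `j`.
`pathSum`: `G` has a path decomposition with bags of any size in which consecutive bags share at
most `w` vertices, and all components of the subgraph induced on any bag are allowed in round `j`.
`path`: for all positive edge lengths there is a shortest path, with vertex set `Q ℓ`, such that
all components of `G - Q ℓ` are allowed in round `j`. -/
inductive BuiltOver (P : ∀ (V : Type), SimpleGraph V → Prop) (w : ℕ) :
    ℕ → ∀ {V : Type}, SimpleGraph V → Prop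
  | base {V : Type} {G : SimpleGraph V} : P V G → BuiltOver P w 0 G
  | lift {j : ℕ} {V : Type} {G : SimpleGraph V} : BuiltOver P w j G → BuiltOver P w (j + 1) G
  | vertexSum {j : ℕ} {V : Type} {G : SimpleGraph V} {A B : Set V} {v : V} :
      A ∪ B = Set.univ → A ∩ B = {v} → (∀ a b, a ∉ B → b ∉ A → ¬ G.Adj a b) →
      BuiltOver P w j (G.induce A) → BuiltOver P w j (G.induce B) → BuiltOver P w j G
  | compose {j : ℕ} {V : Type} {G : SimpleGraph V} {X : Set V} : X.Nonempty →
      (∀ u ∉ X, (attach G X u).ncard ≤ w) → BuiltOver P w j (torso G X) →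
      (∀ u ∉ X, BuiltOver P w j (G.induce (compSet G X u))) → BuiltOver P w (j + 1) G
  | pathSum {j n : ℕ} {V : Type} {G : SimpleGraph V} {B : Fin n → Set V} : PathDec G w B →
      (∀ i, ∀ u ∈ B i, BuiltOver P w j (G.induce (compSet G (B i)ᶜ u))) → BuiltOver P w (j + 1) G
  | path {j : ℕ} {V : Type} {G : SimpleGraph V} {Q : (Sym2 V → ℝ) → Set V} :
      (∀ ℓ : Sym2 V → ℝ, (∀ e ∈ G.edgeSet, 0 < ℓ e) → ∃ (x y : V) (q : G.Walk x y),
        (q.edges.map ℓ).sum = pathDist G ℓ x y ∧ Q ℓ = {v | v ∈ q.support}) →
      (∀ ℓ : Sym2 V → ℝ, (∀ e ∈ G.edgeSet, 0 < ℓ e) → ∀ u ∉ Q ℓ,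
        BuiltOver P w j (G.induce (compSet G (Q ℓ) u))) → BuiltOver P w (j + 1) G

end Vale.Agent.P235
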