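import Vale.Agent.P235.H206.RoundsDefs
import Vale.Agent.P235.Comp.Final

namespace Vale.Agent.P235

/-- the attachments of a component form a clique of the torso, so a bound on `c₁` of the torso
bounds their number -/
theorem attach_lt {C : ℝ} {N : ℕ} (hN : ∀ n ≥ N, ¬ DistortionLE (⊤ : SimpleGraph (Fin n)) C)
    {V : Type} [Finite V] {G : SimpleGraph V} (hG : G.Connected) {X : Set V} (hX : X.Nonempty)
    (ht : DistortionLE (torso G X) C) (u : V) : (attach G X u).ncard ≤ N := by
  classical
  by_contra hlt
  push Not at hlt
  set n := (attach G X u).ncard with hn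
  have : Fintype (attach G X u) := Fintype.ofFinite _
  have hcard : Fintype.card (attach G X u) = n := by
    rw [hn, ← Nat.card_coe_set_eq, Nat.card_eq_fintype_card]
  let e : Fin n ≃ attach G X u := (Fintype.equivFinOfCardEq hcard).symm
  have hn0 : 0 < n := lt_of_le_of_lt (Nat.zero_le N) hlt
  have : Nonempty (Fin n) := ⟨⟨0, hn0⟩⟩
  refine hN n hlt.le (DistortionLE.emb (G := torso G X) (H := (⊤ : SimpleGraph (Fin n)))
    (fun i => (⟨(e i).1, (e i).2.1⟩ : X)) ?_ ?_ (torso_connected hG hX)
    SimpleGraph.connected_top ht)
  · intro i i' h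
    have h' : (e i).1 = (e i').1 := congrArg (fun z : X => z.1) h
    exact e.injective (Subtype.ext h')
  · intro a b hab
    refine ⟨fun h => ?_, Or.inr ⟨u, (e a).2, (e b).2⟩⟩
    have h' : (e a).1 = (e b).1 := congrArg (fun z : X => z.1) h
    exact hab.ne (e.injective (Subtype.ext h'))

/-- Composition without a bound on the number of attachments. -/
theorem composition_free
    (hcomplete : ∀ C : ℝ, ∃ N : ℕ, ∀ n ≥ N, ¬ DistortionLE (⊤ : SimpleGraph (Fin n)) C) (C : ℝ) :
    ∃ K : ℝ, ∀ (V : Type) [Finite V] (G : SimpleGraph V), G.Connected →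
      ∀ X : Set V, X.Nonempty → DistortionLE (torso G X) C →
      (∀ u ∉ X, DistortionLE (G.induce (compSet G X u)) C) → DistortionLE G K := by
  obtain ⟨N, hN⟩ := hcomplete C
  obtain ⟨K, hK⟩ := composition N C
  exact ⟨K, fun V _ G hG X hX ht hk => hK V G hG X hX (fun u _ => attach_lt hN hG hX ht u) ht hk⟩

theorem rounds_bounded
    (hcomplete : ∀ C : ℝ, ∃ N : ℕ, ∀ n ≥ N, ¬ DistortionLE (⊤ : SimpleGraph (Fin n)) C)
    (P : ∀ (V : Type), SimpleGraph V → Prop) (C0 : ℝ)
    (hP : ∀ (V : Type) [Finite V] (G : SimpleGraph V), G.Connected → P V G → DistortionLE G C0)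
    (w j : ℕ) :
    ∃ C : ℝ, ∀ (V : Type) [Finite V] (G : SimpleGraph V), G.Connected →
      Rounds P w j G → DistortionLE G C := by
  choose N hN using hcomplete
  let c : ℕ → ℝ := fun j => Nat.rec (max 1 C0)
    (fun _ C => max (max (compK (N C) C) (psK w C)) (1 + 2 * (96 * C + 112))) j
  have hc0 : c 0 = max 1 C0 := rfl
  have hcs : ∀ j, c (j + 1) = max (max (compK (N (c j)) (c j)) (psK w (c j)))
      (1 + 2 * (96 * c j + 112)) := fun j => rfl
  have hc1 : ∀ j, 1 ≤ c j := by
    intro j
    induction j with
    | zero => exact le_max_left _ _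
    | succ j ih =>
      exact ih.trans (by
        rw [hcs]
        exact (le_compK _ ih).trans ((le_max_left _ _).trans (le_max_left _ _)))
  refine ⟨c j, fun V _ G hconn hG => ?_⟩
  revert hconn
  have key : ∀ {j : ℕ} {V : Type} {G : SimpleGraph V}, Rounds P w j G → Finite V →
      G.Connected → DistortionLE G (c j) := by
    intro j V G hG
    induction hG with
    | base hG =>
      intro _ hconn
      exact (hP _ _ hconn hG).mono (le_max_right _ _)
    | @lift j V G hG ih =>
      intro hfin hconn
      exact (ih hfin hconn).mono ((le_compK (N (c j)) (hc1 j)).trans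
        ((le_max_left _ _).trans (le_max_left _ _)))
    | @vertexSum j V G A B v hU hI hn hA hB ihA ihB =>
      intro hfin hconn
      have hcA := side_connected hconn hU hI hn
      have hcB : (G.induce B).Connected := side_connected hconn
        (by rw [Set.union_comm]; exact hU) (by rw [Set.inter_comm]; exact hI)
        (fun a b ha hb h => hn b a hb ha h.symm)
      exact distortion_vertexSum (one_pos.trans_le (hc1 j)) hconn hU hI hn
        (ihA inferInstance hcA) (ihB inferInstance hcB)
    | @compose j V G X hX ht hk iht ihk =>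
      intro hfin hconn
      have ht' := iht inferInstance (torso_connected hconn hX)
      exact (distortion_compose2 (hc1 j) hconn hX (fun u _ => attach_lt (hN (c j)) hconn hX ht' u)
        ht' fun u hu => ihk u hu inferInstance (comp_connected hu)).mono
        ((le_max_left _ _).trans (le_max_left _ _))
    | @pathSum j n V G B hB hk ihk =>
      intro hfin hconn
      exact (distortion_pathSum (hc1 j) w V G hconn n B ⟨hB.cover, hB.edge, hB.conv⟩ hB.adh
        fun i u hu => ihk i u hu inferInstance (comp_connected (by simpa using hu))).mono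
        ((le_max_right _ _).trans (le_max_left _ _))
    | @path j V G Q hQ hk ihk =>
      intro hfin hconn
      refine (distortion_geodesic (one_pos.trans_le (hc1 j)) hconn fun ℓ hℓ => ?_).mono
        (le_max_right _ _)
      obtain ⟨x, y, q, hq, hQe⟩ := hQ ℓ hℓ
      refine ⟨x, y, q, hq, fun u hu => ?_⟩
      have hu' : u ∉ Q ℓ := by rw [hQe]; exact hu
      have h := ihk ℓ hℓ u hu' inferInstance (comp_connected hu')
      rw [hQe] at h
      exact h
  exact key hG inferInstance

end Vale.Agent.P235
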