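import Vale.Agent.P235.H206.SurfFinal
import Vale.Agent.P235.H206.AllSurfDefs
import Vale.Agent.P235.H536.AllRounds

/-!
# All operations, iterated, with surfaces
-/

namespace Vale.Agent.P235

open H536 H206

theorem allSurf_bounded (C0 : ℝ) (w j : ℕ) :
    ∃ C : ℝ, ∀ P : ∀ (V : Type), SimpleGraph V → Prop,
      (∀ (V : Type) [Finite V] (G : SimpleGraph V), G.Connected → P V G → DistortionLE G C0) →
      ∀ (V : Type) [Finite V] (G : SimpleGraph V), G.Connected →
        AllSurf P w j G → DistortionLE G C := by
  have hcomplete := complete_unbounded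
  choose N hN using hcomplete
  let f : ℝ → ℝ := fun C => max (max (compK (N C) C) (psK w C))
    (max (5000000 * (C + (1 : ℕ) * (w + Real.log (w + 2)))) (10000000 * (C + Real.log (w + 2))))
  let c : ℕ → ℝ := fun j => Nat.rec (max 1 C0) (fun _ C => f C) j
  have hcs : ∀ j, c (j + 1) = f (c j) := fun j => rfl
  have f1 : ∀ C, compK (N C) C ≤ f C := fun C => (le_max_left _ _).trans (le_max_left _ _)
  have f2 : ∀ C, psK w C ≤ f C := fun C => (le_max_right _ _).trans (le_max_left _ _)
  have f3 : ∀ C, 5000000 * (C + (1 : ℕ) * (w + Real.log (w + 2))) ≤ f C := fun C =>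
    (le_max_left _ _).trans (le_max_right _ _)
  have f4 : ∀ C, 10000000 * (C + Real.log (w + 2)) ≤ f C := fun C =>
    (le_max_right _ _).trans (le_max_right _ _)
  have hc1 : ∀ j, 1 ≤ c j := by
    intro j
    induction j with
    | zero => exact le_max_left _ _
    | succ j ih =>
      rw [hcs]
      exact ih.trans ((le_compK _ ih).trans (f1 _))
  refine ⟨c j, fun P hP V _ G hconn hG => ?_⟩
  revert hconn
  have key : ∀ {j : ℕ} {V : Type} {G : SimpleGraph V}, AllSurf P w j G → Finite V →
      G.Connected → DistortionLE G (c j) := by
    intro j V G hG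
    induction hG with
    | base hG =>
      intro _ hconn
      exact (hP _ _ hconn hG).mono (le_max_right _ _)
    | @lift j V G hG ih =>
      intro hfin hconn
      exact (ih hfin hconn).mono ((le_compK (N (c j)) (hc1 j)).trans (f1 _))
    | @vertexSum j V G A B v hU hI hn hA hB ihA ihB =>
      intro hfin hconn
      have hcA := side_connected hconn hU hI hn
      have hcB : (G.induce B).Connected := side_connected hconn
        (by rw [Set.union_comm]; exact hU) (by rw [Set.inter_comm]; exact hI)
        (fun a b ha hb h => hn b a hb ha h.symm)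
      exact distortion_vertexSum (one_pos.trans_le (hc1 j)) hconn hU hI hn
        (ihA inferInstance hcA) (ihB inferInstance hcB)
    | @compose j V G X hX ht hk iht ihk =>
      intro hfin hconn
      have ht' := iht inferInstance (torso_connected hconn hX)
      exact (distortion_compose2 (hc1 j) hconn hX (fun u _ => attach_lt (hN (c j)) hconn hX ht' u)
        ht' fun u hu => ihk u hu inferInstance (comp_connected hu)).mono (f1 _)
    | @pathSum j n V G B hB hk ihk =>
      intro hfin hconn
      exact (distortion_pathSum (hc1 j) w V G hconn n B ⟨hB.cover, hB.edge, hB.conv⟩ hB.adh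
        fun i u hu => ihk i u hu inferInstance (comp_connected (by simpa using hu))).mono (f2 _)
    | @lanes j V G X hX hk ihk =>
      intro hfin hconn
      exact (surfStrip_distortion (fun _ G => DistortionLE G (c j)) (hc1 j) (fun _ _ _ _ h => h) w
        w 1 V G hconn fun ℓ hℓ =>
        SurfStrip.lanes (hX ℓ hℓ).1 (hX ℓ hℓ).2 fun u hu =>
          SurfStrip.leaf (ihk ℓ hℓ u hu inferInstance (comp_connected hu))).mono (f3 _)
    | @face j V G σ d hσ hk ihk =>
      intro hfin hconn
      exact (surfStrip_distortion (fun _ G => DistortionLE G (c j)) (hc1 j) (fun _ _ _ _ h => h) w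
        w 1 V G hconn fun ℓ hℓ =>
        SurfStrip.face hσ fun u hu =>
          SurfStrip.leaf (ihk u hu inferInstance (comp_connected hu))).mono (f3 _)
    | @genus j V G σ hσ hk ihk =>
      intro hfin hconn
      exact (genus_distortion w (hc1 j) V G hconn ⟨σ, hσ⟩ fun S hS hp =>
        ihk S hS hp inferInstance hS).mono (f4 _)
  exact key hG inferInstance

end Vale.Agent.P235
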