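import Vale.Agent.P235.H206.LogExt
import Vale.Agent.P235.H206.Rounds
import Vale.Agent.P235.H392.Complete

/-!
# The composition theorem without a bound on the number of neighbours
-/

namespace Vale.Agent.P235

theorem composition_log {C K : ℝ} (hC : 1 ≤ C) (hK : 1 ≤ K) (V : Type) [Finite V]
    (G : SimpleGraph V) (hG : G.Connected) (X : Set V) (hX : X.Nonempty)
    (ht : DistortionLE (torso G X) C)
    (hk : ∀ u ∉ X, DistortionLE (G.induce (compSet G X u)) K) :
    DistortionLE G (30000 * C * (C * Real.log (C + 1) + K)) := by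
  have hL : Real.log 2 ≤ Real.log (C + 1) := Real.log_le_log (by norm_num) (by linarith)
  have hl2 : (0.69 : ℝ) < Real.log 2 := by
    have := Real.log_two_gt_d9
    linarith
  set L := Real.log (C + 1) with hLdef
  have hCL : 0.69 ≤ C * L := by nlinarith
  set m : ℕ := ⌈77 * C * L / Real.log 2⌉₊ + 1 with hm
  have hm1 : 1 ≤ m := by omega
  have hle : 77 * C * L / Real.log 2 ≤ ((m - 1 : ℕ) : ℝ) := by
    simp only [hm, Nat.add_sub_cancel]
    exact Nat.le_ceil _
  have hlt : (m : ℝ) ≤ 77 * C * L / Real.log 2 + 2 := by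
    have h0 : 0 ≤ 77 * C * L / Real.log 2 := by
      apply div_nonneg <;> nlinarith
    have := Nat.ceil_lt_add_one h0
    rw [hm]
    push_cast
    linarith
  have hN : ∀ n ≥ 2 ^ (m - 1), ¬ DistortionLE (⊤ : SimpleGraph (Fin n)) C := by
    intro n hn
    refine complete_log_explicit hC ?_
    have h1 : Real.log ((2 : ℝ) ^ (m - 1)) ≤ Real.log n :=
      Real.log_le_log (by positivity) (by exact_mod_cast hn)
    rw [Real.log_pow] at h1
    rw [div_le_iff₀ (by linarith)] at hle
    linarith
  have h := distortion_compose_log (m := m) (w := 2 ^ (m - 1)) hm1 le_rfl hC hK hG hX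
    (fun u _ => attach_lt hN hG hX ht u) ht hk
  refine h.mono ?_
  have h2 : 77 * C * L / Real.log 2 ≤ 112 * (C * L) := by
    rw [div_le_iff₀ (by linarith)]
    nlinarith
  have h3 : (m : ℝ) ≤ 115 * (C * L) := by linarith
  have h4 : 216 * (m : ℝ) * C ≤ 216 * (115 * (C * L)) * C := by
    have := mul_le_mul_of_nonneg_right h3 (by linarith : (0 : ℝ) ≤ C)
    linarith
  have h5 : (1 + 3 * C) * (96 * K + 112) ≤ 4 * C * (208 * K) :=
    mul_le_mul (by linarith) (by linarith) (by linarith) (by linarith)
  have h6 : 0 ≤ C * (C * L) := by positivity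
  have h7 : 0 ≤ C * K := by positivity
  nlinarith

theorem composition_free' (C : ℝ) :
    ∃ K : ℝ, ∀ (V : Type) [Finite V] (G : SimpleGraph V), G.Connected →
      ∀ X : Set V, X.Nonempty → DistortionLE (torso G X) C →
      (∀ u ∉ X, DistortionLE (G.induce (compSet G X u)) C) → DistortionLE G K :=
  composition_free complete_unbounded C

theorem rounds_bounded' (P : ∀ (V : Type), SimpleGraph V → Prop) (C0 : ℝ)
    (hP : ∀ (V : Type) [Finite V] (G : SimpleGraph V), G.Connected → P V G → DistortionLE G C0)
    (w j : ℕ) :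
    ∃ C : ℝ, ∀ (V : Type) [Finite V] (G : SimpleGraph V), G.Connected →
      Rounds P w j G → DistortionLE G C :=
  rounds_bounded complete_unbounded P C0 hP w j

end Vale.Agent.P235
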