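import Vale.Agent.P235.H206.TDDefs
import Vale.Agent.P235.H206.Defs
import Vale.Agent.P235.Comp.Core

namespace Vale.Agent.P235

open SimpleGraph

section tree

variable {ι : Type} {T : SimpleGraph ι} {r : ι} {Fr : ι → ι → Prop}

theorem walk_of_induce {S : Set ι} {x y : S} (w : (T.induce S).Walk x y) :
    ∃ w' : T.Walk x.1 y.1, ∀ z ∈ w'.support, z ∈ S := by
  refine ⟨w.map (Embedding.induce S).toHom, fun z h => ?_⟩
  have h' : z ∈ w.support.map (Embedding.induce (G := T) S).toHom := by
    rw [← Walk.support_map]; exact h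
  rw [List.mem_map] at h'
  obtain ⟨z', _, hz⟩ := h'
  exact hz ▸ z'.2

/-- the nodes whose path from the root has only good edges -/
def RootSet (T : SimpleGraph ι) (r : ι) (Fr : ι → ι → Prop) : Set ι :=
  {t | ∃ p : T.Walk r t, p.IsPath ∧ ∀ a b, s(a, b) ∈ p.edges → Fr a b}

theorem root_mem : r ∈ RootSet T r Fr := ⟨Walk.nil, Walk.IsPath.nil, by simp⟩

theorem rootSet_path (hT : T.IsTree) {t : ι} (ht : t ∈ RootSet T r Fr) (p : T.Walk r t)
    (hp : p.IsPath) : ∀ a b, s(a, b) ∈ p.edges → Fr a b := by
  obtain ⟨q, hq, h⟩ := ht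
  rw [(hT.existsUnique_path r t).unique hp hq]
  exact h

theorem rootSet_support [DecidableEq ι] {t : ι} (p : T.Walk r t) (hp : p.IsPath)
    (h : ∀ a b, s(a, b) ∈ p.edges → Fr a b) : ∀ z ∈ p.support, z ∈ RootSet T r Fr := by
  intro z hz
  exact ⟨p.takeUntil z hz, hp.takeUntil hz, fun a b hab =>
    h a b (p.edges_takeUntil_subset_edges hz hab)⟩

theorem first_bad (hT : T.IsTree) (hsymm : ∀ a b, Fr a b → Fr b a) {t : ι} (q : T.Walk t r)
    (hq : q.IsPath) : (∀ a b, s(a, b) ∈ q.edges → Fr a b) ∨
      ∃ a b, s(a, b) ∈ q.edges ∧ ¬ Fr a b ∧ T.Adj a b ∧ a ∈ RootSet T r Fr ∧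
        b ∉ RootSet T r Fr := by
  induction q with
  | nil => left; simp
  | @cons t t' r h q ih =>
    have hq' : q.IsPath := hq.of_cons
    rcases ih hq' with hall | ⟨a, b, hab, hbad, hadj, ha, hb⟩
    · by_cases hf : Fr t t'
      · left
        intro a b hab
        rw [Walk.edges_cons, List.mem_cons] at hab
        rcases hab with hab | hab
        · rw [Sym2.eq_iff] at hab
          rcases hab with ⟨rfl, rfl⟩ | ⟨rfl, rfl⟩
          · exact hf
          · exact hsymm _ _ hf
        · exact hall a b hab
      · right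
        refine ⟨t', t, ?_, fun h' => hf (hsymm _ _ h'), h.symm, ⟨q.reverse, hq'.reverse, ?_⟩, ?_⟩
        · rw [Walk.edges_cons, Sym2.eq_swap]; exact List.mem_cons_self
        · intro a b hab
          rw [Walk.edges_reverse, List.mem_reverse] at hab
          exact hall a b hab
        · intro ht
          have := rootSet_path hT ht (Walk.cons h q).reverse hq.reverse t t' (by
            rw [Walk.edges_reverse, List.mem_reverse, Walk.edges_cons]
            exact List.mem_cons_self)
          exact hf this
    · right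
      exact ⟨a, b, by rw [Walk.edges_cons]; exact List.mem_cons_of_mem _ hab, hbad, hadj, ha, hb⟩

theorem gate (hT : T.IsTree) (hsymm : ∀ a b, Fr a b → Fr b a) {t0 : ι}
    (ht0 : t0 ∉ RootSet T r Fr) :
    ∃ a ∈ RootSet T r Fr, ∃ side : Set ι, t0 ∈ side ∧ (∀ c ∈ side, c ∉ RootSet T r Fr) ∧
      ∀ S : Set ι, (T.induce S).Preconnected → ∀ t ∈ S, t ∈ side → ∀ c ∈ S, c ∉ side → a ∈ S := by
  classical
  obtain ⟨q, hq, -⟩ := hT.existsUnique_path t0 r
  rcases first_bad hT hsymm q hq with hall | ⟨a, b, hab, hbad, hadj, ha, hb⟩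
  · exact absurd ⟨q.reverse, hq.reverse, fun a b hab => by
      rw [Walk.edges_reverse, List.mem_reverse] at hab
      exact hall a b hab⟩ ht0
  have hbr : ∀ p : T.Walk a b, s(a, b) ∈ p.edges := by
    have := (isAcyclic_iff_forall_adj_isBridge.mp hT.isAcyclic) hadj
    exact isBridge_iff_forall_walk_mem_edges.mp this
  have hroot : ∀ c ∈ RootSet T r Fr, ∃ p : T.Walk r c, s(a, b) ∉ p.edges := by
    rintro c ⟨p, hp, hfree⟩
    refine ⟨p, fun he => hb ?_⟩
    exact rootSet_support p hp hfree b (p.snd_mem_support_of_mem_edges he)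
  obtain ⟨pa, hpa⟩ := hroot a ha
  refine ⟨a, ha, {t | ∃ p : T.Walk b t, s(a, b) ∉ p.edges}, ?_, ?_, ?_⟩
  · -- `t0` is on the side of `b`
    have hany : ∀ (t : ι) (w : T.Walk t a), (∃ p : T.Walk t a, s(a, b) ∉ p.edges) ∨
        (∃ p : T.Walk t b, s(a, b) ∉ p.edges) := by
      intro t w
      generalize hz : a = z at w
      induction w with
      | nil => subst hz; left; exact ⟨Walk.nil, by simp⟩
      | @cons t t' z h w ih =>
        subst hz
        by_cases he : s(a, b) = s(t, t')
        · rw [Sym2.eq_iff] at he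
          rcases he with ⟨h1, h2⟩ | ⟨h1, h2⟩
          · left; rw [← h1]; exact ⟨Walk.nil, by simp⟩
          · right; rw [← h2]; exact ⟨Walk.nil, by simp⟩
        · rcases ih rfl with ⟨p, hp⟩ | ⟨p, hp⟩
          · left
            refine ⟨Walk.cons h p, ?_⟩
            rw [Walk.edges_cons, List.mem_cons, not_or]
            exact ⟨he, hp⟩
          · right
            refine ⟨Walk.cons h p, ?_⟩
            rw [Walk.edges_cons, List.mem_cons, not_or]
            exact ⟨he, hp⟩
    obtain ⟨w⟩ := hT.connected.preconnected t0 a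
    rcases hany t0 w with ⟨p, hp⟩ | ⟨p, hp⟩
    · exfalso
      have h1 : s(a, b) ∉ (p.append pa.reverse).edges := by
        rw [Walk.edges_append, List.mem_append, not_or, Walk.edges_reverse, List.mem_reverse]
        exact ⟨hp, hpa⟩
      have h2 : (p.append pa.reverse).bypass = q :=
        (hT.existsUnique_path t0 r).unique (Walk.bypass_isPath _) hq
      rw [← h2] at hab
      exact h1 (Walk.edges_bypass_subset_edges _ hab)
    · exact ⟨p.reverse, by rw [Walk.edges_reverse, List.mem_reverse]; exact hp⟩
  · rintro c ⟨p, hp⟩ hc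
    obtain ⟨pc, hpc⟩ := hroot c hc
    have := hbr ((pa.reverse.append pc).append p.reverse)
    rw [Walk.edges_append, List.mem_append, Walk.edges_append, List.mem_append,
      Walk.edges_reverse, List.mem_reverse, Walk.edges_reverse, List.mem_reverse] at this
    rcases this with (h | h) | h
    · exact hpa h
    · exact hpc h
    · exact hp h
  · rintro S hS t htS ⟨p, hp⟩ c hcS hc
    by_contra haS
    obtain ⟨w⟩ := hS ⟨t, htS⟩ ⟨c, hcS⟩
    apply hc
    obtain ⟨w', hw'⟩ := walk_of_induce w
    have hsupp : a ∉ w'.support := fun h => haS (hw' a h)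
    refine ⟨p.append w', ?_⟩
    rw [Walk.edges_append, List.mem_append, not_or]
    exact ⟨hp, fun h => hsupp (w'.fst_mem_support_of_mem_edges h)⟩

theorem rootSet_inter (hT : T.IsTree) {S : Set ι} (hS : (T.induce S).Preconnected) :
    (T.induce (RootSet T r Fr ∩ S)).Preconnected := by
  classical
  rintro ⟨t1, ⟨p1, hp1, hf1⟩, ht1⟩ ⟨t2, ⟨p2, hp2, hf2⟩, ht2⟩
  obtain ⟨w⟩ := hS ⟨t1, ht1⟩ ⟨t2, ht2⟩
  obtain ⟨w', hw'⟩ := walk_of_induce w
  have he : w'.bypass = (p1.reverse.append p2).bypass :=
    (hT.existsUnique_path t1 t2).unique (Walk.bypass_isPath _) (Walk.bypass_isPath _)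
  have hmem : ∀ z ∈ w'.bypass.support, z ∈ RootSet T r Fr ∩ S := by
    intro z hz
    refine ⟨?_, hw' z (Walk.support_bypass_subset_support _ hz)⟩
    rw [he] at hz
    have hz' := Walk.support_bypass_subset_support _ hz
    rw [Walk.mem_support_append_iff, Walk.support_reverse, List.mem_reverse] at hz'
    rcases hz' with h | h
    · exact rootSet_support p1 hp1 hf1 z h
    · exact rootSet_support p2 hp2 hf2 z h
  exact ⟨w'.bypass.induce _ hmem⟩

/-- an edge inside the root set is good -/
theorem rootSet_adj (hT : T.IsTree) (hsymm : ∀ a b, Fr a b → Fr b a) {a b : ι}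
    (ha : a ∈ RootSet T r Fr) (hb : b ∈ RootSet T r Fr) (hab : T.Adj a b) : Fr a b := by
  classical
  obtain ⟨p, hp, hf⟩ := ha
  by_cases h : b ∈ p.support
  · have h1 : p.dropUntil b h = hab.symm.toWalk :=
      (hT.existsUnique_path b a).unique (hp.dropUntil h) (by
        simp [hab.ne'])
    have h2 : s(b, a) ∈ (p.dropUntil b h).edges := by rw [h1]; simp
    exact hsymm _ _ (hf b a (p.edges_dropUntil_subset_edges h h2))
  · have hq : (p.concat hab).IsPath := hp.concat h hab
    exact rootSet_path hT hb _ hq a b (by rw [Walk.edges_concat]; simp)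

end tree

section td

theorem FreeEdge.symm {V ι : Type} {B : ι → Finset V} {a b : ι} (h : FreeEdge B a b) :
    FreeEdge B b a := by
  unfold FreeEdge at *
  have e : {v | v ∈ B b ∧ v ∈ B a} = {v | v ∈ B a ∧ v ∈ B b} := by
    ext v; exact and_comm
  rw [e]
  exact h.imp id fun h => ⟨h.2, h.1⟩

theorem FreeEdge.comap {V W ι : Type} {B : ι → Finset V} {B' : ι → Finset W} {a b : ι}
    (f : W → V) (hf : Function.Injective f) (hB : ∀ t w, w ∈ B' t → f w ∈ B t)
    (h : FreeEdge B a b) : FreeEdge B' a b := by
  have hc : ∀ t, (B' t).card ≤ (B t).card := fun t =>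
    Finset.card_le_card_of_injOn f (fun w hw => hB t w hw) hf.injOn
  rcases h with h | h
  · left
    refine le_trans (Set.ncard_le_ncard_of_injOn f ?_ hf.injOn ?_) h
    · rintro w ⟨h1, h2⟩
      exact ⟨hB a w h1, hB b w h2⟩
    · exact (B a).finite_toSet.subset fun v hv => hv.1
  · right
    exact ⟨(hc a).trans h.1, (hc b).trans h.2⟩

theorem FreeEdge.of_empty {V ι : Type} {B : ι → Finset V} {a b : ι} (h : B a = ∅) :
    FreeEdge B a b := by
  left
  have e : {v | v ∈ B a ∧ v ∈ B b} = ∅ := by
    ext v; simp [h]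
  rw [e]
  simp

/-- Tree decompositions in which every path from the root has at most `j` edges that are not free
are reached in `j` rounds from those all whose edges are free. -/
theorem depth_builtOver (k j : ℕ) : ∀ {V : Type} [Finite V] (G : SimpleGraph V), G.Connected →
    DepthTD k j G → BuiltOver (fun _ G => DepthTD k 0 G) (k + 1) j G := by
  classical
  induction j with
  | zero => intro V _ G _ h; exact BuiltOver.base h
  | succ j ih =>
    intro V _ G hG hD
    obtain ⟨ι, hι, T, B, r, hT, hcov, hedge, hconn, hcard, hpath⟩ := hD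
    have hsymm : ∀ a b, FreeEdge B a b → FreeEdge B b a := fun a b h => h.symm
    set R0 := RootSet T r (FreeEdge B) with hR0
    set X : Set V := {v | ∃ t ∈ R0, v ∈ B t} with hX
    -- a vertex of `X` in a bag off the root set lies in the gate bag
    have hgate : ∀ t0, t0 ∉ R0 → ∃ a ∈ R0, ∃ side : Set ι, t0 ∈ side ∧ (∀ c ∈ side, c ∉ R0) ∧
        (∀ x ∈ X, ∀ t ∈ side, x ∈ B t → x ∈ B a) ∧
        (∀ x, x ∉ B a → ∀ t ∈ side, x ∈ B t → ∀ c, x ∈ B c → c ∈ side) := by
      intro t0 ht0
      obtain ⟨a, ha, side, h1, h2, h3⟩ := gate hT hsymm ht0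
      refine ⟨a, ha, side, h1, h2, ?_, ?_⟩
      · rintro x ⟨c, hc, hxc⟩ t ht hxt
        exact h3 _ (hconn x) t hxt ht c hxc (fun h => h2 c h hc)
      · intro x hxa t ht hxt c hxc
        by_contra hcs
        exact hxa (h3 _ (hconn x) t hxt ht c hxc hcs)
    have hrR : r ∈ R0 := root_mem
    have hXne : X.Nonempty := by
      by_contra hne
      rw [Set.not_nonempty_iff_eq_empty] at hne
      have hempty : ∀ t ∈ R0, B t = ∅ := by
        intro t ht
        rw [Finset.eq_empty_iff_forall_notMem]
        intro v hv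
        have : v ∈ X := ⟨t, ht, hv⟩
        rw [hne] at this
        exact this
      have hall : ∀ t, t ∈ R0 := by
        intro t
        by_contra ht
        obtain ⟨q, hq, -⟩ := hT.existsUnique_path t r
        rcases first_bad hT hsymm q hq with hf | ⟨a, b, hab, hbad, hadj, ha, hb⟩
        · exact ht ⟨q.reverse, hq.reverse, fun a b hab => by
            rw [Walk.edges_reverse, List.mem_reverse] at hab
            exact hf a b hab⟩
        · exact hbad (FreeEdge.of_empty (hempty a ha))
      obtain ⟨v⟩ := hG.nonempty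
      obtain ⟨t, ht⟩ := hcov v
      rw [hempty t (hall t)] at ht
      simp at ht
    -- all bags of a component are on one side
    have hcomp : ∀ u ∉ X, ∃ a ∈ R0, ∀ x ∈ attach G X u, x ∈ B a := by
      intro u hu
      obtain ⟨t0, ht0⟩ := hcov u
      have ht0R : t0 ∉ R0 := fun h => hu ⟨t0, h, ht0⟩
      obtain ⟨a, ha, side, h1, h2, h3, h4⟩ := hgate t0 ht0R
      have hoff : ∀ v, v ∉ X → v ∉ B a := fun v hv h => hv ⟨a, ha, h⟩
      have hside : ∀ v ∈ compSet G X u, ∀ t, v ∈ B t → t ∈ side := by
        rintro v ⟨p, hp⟩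
        have key : ∀ (x y : V) (p : G.Walk x y), (∀ c ∈ p.support, c ∉ X) →
            (∀ t, x ∈ B t → t ∈ side) → ∀ t, y ∈ B t → t ∈ side := by
          intro x y p
          induction p with
          | nil => intro _ h; exact h
          | @cons x z y h p ihp =>
            intro hp hx
            rw [Walk.support_cons] at hp
            refine ihp (fun c hc => hp c (List.mem_cons_of_mem _ hc)) fun t ht => ?_
            obtain ⟨s, hs1, hs2⟩ := hedge x z h
            have hz : z ∉ X := hp z (List.mem_cons_of_mem _ p.start_mem_support)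
            exact h4 z (hoff z hz) s (hx s hs1) hs2 t ht
        exact key u v p hp fun t ht => h4 u (hoff u hu) t0 h1 ht0 t ht
      refine ⟨a, ha, ?_⟩
      rintro x ⟨hxX, v, hv, hvx⟩
      obtain ⟨s, hs1, hs2⟩ := hedge v x hvx
      exact h3 x hxX s (hside v hv s hs1) hs2
    have hXadj : ∀ x ∈ X, ∀ y ∈ X, G.Adj x y → ∃ a ∈ R0, x ∈ B a ∧ y ∈ B a := by
      intro x hx y hy hxy
      obtain ⟨t, ht1, ht2⟩ := hedge x y hxy
      by_cases ht : t ∈ R0
      · exact ⟨t, ht, ht1, ht2⟩
      · obtain ⟨a, ha, side, h1, h2, h3, h4⟩ := hgate t ht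
        exact ⟨a, ha, h3 x hx t h1 ht1, h3 y hy t h1 ht2⟩
    have hfinX : X.Finite := Set.toFinite X
    refine BuiltOver.compose hXne ?_ ?_ ?_
    · -- number of neighbours
      intro u hu
      obtain ⟨a, ha, h⟩ := hcomp u hu
      have h1 : (attach G X u).ncard ≤ ((B a : Finset V) : Set V).ncard :=
        Set.ncard_le_ncard (fun x hx => h x hx) (B a).finite_toSet
      rw [Set.ncard_coe_finset] at h1
      exact h1.trans (hcard a)
    · -- the torso
      have hfin : Finite X := inferInstance
      have hbase : DepthTD k 0 (torso G X) := by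
        let B' : ι → Finset X := fun t => if t ∈ R0 then (B t).subtype (· ∈ X) else ∅
        have hB'1 : ∀ t ∈ R0, ∀ x : X, x ∈ B' t ↔ x.1 ∈ B t := by
          intro t ht x
          simp only [B', if_pos ht, Finset.mem_subtype]
        have hB'2 : ∀ t, t ∉ R0 → B' t = ∅ := by
          intro t ht
          simp only [B', if_neg ht]
        have hB' : ∀ t (x : X), x ∈ B' t → x.1 ∈ B t := by
          intro t x hx
          by_cases ht : t ∈ R0
          · exact (hB'1 t ht x).mp hx
          · rw [hB'2 t ht] at hx; simp at hx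
        refine ⟨ι, hι, T, B', r, hT, ?_, ?_, ?_, ?_, ?_⟩
        · rintro ⟨x, t, ht, hxt⟩
          exact ⟨t, (hB'1 t ht _).mpr hxt⟩
        · rintro ⟨x, hx⟩ ⟨y, hy⟩ ⟨_, h | ⟨u, h1, h2⟩⟩
          · obtain ⟨a, ha, h1, h2⟩ := hXadj x hx y hy h
            exact ⟨a, (hB'1 a ha _).mpr h1, (hB'1 a ha _).mpr h2⟩
          · by_cases hu : u ∈ X
            · obtain ⟨_, v, hv, _⟩ := h1
              exact absurd hu (ReachOff.left hv)
            · obtain ⟨a, ha, h⟩ := hcomp u hu
              exact ⟨a, (hB'1 a ha _).mpr (h x h1), (hB'1 a ha _).mpr (h y h2)⟩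
        · intro x
          have e : {t | x ∈ B' t} = R0 ∩ {t | x.1 ∈ B t} := by
            ext t
            constructor
            · intro hx
              have ht : t ∈ R0 := by
                by_contra ht
                rw [Set.mem_ofPred_eq, hB'2 t ht] at hx
                simp at hx
              exact ⟨ht, (hB'1 t ht x).mp hx⟩
            · rintro ⟨ht, hx⟩
              exact (hB'1 t ht x).mpr hx
          rw [e]
          exact rootSet_inter hT (hconn x.1)
        · intro t
          exact (Finset.card_le_card_of_injOn Subtype.val (fun w hw => hB' t w hw)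
            Subtype.val_injective.injOn).trans (hcard t)
        · intro t p hp
          refine ⟨∅, le_rfl, fun a b hab => Or.inl ?_⟩
          have hadj : T.Adj a b := p.adj_of_mem_edges hab
          by_cases ha : a ∈ R0
          · by_cases hb : b ∈ R0
            · exact (rootSet_adj hT hsymm ha hb hadj).comap Subtype.val Subtype.val_injective hB'
            · exact (FreeEdge.of_empty (hB'2 b hb)).symm
          · exact FreeEdge.of_empty (hB'2 a ha)
      have lift : ∀ i, BuiltOver (fun _ G => DepthTD k 0 G) (k + 1) i (torso G X) := by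
        intro i
        induction i with
        | zero => exact BuiltOver.base hbase
        | succ i ihi => exact BuiltOver.lift ihi
      exact lift j
    · -- the components
      intro u hu
      refine ih _ (comp_connected hu) ?_
      let K := compSet G X u
      let B' : ι → Finset K := fun t => (B t).subtype (· ∈ K)
      have hB' : ∀ t (x : K), x ∈ B' t ↔ x.1 ∈ B t := fun t x => by
        simp only [B', Finset.mem_subtype]
      have hBR : ∀ t ∈ R0, B' t = ∅ := by
        intro t ht
        rw [Finset.eq_empty_iff_forall_notMem]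
        rintro ⟨x, hx⟩ h
        exact (ReachOff.right hx) ⟨t, ht, (hB' t _).mp h⟩
      refine ⟨ι, hι, T, B', r, hT, ?_, ?_, ?_, ?_, ?_⟩
      · intro x
        obtain ⟨t, ht⟩ := hcov x.1
        exact ⟨t, (hB' t x).mpr ht⟩
      · intro x y hxy
        obtain ⟨t, h1, h2⟩ := hedge x.1 y.1 hxy
        exact ⟨t, (hB' t x).mpr h1, (hB' t y).mpr h2⟩
      · intro x
        have e : {t | x ∈ B' t} = {t | x.1 ∈ B t} := by
          ext t; exact hB' t x
        rw [e]
        exact hconn x.1
      · intro t
        exact (Finset.card_le_card_of_injOn Subtype.val (fun w hw => (hB' t w).mp hw)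
          Subtype.val_injective.injOn).trans (hcard t)
      · intro t p hp
        obtain ⟨S, hS, hSe⟩ := hpath t p hp
        have hfree' : ∀ a b, FreeEdge B a b → FreeEdge B' a b := fun a b h =>
          h.comap Subtype.val Subtype.val_injective fun t w hw => (hB' t w).mp hw
        rcases first_bad hT hsymm p.reverse hp.reverse with hall | ⟨a, b, hab, hbad, hadj, ha, hb⟩
        · refine ⟨∅, Nat.zero_le _, fun a b hab => Or.inl (hfree' a b (hall a b ?_))⟩
          rw [Walk.edges_reverse, List.mem_reverse]; exact hab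
        · rw [Walk.edges_reverse, List.mem_reverse] at hab
          have hmem : s(a, b) ∈ S := by
            rcases hSe a b hab with h | h
            · exact absurd h hbad
            · exact h
          refine ⟨S.erase s(a, b), ?_, ?_⟩
          · rw [Finset.card_erase_of_mem hmem]
            omega
          · intro c d hcd
            by_cases he : s(c, d) = s(a, b)
            · left
              rw [Sym2.eq_iff] at he
              rcases he with ⟨rfl, rfl⟩ | ⟨rfl, rfl⟩
              · exact FreeEdge.of_empty (hBR _ ha)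
              · exact (FreeEdge.of_empty (hBR _ ha)).symm
            · rcases hSe c d hcd with h | h
              · exact Or.inl (hfree' c d h)
              · right
                rw [Finset.mem_erase]
                exact ⟨he, h⟩

end td

end Vale.Agent.P235
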