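import Vale.Agent.P235.H206.Defs
import Vale.Agent.P235.H105.Tw
import Vale.Agent.P235.H105.Over
import Vale.Agent.P235.H873.Apex
import Vale.Agent.P235.H536.Osc

namespace Vale.Agent.P235

open MeasureTheory

theorem IsL1.toL1S {V : Type} {F : V → V → ℝ} (hF : IsL1 F) : L1S F := by
  obtain ⟨Ω, hΩ, μ, f, h⟩ := hF.embeds (d := F) (C := 1) (fun _ _ => le_rfl)
    (fun _ _ => by rw [one_mul])
  exact ⟨Ω, hΩ, μ, f, fun x y => le_antisymm (h x y).1 (by simpa using (h x y).2)⟩

theorem EdgeIso.edgeExact {V : Type} [Finite V] {G : SimpleGraph V} {D : ℝ} (hD : 0 < D)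
    (h : G.Connected → EdgeIso G D) : EdgeExact G (1 / D) := by
  intro ρ hρ hgen s t hst
  have hconn : G.Connected := by
    have : Nonempty V := ⟨s⟩
    exact ⟨hgen.preconnected hρ⟩
  have hℓ : ∀ e ∈ G.edgeSet, 0 < lenOf ρ hρ.symm e := by
    intro e
    induction e using Sym2.ind with
    | _ u v =>
      intro he
      exact hρ.pos u v (SimpleGraph.Adj.ne he)
  have e := hgen.eq_pathDist hρ hconn
  obtain ⟨Ω, hΩ, μ, f, h1, h2⟩ := h hconn _ hℓ s t hst
  rw [e] at h1 h2
  refine ⟨fun x y => ‖f x - f y‖, L1S.isL1 ⟨Ω, hΩ, μ, f, fun _ _ => rfl⟩, h1, fun x y => ?_,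
    fun x y => (h2 x y).1⟩
  have h3 := mul_le_mul_of_nonneg_left (h2 x y).2 (by positivity : (0 : ℝ) ≤ 1 / D)
  have h4 : 1 / D * (D * ‖f x - f y‖) = ‖f x - f y‖ := by field_simp
  rw [h4] at h3
  exact h3

theorem EdgeExact.edgeIso {V : Type} [Finite V] {G : SimpleGraph V} {c : ℝ} (hc : 0 < c)
    (hconn : G.Connected) (h : EdgeExact G c) : EdgeIso G (1 / c) := by
  intro ℓ hℓ s t hst
  have hd := pathDist_isMet hconn hℓ
  have hgen : Gen G (pathDist G ℓ) := by
    intro f hf x y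
    exact pathDist_gen hconn (fun u v huv => (hf u v huv).trans (pathDist_adj hℓ huv)) x y
  obtain ⟨F, hF, hst', hlow, hup⟩ := h _ hd hgen s t hst
  obtain ⟨Ω, hΩ, μ, f, hf⟩ := hF.toL1S
  refine ⟨Ω, hΩ, μ, f, by rw [← hf]; exact hst', fun x y => ⟨by rw [← hf]; exact hup x y, ?_⟩⟩
  rw [← hf]
  have h3 := mul_le_mul_of_nonneg_left (hlow x y) (by positivity : (0 : ℝ) ≤ 1 / c)
  have h4 : 1 / c * (c * pathDist G ℓ x y) = pathDist G ℓ x y := by field_simp
  rw [h4] at h3
  exact h3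

/-- the `2`-sum theorem for classes with an edge-isometric embedding -/
theorem edgeSum_edgeIso (P : ∀ (V : Type), SimpleGraph V → Prop) {D : ℝ} (hD : 1 ≤ D)
    (hP : ∀ (V : Type) [Finite V] (G : SimpleGraph V), G.Connected → P V G → EdgeIso G D)
    (V : Type) [Finite V] (G : SimpleGraph V) (hG : G.Connected) (hE : EdgeSumOf P G) :
    EdgeIso G (12000 * D) ∧ DistortionLE G (12000 * D) := by
  have hD0 : 0 < D := by linarith
  have h1D : 0 < 1 / D := by positivity
  have h1D' : 1 / D ≤ 1 := by rw [div_le_one hD0]; exact hD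
  have h := EdgeSumOf.edgeExact h1D h1D'
    (fun V _ G hG => EdgeIso.edgeExact hD0 fun hc => hP V G hc hG) hE
  have e : 1 / (1 / D / 12000) = 12000 * D := by field_simp
  have h1 := h.edgeIso (by positivity) hG
  have h2 := h.distortion (by positivity) hG
  rw [e] at h1 h2
  exact ⟨h1, h2⟩

theorem piece_edgeExact (w : ℕ) : ∃ c : ℝ, 0 < c ∧ c ≤ 1 ∧ ∀ (V : Type) [Finite V]
    (G : SimpleGraph V), Piece w V G → EdgeExact G c := by
  obtain ⟨c1, h1, h1', hT⟩ := edgeExact_treewidth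
  obtain ⟨c2, h2, hP⟩ := lineLip_of_pathwidth w
  refine ⟨min c1 c2, lt_min h1 h2, (min_le_left _ _).trans h1', fun V _ G hG => ?_⟩
  rcases hG with hG | hG
  · exact (hT V G hG).mono (min_le_left _ _)
  · exact ((hP G hG).edgeExact).mono (min_le_right _ _)

theorem piece_edgeIso (w : ℕ) : ∃ D : ℝ, ∀ (V : Type) [Finite V] (G : SimpleGraph V),
    G.Connected → Piece w V G → EdgeIso G D := by
  obtain ⟨c, hc, _, h⟩ := piece_edgeExact w
  exact ⟨1 / c, fun V _ G hG hP => (h V G hP).edgeIso hc hG⟩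

theorem edgeSum_piece (w : ℕ) : ∃ C : ℝ, ∀ (V : Type) [Finite V] (G : SimpleGraph V),
    G.Connected → EdgeSumOf (Piece w) G → DistortionLE G C := by
  obtain ⟨c, hc, _, h⟩ := piece_edgeExact w
  exact ⟨12000 / min c 1, fun V _ G hG hE => hE.distortion hc (fun V _ G hP => h V G hP) hG⟩

theorem builtOver_edgeSum (w j : ℕ) : ∃ C : ℝ, ∀ (V : Type) [Finite V] (G : SimpleGraph V),
    G.Connected → BuiltOver (fun _ G => EdgeSumOf (Piece w) G) w j G → DistortionLE G C := by
  obtain ⟨C, h⟩ := edgeSum_piece w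
  exact builtOver_bounded (P := fun _ G => EdgeSumOf (Piece w) G) (C0 := C)
    (fun V _ G hG hP => h V G hG hP) w j

/-- `t` deleted vertices cost a factor of order `log t`. -/
theorem deletion_log : ∃ C : ℝ, ∀ (t : ℕ) (V : Type) [Finite V] (G : SimpleGraph V),
    G.Connected → (∃ S : Finset V, S.card ≤ t ∧ TreewidthLE (G.induce {v | v ∉ S}) 3) →
    DistortionLE G (C * Real.log (t + 2)) := by
  classical
  obtain ⟨C0, h0⟩ := treewidth_three'
  obtain ⟨A, hA⟩ := H873.apex_log
  set K := max C0 0 with hK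
  have hl2 : 0 < Real.log 2 := Real.log_pos (by norm_num)
  refine ⟨|A| * (K / Real.log 2 + 1), fun t V _ G hc ⟨S, hS, hT⟩ => ?_⟩
  obtain ⟨v0⟩ := hc.nonempty
  set X : Set V := ((insert v0 S : Finset V) : Set V) with hX
  have hXcard : X.ncard ≤ t + 1 := by
    rw [hX, Set.ncard_coe_finset]
    exact (Finset.card_insert_le _ _).trans (by omega)
  have hne : X.Nonempty := ⟨v0, by rw [hX]; simp⟩
  have hSX : ∀ v ∈ S, v ∈ X := fun v hv => by rw [hX]; simp [hv]
  have h := hA K (le_max_right _ _) V G hc X hne (fun u hu => by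
    refine DistortionLE.mono (h0 _ _ (comp_connected hu) ?_) (le_max_left _ _)
    refine TreewidthLE.comap (G := G.induce {v | v ∉ S})
      (fun a : compSet G X u => ⟨a.1, fun h => ?_⟩) ?_ (fun a b h => h) hT
    · exact ReachOff.right a.2 (hSX _ h)
    · intro a b hab
      exact Subtype.ext (congrArg (fun z : {v | v ∉ S} => z.1) hab))
  refine h.mono ?_
  have hlog : Real.log (X.ncard + 1) ≤ Real.log (t + 2) := by
    apply Real.log_le_log (by positivity)
    have : (X.ncard : ℝ) ≤ t + 1 := by exact_mod_cast hXcard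
    linarith
  have hlog2 : Real.log 2 ≤ Real.log (t + 2) := by
    apply Real.log_le_log (by norm_num)
    have : (0 : ℝ) ≤ t := Nat.cast_nonneg t
    linarith
  have hK0 : 0 ≤ K := le_max_right _ _
  have hlog0 : 0 ≤ Real.log (X.ncard + 1) := Real.log_nonneg (by
    have : (0 : ℝ) ≤ X.ncard := Nat.cast_nonneg _
    linarith)
  calc A * (K + Real.log (X.ncard + 1)) ≤ |A| * (K + Real.log (X.ncard + 1)) :=
        mul_le_mul_of_nonneg_right (le_abs_self A) (by linarith)
    _ ≤ |A| * ((K / Real.log 2 + 1) * Real.log (t + 2)) := by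
        apply mul_le_mul_of_nonneg_left _ (abs_nonneg A)
        have e1 : K ≤ K / Real.log 2 * Real.log (t + 2) := by
          calc K = K / Real.log 2 * Real.log 2 := by field_simp
            _ ≤ _ := mul_le_mul_of_nonneg_left hlog2 (by positivity)
        linarith
    _ = _ := by ring

end Vale.Agent.P235

namespace Vale.Agent.P235

theorem edgeSum_piece_iso (w : ℕ) : ∃ D : ℝ, ∀ (V : Type) [Finite V] (G : SimpleGraph V),
    G.Connected → EdgeSumOf (Piece w) G → EdgeIso G D ∧ DistortionLE G D := by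
  obtain ⟨D, h⟩ := piece_edgeIso w
  refine ⟨12000 * max D 1, fun V _ G hG hE =>
    edgeSum_edgeIso (Piece w) (le_max_right _ _) (fun V _ G hG hP => ?_) V G hG hE⟩
  intro ℓ hℓ s t hst
  obtain ⟨Ω, hΩ, μ, f, h1, h2⟩ := h V G hG hP ℓ hℓ s t hst
  exact ⟨Ω, hΩ, μ, f, h1, fun x y => ⟨(h2 x y).1, (h2 x y).2.trans
    (mul_le_mul_of_nonneg_right (le_max_left _ _) (norm_nonneg _))⟩⟩

theorem EdgeSum.over {w : ℕ} {V : Type} {G : SimpleGraph V} (h : EdgeSum w G) :
    EdgeSumOf (Piece w) G := by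
  induction h with
  | base h => exact EdgeSumOf.base (Or.inr h)
  | del _ hle ih => exact EdgeSumOf.del ih hle
  | glue h1 h2 h3 h4 _ _ ihA ihB => exact EdgeSumOf.glue h1 h2 h3 h4 ihA ihB

/-- the classes `Built w j` are contained in the new ones -/
theorem Built.over {w j : ℕ} {V : Type} {G : SimpleGraph V} (h : Built w j G) :
    BuiltOver (fun _ G => EdgeSumOf (Piece w) G) w j G := by
  induction h with
  | tw h => exact BuiltOver.base (EdgeSumOf.base (Or.inl h))
  | edgeSum h => exact BuiltOver.base h.over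
  | lift _ ih => exact BuiltOver.lift ih
  | vertexSum h1 h2 h3 _ _ ihA ihB => exact BuiltOver.vertexSum h1 h2 h3 ihA ihB
  | compose h1 h2 _ _ iht ihk => exact BuiltOver.compose h1 h2 iht ihk
  | pathSum h1 _ ih => exact BuiltOver.pathSum h1 ih

theorem psK_le (p : ℕ) {C : ℝ} (hC : 1 ≤ C) : psK p C ≤ 417 ^ p * C := by
  induction p with
  | zero => rw [psK_zero, pow_zero, one_mul]
  | succ p ih =>
    have h1 : 1 ≤ psK p C := hC.trans (le_psK p hC)
    rw [psK_succ, pow_succ]
    nlinarith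

theorem pathSums_explicit (w : ℕ) {C : ℝ} (hC : 1 ≤ C) (V : Type) [Finite V] (G : SimpleGraph V)
    (hG : G.Connected) (n : ℕ) (B : Fin n → Set V) (hB : PathDec G w B)
    (h : ∀ i, ∀ u ∈ B i, DistortionLE (G.induce (compSet G (B i)ᶜ u)) C) :
    DistortionLE G (417 ^ w * C) :=
  (distortion_pathSum hC w V G hG n B ⟨hB.cover, hB.edge, hB.conv⟩ hB.adh h).mono (psK_le w hC)

theorem composition_explicit (w : ℕ) {C : ℝ} (hC : 1 ≤ C) (V : Type) [Finite V]
    (G : SimpleGraph V) (hG : G.Connected) (X : Set V) (hX : X.Nonempty)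
    (hw : ∀ u ∉ X, (attach G X u).ncard ≤ w) (ht : DistortionLE (torso G X) C)
    (hk : ∀ u ∉ X, DistortionLE (G.induce (compSet G X u)) C) :
    DistortionLE G ((24 * w + 9) * C + (1 + 3 * C) * (96 * C + 112)) :=
  distortion_compose2 hC hG hX hw ht hk

theorem geodesic_explicit {C : ℝ} (hC : 0 < C) (V : Type) [Finite V] (G : SimpleGraph V)
    (hG : G.Connected) (h : ∀ ℓ : Sym2 V → ℝ, (∀ e ∈ G.edgeSet, 0 < ℓ e) →
      ∃ (x y : V) (q : G.Walk x y), (q.edges.map ℓ).sum = pathDist G ℓ x y ∧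
        ∀ u ∉ q.support, DistortionLE (G.induce (compSet G {v | v ∈ q.support} u)) C) :
    DistortionLE G (192 * C + 225) :=
  (distortion_geodesic hC hG h).mono (by linarith)

end Vale.Agent.P235
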