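import Vale.Agent.P235.H206.Step4
import Vale.Agent.P235.Comp.PathSum

/-!
# A round which removes a union of lanes
-/

namespace Vale.Agent.P235.H206

open Finset H536

/-- Bourgain's theorem for lanes -/
def LanesStmt : Prop := ∀ {V : Type} [Finite V] {d : V → V → ℝ}, (∀ x y, d x y = d y x) →
  (∀ x y, 0 ≤ d x y) → ∀ {I : Type} [Fintype I] [Nonempty I] (D : I → V → ℝ),
    (∀ i x, 0 ≤ D i x) → (∀ i x y, |D i x - D i y| ≤ d x y) →
    ∃ (κ : Type) (_ : Fintype κ) (w : κ → ℝ) (g : κ → V → ℝ), (∀ i, 0 ≤ w i) ∧ ∑ i, w i = 1 ∧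
      (∀ i x y, |g i x - g i y| ≤ d x y) ∧
      ∀ x y R E, (∃ i, D i x ≤ E) → (∃ i, D i y ≤ E) → (∀ i, R ≤ max (D i x) (D i y)) →
        R - E ≤ 12 * ((Nat.log 2 (Fintype.card I) + 1 : ℕ) : ℝ) * ∑ i, w i * |g i x - g i y|

/-- one round which removes a union of at most `s` lanes, i.e. sets on which a function `u`, which
is nonexpanding on the whole graph, is isometric -/
theorem pointed_step_lanes (hlanes : LanesStmt) {V : Type} {G : SimpleGraph V} {ℓ : Sym2 V → ℝ}
    [Finite V] (hc : G.Connected) (hℓ : ∀ e ∈ G.edgeSet, 0 < ℓ e) {H : V → ℝ}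
    (hH : ∀ v, 0 < H v) (hHl : ∀ u v, G.Adj u v → |H u - H v| ≤ ℓ s(u, v))
    {n s : ℕ} (hn : 0 < n) (hns : n ≤ s) {L : Fin n → Set V} (hL : ∀ i, (L i).Nonempty)
    {u : V → ℝ} (hu : ∀ a b, |u a - u b| ≤ pathDist G ℓ a b)
    (hiso : ∀ i, ∀ a ∈ L i, ∀ b ∈ L i, pathDist G ℓ a b ≤ |u a - u b|) {K : ℝ} (hK : 0 ≤ K)
    (ih : ∀ v ∉ ⋃ i, L i, ∀ H' : compSet G (⋃ i, L i) v → ℝ, (∀ v, 0 < H' v) →
      (∀ a b, (G.induce (compSet G (⋃ i, L i) v)).Adj a b → |H' a - H' b| ≤ ℓ s(a.1, b.1)) →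
      Pointed (G.induce (compSet G (⋃ i, L i) v)) (fun e => ℓ (e.map Subtype.val)) H' K) :
    Pointed G ℓ H (K + 100 * ((Nat.log 2 s + 1 : ℕ) : ℝ)) := by
  classical
  have := Fintype.ofFinite V
  have : Nonempty (Fin n) := ⟨⟨0, hn⟩⟩
  have hd := pathDist_isMet hc hℓ
  choose N hN using fun i => exists_near (X := L i) hc hℓ (hL i)
  let D : Fin n → V → ℝ := fun i x => pathDist G ℓ x (N i x)
  have hD0 : ∀ i x, 0 ≤ D i x := fun i x => hd.nonneg _ _
  have hDl : ∀ i x y, |D i x - D i y| ≤ pathDist G ℓ x y := by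
    intro i x y
    have e1 := (hN i).lip hc hℓ x y
    have e2 := (hN i).lip hc hℓ y x
    rw [hd.symm y x] at e2
    show |pathDist G ℓ x (N i x) - pathDist G ℓ y (N i y)| ≤ _
    rw [abs_le]; constructor <;> linarith
  obtain ⟨κ, _, w, g, hw, hs, hg, hl⟩ := hlanes hd.symm hd.nonneg D hD0 hDl
  rw [Fintype.card_fin] at hl
  have hm : ((Nat.log 2 n + 1 : ℕ) : ℝ) ≤ ((Nat.log 2 s + 1 : ℕ) : ℝ) := by
    exact_mod_cast Nat.succ_le_succ (Nat.log_mono_right hns)
  have hm1 : (1 : ℝ) ≤ ((Nat.log 2 s + 1 : ℕ) : ℝ) := by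
    exact_mod_cast Nat.le_add_left 1 _
  set m : ℝ := ((Nat.log 2 s + 1 : ℕ) : ℝ) with hmdef
  let S : V → V → ℝ := fun x y => ∑ i, w i * |g i x - g i y|
  have hS : IsL1 S := IsL1.sum Finset.univ (fun i x y => w i * |g i x - g i y|)
    fun i _ => (isL1_line (g i)).smul (hw i)
  have hSl : ∀ a b, S a b ≤ pathDist G ℓ a b := by
    intro a b
    have h1 : ∀ i ∈ Finset.univ, w i * |g i a - g i b| ≤ w i * pathDist G ℓ a b := fun i _ =>
      mul_le_mul_of_nonneg_left (hg i a b) (hw i)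
    refine (Finset.sum_le_sum h1).trans ?_
    rw [← Finset.sum_mul, hs, one_mul]
  let F : V → V → ℝ := fun x y => 1 / 2 * (|u x - u y| + S x y)
  have hF : IsL1 F := ((isL1_line u).add hS).smul (by norm_num)
  have hFl : ∀ a b, G.Adj a b → F a b ≤ ℓ s(a, b) := by
    intro a b hab
    have h1 := hu a b
    have h2 := hSl a b
    have h3 := pathDist_adj hℓ hab
    show 1 / 2 * (|u a - u b| + S a b) ≤ _
    linarith
  obtain ⟨z0, hz0⟩ := hL ⟨0, hn⟩
  have h := pointed_step_gen4 (F := F) hc hℓ hH hHl (P := ⋃ i, L i)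
    ⟨z0, Set.mem_iUnion.2 ⟨_, hz0⟩⟩ hF hFl (L := 80 * m) (by linarith) (by
      intro ν hν x y δ hδ hx hy hxy
      have hSn : 0 ≤ S x y := hS.nonneg x y
      show 2 * δ ≤ 80 * m * (1 / 2 * (|u x - u y| + S x y))
      by_cases hcase : δ / 2 ≤ |u x - u y|
      · have h1 : 1 * (δ / 2 + 0) ≤ m * (|u x - u y| + S x y) :=
          mul_le_mul hm1 (add_le_add hcase hSn) (by linarith) (by linarith)
        linarith
      · push Not at hcase
        have hin : ∀ a, ∃ i, D i a ≤ pathDist G ℓ a (ν a) := by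
          intro a
          obtain ⟨i, hi⟩ := Set.mem_iUnion.1 (hν.mem a)
          exact ⟨i, (hN i).le a _ hi⟩
        obtain ⟨i, hi⟩ := hin x
        obtain ⟨j, hj⟩ := hin y
        have h1 := hl x y (15 / 8 * δ) (5 / 4 * δ) ⟨i, by linarith⟩ ⟨j, by linarith⟩ (by
          intro i
          by_contra hlt
          push Not at hlt
          rw [max_lt_iff] at hlt
          obtain ⟨h1, h2⟩ := hlt
          have h3 := hiso i (N i x) ((hN i).mem x) (N i y) ((hN i).mem y)
          have h4 := hu x (N i x)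
          have h5 := hu y (N i y)
          have h6 : |u (N i x) - u (N i y)| ≤ |u x - u y| + |u x - u (N i x)| +
              |u y - u (N i y)| := by
            have e : u (N i x) - u (N i y) = (u x - u y) + -(u x - u (N i x)) +
              (u y - u (N i y)) := by ring
            rw [e]
            refine (abs_add_three _ _ _).trans ?_
            rw [abs_neg]
          have h7 := hd.tri x (N i x) y
          have h8 := hd.tri (N i x) (N i y) y
          rw [hd.symm (N i y) y] at h8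
          have h9 : D i x = pathDist G ℓ x (N i x) := rfl
          have h10 : D i y = pathDist G ℓ y (N i y) := rfl
          linarith)
        have h2 : 12 * ((Nat.log 2 n + 1 : ℕ) : ℝ) * S x y ≤ 12 * m * S x y :=
          mul_le_mul_of_nonneg_right (by linarith) hSn
        have h3 : 15 / 8 * δ - 5 / 4 * δ ≤ 12 * m * S x y := le_trans h1 h2
        have h4 : 0 ≤ m * |u x - u y| := mul_nonneg (by linarith) (abs_nonneg _)
        have h5 : 0 ≤ m * S x y := mul_nonneg (by linarith) hSn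
        nlinarith) hK ih
  exact pointed_mono hℓ hH (by linarith) h

end Vale.Agent.P235.H206
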