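import Vale.Agent.P235.H873.OS
import Mathlib.MeasureTheory.Integral.Bochner.Set
import Mathlib.MeasureTheory.Measure.Lebesgue.Basic

/-!
# Total variation and the number of crossings of a level
-/

namespace Vale.Agent.P235.H206

open Finset MeasureTheory

/-- number of changes of a sequence of truth values -/
def chg (s : ℕ → Bool) (n : ℕ) : ℕ := ((range n).filter fun i => s i ≠ s (i + 1)).card

theorem chg_zero (s : ℕ → Bool) : chg s 0 = 0 := by simp [chg]

theorem chg_succ_eq {s : ℕ → Bool} {n : ℕ} (h : s n = s (n + 1)) : chg s (n + 1) = chg s n := by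
  unfold chg
  rw [Finset.range_add_one, Finset.filter_insert, if_neg (by simp [h])]

theorem chg_succ_ne {s : ℕ → Bool} {n : ℕ} (h : s n ≠ s (n + 1)) :
    chg s (n + 1) = chg s n + 1 := by
  unfold chg
  rw [Finset.range_add_one, Finset.filter_insert, if_pos h, Finset.card_insert_of_notMem]
  simp

/-- an alternating subsequence -/
theorem exists_alt (s : ℕ → Bool) (n : ℕ) : ∃ t : ℕ → ℕ, t (chg s n) = n ∧
    ∀ j < chg s n, t j < t (j + 1) ∧ s (t j) ≠ s (t (j + 1)) := by
  induction n with
  | zero => exact ⟨id, by simp [chg_zero], by simp [chg_zero]⟩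
  | succ n ih =>
    obtain ⟨t, h1, h2⟩ := ih
    by_cases h : s n = s (n + 1)
    · rw [chg_succ_eq h]
      refine ⟨Function.update t (chg s n) (n + 1), Function.update_self _ _ _, fun j hj => ?_⟩
      rw [Function.update_of_ne hj.ne]
      obtain ⟨h3, h4⟩ := h2 j hj
      by_cases e : j + 1 = chg s n
      · rw [e, Function.update_self]
        rw [e, h1] at h3 h4
        exact ⟨h3.trans (Nat.lt_succ_self n), by rwa [← h]⟩
      · rw [Function.update_of_ne e]
        exact ⟨h3, h4⟩
    · rw [chg_succ_ne h]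
      refine ⟨Function.update t (chg s n + 1) (n + 1), Function.update_self _ _ _,
        fun j hj => ?_⟩
      rw [Function.update_of_ne hj.ne]
      by_cases e : j = chg s n
      · rw [e, Function.update_self, h1]
        exact ⟨Nat.lt_succ_self n, h⟩
      · rw [Function.update_of_ne (by omega)]
        exact h2 j (by omega)

theorem chg_parity (s : ℕ → Bool) (n : ℕ) : s 0 = s n ↔ Even (chg s n) := by
  induction n with
  | zero => simp [chg_zero]
  | succ n ih =>
    by_cases h : s n = s (n + 1)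
    · rw [chg_succ_eq h, ← ih, h]
    · rw [chg_succ_ne h, Nat.even_add_one, ← ih]
      cases h0 : s 0 <;> cases h1 : s n <;> cases h2 : s (n + 1) <;> simp_all

/-- the number of changes around the cycle -/
theorem chg_cyc {s : ℕ → Bool} {n N : ℕ} (h : chg s n ≤ 2 * N) :
    chg s n + (if s 0 ≠ s n then 1 else 0) ≤ 2 * N := by
  split_ifs with h1
  · have h2 : ¬ Even (chg s n) := fun h3 => h1 ((chg_parity s n).2 h3)
    rcases h.eq_or_lt with h3 | h3
    · exact absurd (h3 ▸ even_two_mul N) h2
    · omega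
  · omega

/-- the change indicator as a function of the level -/
theorem ind_uIoc (x y τ : ℝ) : (Set.uIoc x y).indicator (fun _ => (1 : ℝ)) τ =
    if decide (τ ≤ x) ≠ decide (τ ≤ y) then 1 else 0 := by
  by_cases h : τ ∈ Set.uIoc x y
  · rw [Set.indicator_of_mem h, if_pos]
    rcases Set.mem_uIoc.1 h with h | h
    · rw [decide_eq_false (not_le.2 h.1), decide_eq_true h.2]; decide
    · rw [decide_eq_false (not_le.2 h.1), decide_eq_true h.2]; decide
  · rw [Set.indicator_of_notMem h, if_neg]
    rw [Set.mem_uIoc] at h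
    push Not at h
    intro h1
    apply h1
    rw [decide_eq_decide]
    constructor
    · intro h2
      by_contra h3
      push Not at h3
      have := h.2 h3
      linarith
    · intro h2
      by_contra h3
      push Not at h3
      have := h.1 h3
      linarith

theorem integral_uIoc (x y : ℝ) :
    ∫ τ, (Set.uIoc x y).indicator (fun _ => (1 : ℝ)) τ = |y - x| := by
  rw [integral_indicator measurableSet_uIoc, setIntegral_const, smul_eq_mul, mul_one,
    Measure.real, Real.volume_uIoc, ENNReal.toReal_ofReal (abs_nonneg _)]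

theorem integrable_uIoc (x y : ℝ) :
    Integrable (fun τ => (Set.uIoc x y).indicator (fun _ => (1 : ℝ)) τ) := by
  refine IntegrableOn.integrable_indicator ?_ measurableSet_uIoc
  refine integrableOn_const ?_
  rw [Real.volume_uIoc]
  exact ENNReal.ofReal_ne_top

/-- the total variation of a cyclic sequence which crosses every level at most `2 N` times -/
theorem tv_le_crossings {n N : ℕ} {φ : ℕ → ℝ} {M : ℝ} (hM : ∀ i ≤ n, |φ i| ≤ M)
    (h : ∀ τ : ℝ, chg (fun i => decide (τ ≤ φ i)) n ≤ 2 * N) :
    H873.tv n φ ≤ 4 * N * M := by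
  have hM0 : 0 ≤ M := (abs_nonneg _).trans (hM 0 (Nat.zero_le _))
  have hint1 : Integrable fun τ : ℝ => ∑ i ∈ range n,
      (Set.uIoc (φ i) (φ (i + 1))).indicator (fun _ => (1 : ℝ)) τ :=
    integrable_finsetSum _ fun i _ => integrable_uIoc _ _
  have hint2 := integrable_uIoc (φ 0) (φ n)
  have hint3 : Integrable fun τ : ℝ =>
      2 * (N : ℝ) * (Set.uIoc (-M) M).indicator (fun _ => (1 : ℝ)) τ :=
    (integrable_uIoc _ _).const_mul _
  have e1 : H873.tv n φ = ∫ τ : ℝ, ((∑ i ∈ range n,
      (Set.uIoc (φ i) (φ (i + 1))).indicator (fun _ => (1 : ℝ)) τ) +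
        (Set.uIoc (φ 0) (φ n)).indicator (fun _ => (1 : ℝ)) τ) := by
    rw [integral_add hint1 hint2, integral_finsetSum _ fun i _ => integrable_uIoc _ _,
      integral_uIoc]
    unfold H873.tv
    congr 1
    exact Finset.sum_congr rfl fun i _ => (integral_uIoc _ _).symm
  have e2 : ∫ τ : ℝ, 2 * (N : ℝ) * (Set.uIoc (-M) M).indicator (fun _ => (1 : ℝ)) τ =
      4 * N * M := by
    rw [integral_const_mul, integral_uIoc, abs_of_nonneg (by linarith)]
    ring
  rw [e1, ← e2]
  refine integral_mono (hint1.add hint2) hint3 fun τ => ?_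
  show (∑ i ∈ range n, (Set.uIoc (φ i) (φ (i + 1))).indicator (fun _ => (1 : ℝ)) τ) +
        (Set.uIoc (φ 0) (φ n)).indicator (fun _ => (1 : ℝ)) τ ≤
      2 * (N : ℝ) * (Set.uIoc (-M) M).indicator (fun _ => (1 : ℝ)) τ
  by_cases hτ : τ ∈ Set.uIoc (-M) M
  · rw [Set.indicator_of_mem hτ, mul_one]
    have h1 := chg_cyc (h τ)
    have h2 : (∑ i ∈ range n, (Set.uIoc (φ i) (φ (i + 1))).indicator (fun _ => (1 : ℝ)) τ) =
        (chg (fun i => decide (τ ≤ φ i)) n : ℝ) := by
      unfold chg
      rw [Finset.card_filter]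
      push_cast
      exact Finset.sum_congr rfl fun i _ => ind_uIoc _ _ _
    rw [h2, ind_uIoc]
    have h3 : ((chg (fun i => decide (τ ≤ φ i)) n +
        (if decide (τ ≤ φ 0) ≠ decide (τ ≤ φ n) then 1 else 0) : ℕ) : ℝ) ≤ ((2 * N : ℕ) : ℝ) := by
      exact_mod_cast h1
    push_cast at h3
    exact h3
  · rw [Set.indicator_of_notMem hτ, mul_zero]
    have h4 : ∀ i ≤ n, ∀ j ≤ n, (Set.uIoc (φ i) (φ j)).indicator (fun _ => (1 : ℝ)) τ = 0 := by
      intro i hi j hj
      refine Set.indicator_of_notMem (fun hmem => hτ ?_) _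
      have b1 := abs_le.1 (hM i hi)
      have b2 := abs_le.1 (hM j hj)
      rcases Set.mem_uIoc.1 hmem with h | h
      · exact Set.mem_uIoc.2 (Or.inl ⟨by linarith [h.1], by linarith [h.2]⟩)
      · exact Set.mem_uIoc.2 (Or.inl ⟨by linarith [h.1], by linarith [h.2]⟩)
    rw [h4 0 (Nat.zero_le _) n le_rfl, add_zero]
    refine (Finset.sum_eq_zero fun i hi => ?_).le
    rw [Finset.mem_range] at hi
    exact h4 i hi.le (i + 1) hi

end Vale.Agent.P235.H206
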