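import Vale.Agent.P235.H206.SurfTop
import Vale.Agent.P235.H206.SurfTV
import Vale.Agent.P235.H536.Face
import Vale.Agent.P235.H536.Round2

/-!
# The Okamura-Seymour map of a face on a surface
-/

namespace Vale.Agent.P235.H206

open Finset H536

section

variable {V : Type} {G : SimpleGraph V} {ℓ : Sym2 V → ℝ}

theorem bool_step : ∀ x y z : Bool, y ≠ z → (z = x ↔ ¬ y = x) := by decide

/-- two crossing geodesics -/
theorem geod_cross [Finite V] (hc : G.Connected) (hℓ : ∀ e ∈ G.edgeSet, 0 < ℓ e) {u v s t w : V}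
    {p : G.Walk v s} {q : G.Walk u t} (hp : (p.edges.map ℓ).sum = pathDist G ℓ v s)
    (hq : (q.edges.map ℓ).sum = pathDist G ℓ u t) (h1 : w ∈ p.support) (h2 : w ∈ q.support) :
    pathDist G ℓ u s - pathDist G ℓ v s ≤ pathDist G ℓ u t - pathDist G ℓ v t := by
  classical
  have hd := pathDist_isMet hc hℓ
  have split : ∀ {a b : V} (p : G.Walk a b), (p.edges.map ℓ).sum = pathDist G ℓ a b →
      w ∈ p.support → pathDist G ℓ a w + pathDist G ℓ w b ≤ pathDist G ℓ a b := by
    intro a b p hp hw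
    rw [← hp, ← p.take_spec hw, SimpleGraph.Walk.edges_append, List.map_append, List.sum_append]
    exact add_le_add (pathDist_le hℓ _) (pathDist_le hℓ _)
  have h3 := split p hp h1
  have h4 := split q hq h2
  have t1 := hd.tri u w s
  have t2 := hd.tri v w t
  linarith

/-- joining two geodesics from a point -/
theorem mem_join {u a b w : V} (f : ∀ x, G.Walk u x)
    (h : w ∈ ((f a).reverse.append (f b)).support) : w ∈ (f a).support ∨ w ∈ (f b).support := by
  rwa [SimpleGraph.Walk.mem_support_append_iff, SimpleGraph.Walk.support_reverse,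
    List.mem_reverse] at h

/-- the function `d(u, ·) - d(v, ·)` crosses every level at most `2 (g + 1)` times on a face -/
theorem face_chg [Finite V] (hc : G.Connected) (hℓ : ∀ e ∈ G.edgeSet, 0 < ℓ e) {g : ℕ}
    {σ : Equiv.Perm G.Dart} (hσ : SurfMap g G σ) (d0 : G.Dart) (u v : V) {n : ℕ}
    (hn : n < faceLen σ d0) (τ : ℝ) :
    chg (fun i => decide (τ ≤ pathDist G ℓ u (fd σ d0 i).fst - pathDist G ℓ v (fd σ d0 i).fst)) n ≤
      2 * (g + 1) := by
  classical
  have := Fintype.ofFinite V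
  set φ : V → ℝ := fun x => pathDist G ℓ u x - pathDist G ℓ v x with hφ
  set s : ℕ → Bool := fun i => decide (τ ≤ φ (fd σ d0 i).fst) with hs
  show chg s n ≤ _
  by_contra hlt
  push Not at hlt
  obtain ⟨t, ht1, ht2⟩ := exists_alt s n
  have hmono : ∀ i j, i ≤ j → j ≤ chg s n → t i ≤ t j := by
    intro i j hij
    induction j, hij using Nat.le_induction with
    | base => exact fun _ => le_rfl
    | succ j hij ih => exact fun hj => (ih (by omega)).trans (ht2 j (by omega)).1.le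
  have hpar : ∀ j, j ≤ chg s n → (s (t j) = s (t 0) ↔ Even j) := by
    intro j
    induction j with
    | zero => intro _; simp
    | succ j ih =>
      intro hj
      have h1 := ih (by omega)
      have h2 := (ht2 j (by omega)).2
      rw [Nat.even_add_one, ← h1]
      exact bool_step _ _ _ h2
  let a : ℕ → ℕ := fun i => t (2 * i)
  let b : ℕ → ℕ := fun i => t (2 * i + 1)
  have hab : ∀ i j, i ≤ j → j ≤ g + 1 → a i ≤ b j := fun i j hij hj =>
    hmono _ _ (by omega) (by omega)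
  have hba : ∀ i j, i < j → j ≤ g + 1 → b i < a j := fun i j hij hj =>
    (ht2 (2 * i + 1) (by omega)).1.trans_le (hmono (2 * i + 1 + 1) (2 * j) (by omega) (by omega))
  have hb : b (g + 1) < faceLen σ d0 := by
    have := hmono (2 * (g + 1) + 1) (chg s n) (by omega) le_rfl
    rw [ht1] at this
    exact lt_of_le_of_lt this hn
  have hsa : ∀ i ≤ g + 1, s (a i) = s (a 0) := fun i hi =>
    (hpar (2 * i) (by omega)).2 (even_two_mul i)
  have hsb : ∀ i ≤ g + 1, s (b i) ≠ s (a 0) := fun i hi h =>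
    (Nat.not_even_two_mul_add_one i) ((hpar (2 * i + 1) (by omega)).1 h)
  choose gu hgu using fun x => exists_geodesic hc hℓ u x
  choose gv hgv using fun x => exists_geodesic hc hℓ v x
  have key : ∀ x y w, w ∈ (gv x).support → w ∈ (gu y).support → φ x ≤ φ y := fun x y w h1 h2 =>
    geod_cross hc hℓ (hgv x) (hgu y) h1 h2
  rcases h0 : s (a 0) with _ | _
  · -- the `a` are near `u`
    have ha1 : ∀ i ≤ g + 1, φ (fd σ d0 (a i)).fst < τ := fun i hi => by
      have := hsa i hi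
      rw [h0] at this
      exact not_le.1 (of_decide_eq_false this)
    have hb1 : ∀ i ≤ g + 1, τ ≤ φ (fd σ d0 (b i)).fst := fun i hi => by
      have h1 := hsb i hi
      rw [h0] at h1
      have h2 : s (b i) = true := by simpa using h1
      exact of_decide_eq_true h2
    obtain ⟨i, hi, j, hj, z, hz1, hz2⟩ := face_alt d0 hc hσ (Nat.lt_succ_self g) hab hba hb
      (fun i => (gu _).reverse.append (gu _)) (fun i => (gv _).reverse.append (gv _))
    have c1 : ∃ i ≤ g + 1, z ∈ (gu (fd σ d0 (a i)).fst).support := by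
      rcases mem_join gu hz1 with h | h
      exacts [⟨i, hi, h⟩, ⟨0, Nat.zero_le _, h⟩]
    have c2 : ∃ i ≤ g + 1, z ∈ (gv (fd σ d0 (b i)).fst).support := by
      rcases mem_join gv hz2 with h | h
      exacts [⟨j, hj, h⟩, ⟨g + 1, le_rfl, h⟩]
    obtain ⟨i, hi, hz1⟩ := c1
    obtain ⟨j, hj, hz2⟩ := c2
    have := key _ _ z hz2 hz1
    linarith [ha1 i hi, hb1 j hj]
  · -- the `a` are near `v`
    have ha1 : ∀ i ≤ g + 1, τ ≤ φ (fd σ d0 (a i)).fst := fun i hi => by
      have := hsa i hi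
      rw [h0] at this
      exact of_decide_eq_true this
    have hb1 : ∀ i ≤ g + 1, φ (fd σ d0 (b i)).fst < τ := fun i hi => by
      have h1 := hsb i hi
      rw [h0] at h1
      have h2 : s (b i) = false := by simpa using h1
      exact not_le.1 (of_decide_eq_false h2)
    obtain ⟨i, hi, j, hj, z, hz1, hz2⟩ := face_alt d0 hc hσ (Nat.lt_succ_self g) hab hba hb
      (fun i => (gv _).reverse.append (gv _)) (fun i => (gu _).reverse.append (gu _))
    have c1 : ∃ i ≤ g + 1, z ∈ (gv (fd σ d0 (a i)).fst).support := by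
      rcases mem_join gv hz1 with h | h
      exacts [⟨i, hi, h⟩, ⟨0, Nat.zero_le _, h⟩]
    have c2 : ∃ i ≤ g + 1, z ∈ (gu (fd σ d0 (b i)).fst).support := by
      rcases mem_join gu hz2 with h | h
      exacts [⟨j, hj, h⟩, ⟨g + 1, le_rfl, h⟩]
    obtain ⟨i, hi, hz1⟩ := c1
    obtain ⟨j, hj, hz2⟩ := c2
    have := key _ _ z hz1 hz2
    linarith [ha1 i hi, hb1 j hj]

theorem faceLen_pos [Finite V] (σ : Equiv.Perm G.Dart) (d0 : G.Dart) : 0 < faceLen σ d0 := by
  classical
  have := Fintype.ofFinite V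
  refine Function.minimalPeriod_pos_of_mem_periodicPts ?_
  refine Function.mk_mem_periodicPts (orderOf_pos (facePerm G σ)) ?_
  show (facePerm G σ)^[orderOf (facePerm G σ)] d0 = d0
  rw [Equiv.Perm.iterate_eq_pow, pow_orderOf_eq_one]
  rfl

theorem onFace_eq [Finite V] (σ : Equiv.Perm G.Dart) (d0 : G.Dart) {v : V}
    (hv : v ∈ onFace σ d0) : ∃ i < faceLen σ d0, (fd σ d0 i).fst = v := by
  classical
  have := Fintype.ofFinite V
  obtain ⟨d', hd, rfl⟩ := hv
  rw [faceNext_eq] at hd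
  obtain ⟨i, -, hi⟩ := hd.exists_pow_eq'
  refine ⟨i % faceLen σ d0, Nat.mod_lt _ (faceLen_pos σ d0), ?_⟩
  show ((facePerm G σ)^[i % Function.minimalPeriod (facePerm G σ) d0] d0).fst = _
  rw [Function.iterate_mod_minimalPeriod_eq, Equiv.Perm.iterate_eq_pow, hi]

/-- the Okamura-Seymour map of a face of a map of Euler genus `g`, scaled by `1 / (g + 1)` -/
theorem surf_os [Finite V] (hc : G.Connected) (hℓ : ∀ e ∈ G.edgeSet, 0 < ℓ e) {g : ℕ}
    {σ : Equiv.Perm G.Dart} (hσ : SurfMap g G σ) (d0 : G.Dart) :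
    ∃ F : V → V → ℝ, IsL1 F ∧ (∀ u v, F u v ≤ pathDist G ℓ u v) ∧
      ∀ u v, ∀ p ∈ onFace σ d0, ∀ q ∈ onFace σ d0,
        (pathDist G ℓ u q - pathDist G ℓ v q) - (pathDist G ℓ u p - pathDist G ℓ v p) ≤
          2 * ((g + 1 : ℕ) : ℝ) * F u v := by
  classical
  have hd := pathDist_isMet hc hℓ
  have hg : (0 : ℝ) < ((g + 1 : ℕ) : ℝ) := by exact_mod_cast Nat.succ_pos g
  obtain ⟨n, hn⟩ : ∃ n, faceLen σ d0 = n + 1 :=
    ⟨faceLen σ d0 - 1, by have := faceLen_pos σ d0; omega⟩
  let y : ℕ → V := fun i => (fd σ d0 i).fst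
  let φ : V → V → ℕ → ℝ := fun u v i => pathDist G ℓ u (y i) - pathDist G ℓ v (y i)
  have hbd : ∀ u v i, |φ u v i| ≤ pathDist G ℓ u v := by
    intro u v i
    have h1 := hd.tri u v (y i)
    have h2 := hd.tri v u (y i)
    rw [hd.symm v u] at h2
    simp only [φ]
    rw [abs_le]; constructor <;> linarith
  have hIsL1 : IsL1 (fun u v => 1 / (4 * ((g + 1 : ℕ) : ℝ)) * H873.tv n (φ u v)) := by
    refine IsL1.smul ?_ (by positivity)
    have h1 : IsL1 (fun u v => ∑ i ∈ range n,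
        |(pathDist G ℓ u (y (i + 1)) - pathDist G ℓ u (y i)) -
          (pathDist G ℓ v (y (i + 1)) - pathDist G ℓ v (y i))|) :=
      IsL1.sum (range n) (fun i u v => |(pathDist G ℓ u (y (i + 1)) - pathDist G ℓ u (y i)) -
          (pathDist G ℓ v (y (i + 1)) - pathDist G ℓ v (y i))|) fun i _ =>
        isL1_line fun u => pathDist G ℓ u (y (i + 1)) - pathDist G ℓ u (y i)
    have h2 : IsL1 (fun u v => |(pathDist G ℓ u (y n) - pathDist G ℓ u (y 0)) -
          (pathDist G ℓ v (y n) - pathDist G ℓ v (y 0))|) :=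
      isL1_line fun u => pathDist G ℓ u (y n) - pathDist G ℓ u (y 0)
    refine (h1.add h2).congr fun u v => ?_
    unfold H873.tv
    simp only [φ]
    congr 1
    · refine Finset.sum_congr rfl fun i _ => ?_
      congr 1; ring
    · congr 1; ring
  refine ⟨_, hIsL1, fun u v => ?_, fun u v p hp q hq => ?_⟩
  · have h1 := tv_le_crossings (n := n) (N := g + 1) (φ := φ u v) (M := pathDist G ℓ u v)
      (fun i _ => hbd u v i) (fun τ => face_chg hc hℓ hσ d0 u v (by omega) τ)
    show 1 / (4 * ((g + 1 : ℕ) : ℝ)) * H873.tv n (φ u v) ≤ _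
    rw [one_div, inv_mul_le_iff₀ (by positivity)]
    linarith
  · obtain ⟨i, hi, rfl⟩ := onFace_eq σ d0 hp
    obtain ⟨j, hj, rfl⟩ := onFace_eq σ d0 hq
    have h2 := H873.tv_ge (n := n) (φ := φ u v) (p := j) (q := i) (by omega) (by omega)
    show φ u v j - φ u v i ≤ 2 * ((g + 1 : ℕ) : ℝ) * (1 / (4 * ((g + 1 : ℕ) : ℝ)) *
      H873.tv n (φ u v))
    have h3 : 2 * ((g + 1 : ℕ) : ℝ) * (1 / (4 * ((g + 1 : ℕ) : ℝ)) * H873.tv n (φ u v)) =
        1 / 2 * H873.tv n (φ u v) := by
      field_simp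
      ring
    rw [h3]
    linarith

/-- one round which removes the vertices of a face of a map of Euler genus `g` -/
theorem pointed_step_surf [Finite V] (hc : G.Connected) (hℓ : ∀ e ∈ G.edgeSet, 0 < ℓ e)
    {H : V → ℝ} (hH : ∀ v, 0 < H v) (hHl : ∀ u v, G.Adj u v → |H u - H v| ≤ ℓ s(u, v)) {g : ℕ}
    {σ : Equiv.Perm G.Dart} (hσ : SurfMap g G σ) (d0 : G.Dart) {K : ℝ} (hK : 0 ≤ K)
    (ih : ∀ u ∉ onFace σ d0, ∀ H' : compSet G (onFace σ d0) u → ℝ, (∀ v, 0 < H' v) →
      (∀ a b, (G.induce (compSet G (onFace σ d0) u)).Adj a b → |H' a - H' b| ≤ ℓ s(a.1, b.1)) →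
      Pointed (G.induce (compSet G (onFace σ d0) u)) (fun e => ℓ (e.map Subtype.val)) H' K) :
    Pointed G ℓ H (K + (((g + 1 : ℕ) : ℝ) + 1)) := by
  have hd := pathDist_isMet hc hℓ
  have hg : (1 : ℝ) ≤ ((g + 1 : ℕ) : ℝ) := by exact_mod_cast Nat.le_add_left 1 g
  obtain ⟨F, hF, hF1, hF2⟩ := surf_os hc hℓ hσ d0
  have hne : (onFace σ d0).Nonempty := ⟨d0.fst, d0, Equiv.Perm.SameCycle.refl _ _, rfl⟩
  refine pointed_step_gen (F := F) hc hℓ hH hHl hne hF
    (fun u v huv => (hF1 u v).trans (pathDist_adj hℓ huv)) hg ?_ hK ih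
  intro ν hν x y δ hδ hx hy hxy
  have h1 := hF2 x y (ν x) (hν.mem x) (ν y) (hν.mem y)
  have h2 := hd.tri x (ν y) y
  rw [hd.symm (ν y) y] at h2
  have h3 := hd.tri x (ν x) y
  rw [hd.symm (ν x) y] at h3
  linarith

end

end Vale.Agent.P235.H206
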