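import Vale.Agent.P235.H206.SurfCut
import Vale.Agent.P235.H206.SurfOS
import Vale.Agent.P235.H206.Lanes
import Vale.Agent.P235.H105.Lanes
import Vale.Agent.P235.H105.Induced

/-!
# Surfaces: the additive bound for the genus
-/

namespace Vale.Agent.P235.H206

open Finset H536

/-- one round which cuts a map of Euler genus `g` into plane maps, with a given root `r` -/
theorem genus_step_root {V : Type} {G : SimpleGraph V} {ℓ : Sym2 V → ℝ} [Finite V]
    (hc : G.Connected) (hℓ : ∀ e ∈ G.edgeSet, 0 < ℓ e) {H : V → ℝ} (hH : ∀ v, 0 < H v)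
    (hHl : ∀ u v, G.Adj u v → |H u - H v| ≤ ℓ s(u, v)) {g : ℕ} {σ : Equiv.Perm G.Dart}
    (hσ : SurfMap g G σ) (r : V) {K : ℝ} (hK : 0 ≤ K)
    (ih : ∀ X : Set V, r ∈ X → (∀ x ∈ X, ∃ p : G.Walk x r, ∀ w ∈ p.support, w ∈ X) → ∀ v ∉ X,
      (∀ (_ : Fintype G.Dart) (_ : DecidableEq V) (z : G.Dart → ZMod 2),
        (∀ d : G.Dart, z d.symm = z d) → (∀ d : G.Dart, z d ≠ 0 → d.fst ∈ compSet G X v) →
        (∀ v, ∑ d : G.Dart, (if d.fst = v then z d else 0) = 0) →
        ∃ u : G.Dart → ZMod 2, (∀ d, u (faceNext σ d) = u d) ∧ ∀ d, z d = u d + u d.symm) →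
      ∀ H' : compSet G X v → ℝ, (∀ v, 0 < H' v) →
      (∀ a b, (G.induce (compSet G X v)).Adj a b → |H' a - H' b| ≤ ℓ s(a.1, b.1)) →
      Pointed (G.induce (compSet G X v)) (fun e => ℓ (e.map Subtype.val)) H' K) :
    Pointed G ℓ H (K + 100 * ((Nat.log 2 (2 * g + 1) + 1 : ℕ) : ℝ)) := by
  classical
  have hfV := Fintype.ofFinite V
  have hd := pathDist_isMet hc hℓ
  choose p hp using fun x => exists_geodesic hc hℓ r x
  obtain ⟨W, hW, hcut⟩ := exists_cut hc hσ p
  let W' : Finset V := insert r W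
  have hW' : W'.card ≤ 2 * g + 1 := (Finset.card_insert_le _ _).trans (by omega)
  have hpos : 0 < W'.card := Finset.card_pos.2 ⟨r, Finset.mem_insert_self _ _⟩
  let e : Fin W'.card ≃ W' := W'.equivFin.symm
  let L : Fin W'.card → Set V := fun i => {x | x ∈ (p (e i).1).support}
  have hcover : ∀ v ∈ W, ∀ x ∈ (p v).support, x ∈ ⋃ i, L i := by
    intro v hv x hx
    refine Set.mem_iUnion.2 ⟨e.symm ⟨v, Finset.mem_insert_of_mem hv⟩, ?_⟩
    show x ∈ (p (e (e.symm _)).1).support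
    rw [Equiv.apply_symm_apply]
    exact hx
  refine pointed_step_lanes (fun {V} _ {d} hsym hnn {I} _ _ D h1 h2 =>
      H105.lanes_fam hsym hnn D h1 h2) hc hℓ hH hHl hpos hW' (L := L)
    (fun i => ⟨r, (p (e i).1).start_mem_support⟩) (u := fun x => pathDist G ℓ r x) ?_ ?_ hK ?_
  · intro a b
    have t1 := hd.tri r a b
    have t2 := hd.tri r b a
    rw [hd.symm b a] at t2
    rw [abs_le]; constructor <;> linarith
  · intro i a ha b hb
    exact geodesic_line hc hℓ (p (e i).1) (hp _) ha hb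
  · intro v hv H' hH' hHl'
    refine ih _ (Set.mem_iUnion.2 ⟨⟨0, hpos⟩, (p _).start_mem_support⟩) ?_ v hv ?_ H' hH' hHl'
    · intro x hx
      obtain ⟨i, hi⟩ := Set.mem_iUnion.1 hx
      refine ⟨((p (e i).1).takeUntil x hi).reverse, fun w hw => Set.mem_iUnion.2 ⟨i, ?_⟩⟩
      rw [SimpleGraph.Walk.support_reverse, List.mem_reverse] at hw
      exact (p (e i).1).support_takeUntil_subset_support hi hw
    intro _ _ z hz1 hz2 hz3
    let z' : G.edgeSet → ZMod 2 := fun e => z (rep e)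
    have hz' : ∀ d, z' (eOf d) = z d := by
      intro d
      rcases eOf_eq (eOf_rep (eOf d)) with h1 | h1
      · show z (rep (eOf d)) = _
        rw [h1]
      · show z (rep (eOf d)) = _
        rw [h1, hz1]
    obtain ⟨s, hs⟩ := hcut z' (by
      funext x
      have h3 := hz3 x
      rw [← Finset.sum_filter] at h3
      rw [Pi.zero_apply, ← h3]
      exact Finset.sum_congr (by ext d; simp) (fun d _ => hz' d)) (by
      intro d hd w hw hmem
      rw [hz'] at hd
      exact (ReachOff.right (hz2 d hd)) (hcover w hw _ hmem))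
    refine ⟨fun d => s ⟦d⟧, fun d => ?_, fun d => ?_⟩
    · show s ⟦σ d.symm⟧ = s ⟦d⟧
      rw [face_eq]
    · rw [← hz', hs, cb_apply]

/-- one round which cuts a map of Euler genus `g` into plane maps -/
theorem genus_step {V : Type} {G : SimpleGraph V} {ℓ : Sym2 V → ℝ} [Finite V] (hc : G.Connected)
    (hℓ : ∀ e ∈ G.edgeSet, 0 < ℓ e) {H : V → ℝ} (hH : ∀ v, 0 < H v)
    (hHl : ∀ u v, G.Adj u v → |H u - H v| ≤ ℓ s(u, v)) {g : ℕ} {σ : Equiv.Perm G.Dart}
    (hσ : SurfMap g G σ) {K : ℝ} (hK : 0 ≤ K)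
    (ih : ∀ S : Set V, (G.induce S).Connected →
      (Nonempty (G.induce S).Dart → SurfMap 0 (G.induce S) (indRot σ S)) →
      ∀ H' : S → ℝ, (∀ v, 0 < H' v) →
      (∀ a b, (G.induce S).Adj a b → |H' a - H' b| ≤ ℓ s(a.1, b.1)) →
      Pointed (G.induce S) (fun e => ℓ (e.map Subtype.val)) H' K) :
    Pointed G ℓ H (K + 100 * ((Nat.log 2 (2 * g + 1) + 1 : ℕ) : ℝ)) := by
  classical
  have := Fintype.ofFinite V
  obtain ⟨r⟩ := hc.nonempty
  refine genus_step_root hc hℓ hH hHl hσ r hK fun X _ _ v hv hz H' hH' hHl' =>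
    ih _ (comp_connected hv) (fun hne => ?_) H' hH' hHl'
  refine ⟨indRot_fst hσ.fst, fun a b hab => retPerm_sameCycle σ upDart_injective
    (hσ.cyc _ _ (congrArg Subtype.val hab)), ?_⟩
  rw [add_zero]
  exact induced_euler (comp_connected hv) hne hz

end Vale.Agent.P235.H206
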