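import Vale.Agent.P235.H206.Line

namespace Vale.Agent.P235

open Finset

section
variable {V : Type} {G : SimpleGraph V} {ρ : V → V → ℝ}

theorem fan_adm {H : V → ℝ} (hH : ∀ x, 0 ≤ H x) (hHl : ∀ u v, G.Adj u v → |H u - H v| ≤ ρ u v)
    {κ : Type} {C : V → κ} {t : V → ℝ}
    (hC : ∀ u v, G.Adj u v → 0 < H u → 0 < H v → C u = C v ∧ |t u - t v| ≤ ρ u v) {g : V → ℝ}
    (hb : ∀ x, |g x| ≤ H x)
    (hm : ∀ x y, C x = C y → |g x - g y| ≤ max |t x - t y| |H x - H y|) : Adm G ρ H g := by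
  refine ⟨hb, ?_⟩
  intro u v huv
  by_cases hu : 0 < H u
  · by_cases hv : 0 < H v
    · obtain ⟨hCe, hte⟩ := hC u v huv hu hv
      exact (hm u v hCe).trans (max_le hte (hHl u v huv))
    · have hv0 : H v = 0 := le_antisymm (not_lt.mp hv) (hH v)
      have h5 := hb v
      rw [hv0] at h5
      have h6 : g v = 0 := by simpa only [abs_nonpos_iff] using h5
      have h7 := hHl u v huv
      rw [hv0, sub_zero, abs_of_pos hu] at h7
      rw [h6, sub_zero]
      exact (hb u).trans h7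
  · have hu0 : H u = 0 := le_antisymm (not_lt.mp hu) (hH u)
    have h5 := hb u
    rw [hu0] at h5
    have h6 : g u = 0 := by simpa using h5
    have h7 := hHl u v huv
    rw [hu0, zero_sub, abs_neg, abs_of_nonneg (hH v)] at h7
    rw [h6, zero_sub, abs_neg]
    exact (hb v).trans h7

theorem exists_diam [Finite V] (hρ : IsMet ρ) : ∃ R : ℝ, 0 < R ∧ ∀ x y, ρ x y ≤ R := by
  have := Fintype.ofFinite V
  have hn := hρ.nonneg
  refine ⟨(∑ x, ∑ y, ρ x y) + 1, ?_, ?_⟩
  · have := Finset.sum_nonneg (s := (Finset.univ : Finset V)) fun x _ =>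
      Finset.sum_nonneg (s := (Finset.univ : Finset V)) fun y _ => hn x y
    linarith
  · intro x y
    have e1 : ρ x y ≤ ∑ y, ρ x y :=
      Finset.single_le_sum (f := fun y => ρ x y) (fun y _ => hn x y) (Finset.mem_univ y)
    have e2 : ∑ y, ρ x y ≤ ∑ x, ∑ y, ρ x y :=
      Finset.single_le_sum (f := fun x => ∑ y, ρ x y)
        (fun x _ => Finset.sum_nonneg fun y _ => hn x y) (Finset.mem_univ x)
    linarith

/-- one level: no loss for the pairs that stay far from the removed part -/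
theorem level_step [Finite V] (hρ : IsMet ρ) {H : V → ℝ} (hH : ∀ x, 0 ≤ H x)
    (hHl : ∀ u v, G.Adj u v → |H u - H v| ≤ ρ u v) {κ : Type} (C : V → κ) (t : V → ℝ) (P : Set V)
    (hC : ∀ u v, G.Adj u v → 0 < H u → 0 < H v → C u = C v ∧ |t u - t v| ≤ ρ u v)
    (htight : ∀ z ∈ P, ∀ z2 ∈ P, C z = C z2 → ∀ f : V → ℝ,
      (∀ u v, G.Adj u v → 0 < H u → 0 < H v → |f u - f v| ≤ ρ u v) → |f z - f z2| ≤ |t z - t z2|) :
    ∃ H' : V → ℝ, (∀ x, 0 ≤ H' x) ∧ (∀ x, H' x ≤ H x) ∧
      (∀ u v, G.Adj u v → |H' u - H' v| ≤ ρ u v) ∧ (∀ z ∈ P, H' z = 0) ∧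
      (∀ x, 0 < H x → x ∉ P → 0 < H' x) ∧
      ∃ (ι : Type) (_ : Fintype ι) (w : ι → ℝ) (g : ι → V → ℝ), (∀ i, 0 ≤ w i) ∧ ∑ i, w i = 2 ∧
        (∀ i, Adm G ρ H (g i)) ∧ ∀ x y, ρ x y ≤ 8 * H x → ρ x y ≤ 8 * H y →
          (8 * H' x < ρ x y ∨ 8 * H' y < ρ x y) →
          1 / 16000 * ρ x y ≤ ∑ i, w i * |g i x - g i y| := by
  classical
  have hp : ∀ u v, G.Adj u v → 0 < ρ u v := fun u v huv => hρ.pos u v huv.ne
  have hρl : ∀ y u v, |ρ u y - ρ v y| ≤ ρ u v := by
    intro y u v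
    have e1 := hρ.tri u v y
    have e2 := hρ.tri v u y
    rw [hρ.symm v u] at e2
    rw [abs_le]
    constructor <;> linarith
  obtain ⟨R, hR0, hR⟩ := exists_diam hρ
  -- the barrier
  obtain ⟨φ, hφb, hφl, hφt⟩ := barrier G ρ hρ.symm hp (fun v => if v ∈ P then 0 else H v)
  have hb0 : ∀ v, 0 ≤ (if v ∈ P then (0 : ℝ) else H v) := by
    intro v; split_ifs
    · exact le_rfl
    · exact hH v
  have hφ0 : ∀ x, 0 ≤ φ x := by
    intro x
    obtain ⟨z, hz, hf⟩ := hφt x
    have := hf (fun _ => 0) (by intro u v huv; simpa only [sub_self, abs_zero] using (hp u v huv).le)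
    rw [sub_self, abs_zero] at this
    have h5 := hb0 z
    rw [← hz] at h5
    linarith only [this, h5]
  have hφH : ∀ x, φ x ≤ H x := by
    intro x
    refine (hφb x).trans ?_
    split_ifs
    · exact hH x
    · exact le_rfl
  have hφP : ∀ x ∈ P, φ x = 0 := by
    intro x hx
    apply le_antisymm _ (hφ0 x)
    have := hφb x
    rwa [if_pos hx] at this
  -- the distance to `P` inside `{H > 0}`
  let GW : SimpleGraph V :=
    { Adj := fun u v => G.Adj u v ∧ 0 < H u ∧ 0 < H v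
      symm := ⟨fun u v h => ⟨h.1.symm, h.2.2, h.2.1⟩⟩
      loopless := ⟨fun u h => G.loopless.irrefl u h.1⟩ }
  obtain ⟨s, hsb, hsl, hst⟩ := barrier GW ρ hρ.symm (fun u v h => hp u v h.1)
    (fun v => if v ∈ P then 0 else R)
  have hs0 : ∀ x, 0 ≤ s x := by
    intro x
    obtain ⟨z, hz, hf⟩ := hst x
    have := hf (fun _ => 0) (by
      intro u v huv; simpa only [sub_self, abs_zero] using (hp u v huv.1).le)
    rw [sub_self, abs_zero] at this
    have h5 : 0 ≤ (if z ∈ P then (0 : ℝ) else R) := by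
      split_ifs
      · exact le_rfl
      · exact hR0.le
    rw [← hz] at h5
    linarith only [this, h5]
  have hsP : ∀ x ∈ P, s x = 0 := by
    intro x hx
    apply le_antisymm _ (hs0 x)
    have := hsb x
    rwa [if_pos hx] at this
  have hsn : ∀ x, s x < R → ∃ z ∈ P, C z = C x ∧ ∀ f : V → ℝ,
      (∀ u v, G.Adj u v → 0 < H u → 0 < H v → |f u - f v| ≤ ρ u v) → |f x - f z| ≤ s x := by
    intro x hx
    obtain ⟨z, hz, hf⟩ := hst x
    have hf' : ∀ f : V → ℝ, (∀ u v, G.Adj u v → 0 < H u → 0 < H v → |f u - f v| ≤ ρ u v) →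
        |f x - f z| ≤ s x - s z := fun f h => hf f fun u v huv => h u v huv.1 huv.2.1 huv.2.2
    have hzP : z ∈ P := by
      by_contra hzP
      rw [if_neg hzP] at hz
      have := (abs_nonneg _).trans (hf' (fun _ => 0) (by
        intro u v huv _ _; simpa only [sub_self, abs_zero] using (hp u v huv).le))
      linarith
    rw [hsP z hzP] at hf'
    simp only [sub_zero] at hf'
    refine ⟨z, hzP, ?_, hf'⟩
    by_contra hne
    have h1 := hf' (fun v => if C v = C x then 0 else s x + 1) (by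
      intro u v huv hu hv
      rw [(hC u v huv hu hv).1, sub_self, abs_zero]
      exact (hp u v huv).le)
    beta_reduce at h1
    rw [if_pos rfl, if_neg hne, zero_sub, abs_neg, abs_of_nonneg (by linarith [hs0 x])] at h1
    linarith
  have hsφ : ∀ x, φ x < H x → s x ≤ φ x := by
    intro x hx
    obtain ⟨z, hz, hf⟩ := hφt x
    have hzP : z ∈ P := by
      by_contra hzP
      rw [if_neg hzP] at hz
      have := (le_abs_self _).trans (hf H hHl)
      linarith
    have h1 := hf (fun v => min (s v) (H v)) (by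
      intro u v huv
      by_cases hu : 0 < H u
      · by_cases hv : 0 < H v
        · exact (abs_min_sub_min_le_max _ _ _ _).trans (max_le (hsl u v ⟨huv, hu, hv⟩) (hHl u v huv))
        · have hv0 : H v = 0 := le_antisymm (not_lt.mp hv) (hH v)
          have h7 := hHl u v huv
          rw [hv0, sub_zero, abs_of_pos hu] at h7
          rw [hv0, min_eq_right (hs0 v), sub_zero, abs_of_nonneg (le_min (hs0 u) (hH u))]
          exact (min_le_right _ _).trans h7
      · have hu0 : H u = 0 := le_antisymm (not_lt.mp hu) (hH u)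
        have h7 := hHl u v huv
        rw [hu0, zero_sub, abs_neg, abs_of_nonneg (hH v)] at h7
        rw [hu0, min_eq_right (hs0 u), zero_sub, abs_neg, abs_of_nonneg (le_min (hs0 v) (hH v))]
        exact (min_le_right _ _).trans h7)
    beta_reduce at h1
    rw [hφP z hzP, hsP z hzP, min_eq_left (hH z), sub_zero, sub_zero,
      abs_of_nonneg (le_min (hs0 x) (hH x))] at h1
    rcases min_le_iff.mp h1 with h | h
    · exact h
    · linarith
  obtain ⟨ι1, _, w1, g1, hw1, hs1, hb1, hm1, hl1, hl1', _⟩ := fan' fan C t H hH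
  obtain ⟨ι2, _, w2, g2, hw2, hs2, hb2, hm2, hl2, hl2', _⟩ := fan' fan C s H hH
  have ha1 : ∀ i, Adm G ρ H (g1 i) := fun i => fan_adm hH hHl hC (hb1 i) (hm1 i)
  have ha2 : ∀ i, Adm G ρ H (g2 i) := fun i => fan_adm hH hHl
    (fun u v huv hu hv => ⟨(hC u v huv hu hv).1, hsl u v ⟨huv, hu, hv⟩⟩) (hb2 i) (hm2 i)
  refine ⟨φ, hφ0, hφH, hφl, hφP, ?_, ι1 ⊕ ι2, inferInstance, Sum.elim w1 w2, Sum.elim g1 g2, ?_, ?_,
    ?_, ?_⟩
  · intro x hx hxP
    refine lt_of_le_of_ne (hφ0 x) fun h0 => ?_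
    obtain ⟨z, hz, hf⟩ := hφt x
    have h1 := hf (fun v => ρ v x) (fun u v _ => hρl x u v)
    beta_reduce at h1
    rw [← h0, hρ.self, zero_sub, abs_neg, abs_of_nonneg (hρ.nonneg z x)] at h1
    have h2 := hφ0 z
    have h3 : z = x := by
      by_contra hne
      have := hρ.pos z x hne
      linarith
    rw [h3, if_neg hxP] at hz
    linarith
  · rintro (i | i)
    · exact hw1 i
    · exact hw2 i
  · rw [Fintype.sum_sum_type]
    simp only [Sum.elim_inl, Sum.elim_inr]
    rw [hs1, hs2]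
    norm_num
  · rintro (i | i)
    · exact ha1 i
    · exact ha2 i
  · have hsum : ∀ x y, ∑ i, (Sum.elim w1 w2 : ι1 ⊕ ι2 → ℝ) i *
        |(Sum.elim g1 g2 : ι1 ⊕ ι2 → V → ℝ) i x - (Sum.elim g1 g2 : ι1 ⊕ ι2 → V → ℝ) i y| =
        (∑ i, w1 i * |g1 i x - g1 i y|) + (∑ i, w2 i * |g2 i x - g2 i y|) := by
      intro x y
      rw [Fintype.sum_sum_type]
      simp only [Sum.elim_inl, Sum.elim_inr]
    have key : ∀ x y, ρ x y ≤ 8 * H x → ρ x y ≤ 8 * H y → 8 * φ x < ρ x y →
        1 / 16000 * ρ x y ≤ (∑ i, w1 i * |g1 i x - g1 i y|) + (∑ i, w2 i * |g2 i x - g2 i y|) := by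
      intro x y hx hy hφx
      set M := ρ x y with hM
      have n1 : 0 ≤ ∑ i, w1 i * |g1 i x - g1 i y| :=
        Finset.sum_nonneg fun i _ => mul_nonneg (hw1 i) (abs_nonneg _)
      have n2 : 0 ≤ ∑ i, w2 i * |g2 i x - g2 i y| :=
        Finset.sum_nonneg fun i _ => mul_nonneg (hw2 i) (abs_nonneg _)
      have hM0 : 0 < M := by linarith [hφ0 x]
      have hMR : M ≤ R := hR x y
      by_cases hCxy : C x = C y
      · have hsx : s x ≤ φ x := hsφ x (by linarith)
        by_cases hsy : M / 4 ≤ s y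
        · have h1 : M / 8 ≤ |s x - s y| := by
            rw [abs_sub_comm]
            refine le_trans ?_ (le_abs_self _)
            linarith
          have h2 : M / 8 ≤ min |s x - s y| (H x + H y) := le_min h1 (by linarith)
          have h3 := hl2 x y hCxy
          linarith
        · push Not at hsy
          obtain ⟨zx, hzx, hCx, hfx⟩ := hsn x (by linarith)
          obtain ⟨zy, hzy, hCy, hfy⟩ := hsn y (by linarith)
          have hCz : C zx = C zy := by rw [hCx, hCy, hCxy]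
          have e1 := htight zx hzx zy hzy hCz (fun v => ρ v y) (fun u v _ _ _ => hρl y u v)
          have e2 := hfx (fun v => ρ v y) (fun u v _ _ _ => hρl y u v)
          have e3 := hfy (fun v => ρ v y) (fun u v _ _ _ => hρl y u v)
          beta_reduce at e1 e2 e3
          rw [hρ.self, zero_sub, abs_neg, abs_of_nonneg (hρ.nonneg zy y)] at e3
          have e4 := hfx t (fun u v huv hu hv => (hC u v huv hu hv).2)
          have e5 := hfy t (fun u v huv hu hv => (hC u v huv hu hv).2)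
          have e2' := (abs_le.mp e2).2
          have e1' := (le_abs_self _).trans e1
          have h1 : M / 4 ≤ |t x - t y| := by
            have h7 : |t zx - t zy| ≤ |t x - t zx| + |t x - t y| + |t y - t zy| := by
              have e4' : t zx - t zy = (t zx - t x) + (t x - t y) + (t y - t zy) := by ring
              rw [e4']
              refine (abs_add_three _ _ _).trans ?_
              rw [abs_sub_comm (t zx)]
            linarith
          have h2 : M / 4 ≤ min |t x - t y| (H x + H y) := le_min h1 (by linarith)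
          have h3 := hl1 x y hCxy
          linarith
      · have h3 := hl1' x y hCxy
        linarith
    intro x y hx hy hor
    rw [hsum]
    rcases hor with h | h
    · exact key x y hx hy h
    · have e1 : ∑ i, w1 i * |g1 i x - g1 i y| = ∑ i, w1 i * |g1 i y - g1 i x| := by
        simp only [abs_sub_comm]
      have e2 : ∑ i, w2 i * |g2 i x - g2 i y| = ∑ i, w2 i * |g2 i y - g2 i x| := by
        simp only [abs_sub_comm]
      rw [e1, e2, hρ.symm x y]
      rw [hρ.symm x y] at hx hy h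
      exact key y x hy hx h

end

/-- a family of total weight `2 k` that is rich on the pairs far from the zero set of `H` -/
def Sep {V : Type} (G : SimpleGraph V) (ρ : V → V → ℝ) (H : V → ℝ) (k : ℕ) : Prop :=
  ∃ (ι : Type) (_ : Fintype ι) (w : ι → ℝ) (g : ι → V → ℝ), (∀ i, 0 ≤ w i) ∧ ∑ i, w i = 2 * k ∧
    (∀ i, Adm G ρ H (g i)) ∧ ∀ x y, ρ x y ≤ 8 * H x → ρ x y ≤ 8 * H y →
      1 / 16000 * ρ x y ≤ ∑ i, w i * |g i x - g i y|

theorem Sep.zero {V : Type} {G : SimpleGraph V} {ρ : V → V → ℝ} (hρ : IsMet ρ) {H : V → ℝ}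
    (hH0 : ∀ x, H x = 0) : Sep G ρ H 0 := by
  refine ⟨PEmpty, inferInstance, fun i => i.elim, fun i => i.elim, fun i => i.elim, by simp,
    fun i => i.elim, ?_⟩
  intro x y hx _
  rw [hH0, mul_zero] at hx
  have : ρ x y = 0 := le_antisymm hx (hρ.nonneg x y)
  rw [this]
  simp

/-- adding one level -/
theorem Sep.step {V : Type} {G : SimpleGraph V} {ρ : V → V → ℝ} {H H' : V → ℝ} {k : ℕ}
    (hH'H : ∀ x, H' x ≤ H x)
    (hstep : ∃ (ι : Type) (_ : Fintype ι) (w : ι → ℝ) (g : ι → V → ℝ), (∀ i, 0 ≤ w i) ∧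
      ∑ i, w i = 2 ∧ (∀ i, Adm G ρ H (g i)) ∧ ∀ x y, ρ x y ≤ 8 * H x → ρ x y ≤ 8 * H y →
          (8 * H' x < ρ x y ∨ 8 * H' y < ρ x y) →
          1 / 16000 * ρ x y ≤ ∑ i, w i * |g i x - g i y|)
    (h : Sep G ρ H' k) : Sep G ρ H (k + 1) := by
  obtain ⟨ι1, _, w1, g1, hw1, hs1, ha1, hl1⟩ := hstep
  obtain ⟨ι2, _, w2, g2, hw2, hs2, ha2, hl2⟩ := h
  have hsum : ∀ x y, ∑ i, (Sum.elim w1 w2 : ι1 ⊕ ι2 → ℝ) i *
      |(Sum.elim g1 g2 : ι1 ⊕ ι2 → V → ℝ) i x - (Sum.elim g1 g2 : ι1 ⊕ ι2 → V → ℝ) i y| =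
      (∑ i, w1 i * |g1 i x - g1 i y|) + (∑ i, w2 i * |g2 i x - g2 i y|) := by
    intro x y
    rw [Fintype.sum_sum_type]
    simp only [Sum.elim_inl, Sum.elim_inr]
  refine ⟨ι1 ⊕ ι2, inferInstance, Sum.elim w1 w2, Sum.elim g1 g2, ?_, ?_, ?_, ?_⟩
  · rintro (i | i)
    · exact hw1 i
    · exact hw2 i
  · rw [Fintype.sum_sum_type]
    simp only [Sum.elim_inl, Sum.elim_inr]
    rw [hs1, hs2]
    push_cast
    ring
  · rintro (i | i)
    · exact ha1 i
    · exact ⟨fun v => ((ha2 i).1 v).trans (hH'H v), (ha2 i).2⟩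
  · intro x y hx hy
    rw [hsum]
    have n1 : 0 ≤ ∑ i, w1 i * |g1 i x - g1 i y| :=
      Finset.sum_nonneg fun i _ => mul_nonneg (hw1 i) (abs_nonneg _)
    have n2 : 0 ≤ ∑ i, w2 i * |g2 i x - g2 i y| :=
      Finset.sum_nonneg fun i _ => mul_nonneg (hw2 i) (abs_nonneg _)
    by_cases hor : 8 * H' x < ρ x y ∨ 8 * H' y < ρ x y
    · have := hl1 x y hx hy hor
      linarith
    · rw [not_or, not_lt, not_lt] at hor
      have := hl2 x y hor.1 hor.2
      linarith

/-- bags of a path decomposition meeting `{H > 0}` in at most `k` vertices -/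
theorem sep_bags (k : ℕ) : ∀ {V : Type} [Finite V] (G : SimpleGraph V) (ρ : V → V → ℝ),
    IsMet ρ → ∀ (n : ℕ) (B : Fin n → Finset V),
    (∀ v, ∃ i, v ∈ B i) → (∀ u v, G.Adj u v → ∃ i, u ∈ B i ∧ v ∈ B i) →
    (∀ i j k, i ≤ j → j ≤ k → ∀ v, v ∈ B i → v ∈ B k → v ∈ B j) →
    ∀ H : V → ℝ, (∀ x, 0 ≤ H x) → (∀ u v, G.Adj u v → |H u - H v| ≤ ρ u v) →
    (∀ i, ((B i).filter (fun v => 0 < H v)).card ≤ k) → Sep G ρ H k := by
  classical
  induction k with
  | zero =>
    intro V _ G ρ hρ n B h1 h2 h3 H hH hHl hcard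
    refine Sep.zero hρ fun v => ?_
    obtain ⟨i, hi⟩ := h1 v
    by_contra hne
    have hpos : 0 < H v := lt_of_le_of_ne (hH v) (Ne.symm hne)
    have h5 := hcard i
    rw [Nat.le_zero, Finset.card_eq_zero, Finset.filter_eq_empty_iff] at h5
    exact h5 hi hpos
  | succ k ih =>
    intro V _ G ρ hρ n B h1 h2 h3 H hH hHl hcard
    have hp : ∀ u v, G.Adj u v → 0 < ρ u v := fun u v huv => hρ.pos u v huv.ne
    obtain ⟨κ, C, t, P, hPW, hC, hhit, htight⟩ :=
      transversal G ρ hρ.symm hp {v | 0 < H v} n B h1 h2 h3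
    obtain ⟨H', h0, hle, hl, hP, _, hstep⟩ := level_step hρ hH hHl C t P
      (fun u v huv hu hv => hC u v huv hu hv) (fun z hz z2 hz2 hCz f hf => htight z hz z2 hz2 hCz f hf)
    refine Sep.step hle hstep (ih G ρ hρ n B h1 h2 h3 H' h0 hl ?_)
    intro i
    by_cases hne : ∃ v ∈ {v | 0 < H v}, v ∈ B i
    · obtain ⟨z, hzP, hzB⟩ := hhit i hne
      have hzW : 0 < H z := hPW hzP
      have hsub : (B i).filter (fun v => 0 < H' v) ⊆
          ((B i).filter (fun v => 0 < H v)).erase z := by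
        intro v hv
        rw [Finset.mem_filter] at hv
        rw [Finset.mem_erase, Finset.mem_filter]
        refine ⟨?_, hv.1, hv.2.trans_le (hle v)⟩
        rintro rfl
        rw [hP v hzP] at hv
        exact lt_irrefl _ hv.2
      have h5 := Finset.card_le_card hsub
      rw [Finset.card_erase_of_mem (Finset.mem_filter.mpr ⟨hzB, hzW⟩)] at h5
      have := hcard i
      omega
    · have : (B i).filter (fun v => 0 < H' v) = ∅ := by
        apply Finset.filter_eq_empty_iff.mpr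
        intro v hv hpos
        exact hne ⟨v, hpos.trans_le (hle v), hv⟩
      rw [this]; simp

/-- `Sep` with a constant bound gives the line property -/
theorem Sep.line {V : Type} [Finite V] {G : SimpleGraph V} {ρ : V → V → ℝ} (hρ : IsMet ρ)
    (hgen : Gen G ρ) {R : ℝ} (hR : ∀ x y, ρ x y ≤ 8 * R) {k : ℕ} (hk : 0 < k)
    (h : Sep G ρ (fun _ => R) k) : LineM ρ (1 / (32000 * k)) := by
  obtain ⟨ι, _, w, g, hw, hs, ha, hl⟩ := h
  have hk' : (0 : ℝ) < k := Nat.cast_pos.mpr hk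
  refine ⟨ι, inferInstance, fun i => 1 / (2 * k) * w i, g, fun i => mul_nonneg (by positivity) (hw i),
    ?_, fun i => hgen (g i) (ha i).2, ?_⟩
  · rw [← Finset.mul_sum, hs]
    field_simp
  · intro x y
    have h1 := mul_le_mul_of_nonneg_left (hl x y (hR x y) (hR x y))
      (by positivity : (0 : ℝ) ≤ 1 / (2 * k))
    have e1 : 1 / (2 * (k : ℝ)) * (1 / 16000 * ρ x y) = 1 / (32000 * k) * ρ x y := by
      field_simp
      ring
    rw [e1, Finset.mul_sum] at h1
    simpa only [mul_assoc] using h1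

/-- Graphs of pathwidth at most `p` are line-Lipschitz with constant `1 / (32000 (p + 1))`. -/
theorem lineLip_pathwidth_linear (p : ℕ) {V : Type} [Finite V] (G : SimpleGraph V)
    (hG : PathwidthLE G p) : LineLip G (1 / (32000 * (p + 1))) := by
  classical
  intro ρ hρ hgen
  obtain ⟨n, B, h1, h2, h3, h4⟩ := hG
  obtain ⟨R, hR0, hR⟩ := exists_diam hρ
  have h := sep_bags (p + 1) G ρ hρ n B h1 h2 h3 (fun _ => R) (fun _ => hR0.le)
    (fun u v huv => by simpa only [sub_self, abs_zero] using hρ.nonneg u v)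
    (fun i => (Finset.card_filter_le _ _).trans (h4 i))
  have h5 := h.line hρ hgen (fun x y => by linarith [hR x y]) (Nat.succ_pos p)
  push_cast at h5
  exact h5

end Vale.Agent.P235
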