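import Vale.Agent.P235.Comp.Final
import Mathlib.Analysis.Complex.ExponentialBounds

namespace Vale.Agent.P235

open Finset MeasureTheory

theorem pow_diff_le {a b M : ℝ} (ha : 0 ≤ a) (hb : 0 ≤ b) (haM : a ≤ M) (hbM : b ≤ M) (m : ℕ) :
    |a ^ m - b ^ m| ≤ m * M ^ (m - 1) * |a - b| := by
  induction m with
  | zero => simp
  | succ m ih =>
    have hM : 0 ≤ M := ha.trans haM
    have e1 : a ^ (m + 1) - b ^ (m + 1) = a ^ m * (a - b) + (a ^ m - b ^ m) * b := by ring
    rw [e1]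
    refine (abs_add_le _ _).trans ?_
    rw [abs_mul, abs_mul, abs_of_nonneg (pow_nonneg ha m), abs_of_nonneg hb]
    have h1 : a ^ m * |a - b| ≤ M ^ m * |a - b| :=
      mul_le_mul_of_nonneg_right (pow_le_pow_left₀ ha haM m) (abs_nonneg _)
    have h2 : |a ^ m - b ^ m| * b ≤ m * M ^ (m - 1) * |a - b| * M :=
      mul_le_mul ih hbM hb (by positivity)
    have h3 : (m : ℝ) * M ^ (m - 1) * |a - b| * M = m * M ^ m * |a - b| := by
      cases m with
      | zero => simp
      | succ n => simp only [Nat.add_sub_cancel]; ring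
    rw [h3] at h2
    simp only [Nat.add_sub_cancel]
    push_cast
    nlinarith

section

variable {V : Type} [Finite V] {G : SimpleGraph V} {X : Set V} {ℓ : Sym2 V → ℝ} {ν : V → V}

open Classical in
/-- the extension of `f` from `X` with weights `bump ^ m` -/
noncomputable def ext2 {E : Type} [NormedAddCommGroup E] [NormedSpace ℝ E] (m : ℕ)
    (G : SimpleGraph V) (ℓ : Sym2 V → ℝ) (X : Set V) (ν : V → V) (f : V → E) (u : V) : E :=
  if u ∈ X then f u else
    (∑ x ∈ attachF G X u, bump G ℓ ν u x ^ m)⁻¹ • ∑ x ∈ attachF G X u, bump G ℓ ν u x ^ m • f x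

theorem bump2_sum_ge (m : ℕ) (hc : G.Connected) (hℓ : ∀ e ∈ G.edgeSet, 0 < ℓ e)
    (hν : Near G ℓ X ν) {u : V} (hu : u ∉ X) :
    pathDist G ℓ u (ν u) ^ m ≤ ∑ x ∈ attachF G X u, bump G ℓ ν u x ^ m := by
  have hd := pathDist_isMet hc hℓ
  have h1 : bump G ℓ ν u (ν u) ^ m ≤ ∑ x ∈ attachF G X u, bump G ℓ ν u x ^ m :=
    Finset.single_le_sum (f := fun x => bump G ℓ ν u x ^ m)
      (fun i _ => pow_nonneg (bump_nonneg u i) m) (mem_attachF.mpr (hν.att u hu))
  refine le_trans (pow_le_pow_left₀ (hd.nonneg _ _) ?_ m) h1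
  unfold bump
  refine le_trans (le_of_eq ?_) (le_max_right _ _)
  ring

variable {E : Type} [NormedAddCommGroup E] [NormedSpace ℝ E] {f : V → E} {C : ℝ}

theorem ext2_near {m : ℕ} (hm : m ≠ 0) (hc : G.Connected) (hℓ : ∀ e ∈ G.edgeSet, 0 < ℓ e)
    (hν : Near G ℓ X ν) (hC : 0 ≤ C)
    (hf : ∀ x ∈ X, ∀ y ∈ X, ‖f x - f y‖ ≤ C * pathDist G ℓ x y) (u : V) :
    ‖ext2 m G ℓ X ν f u - f (ν u)‖ ≤ 3 * C * pathDist G ℓ u (ν u) := by
  have hd := pathDist_isMet hc hℓ
  by_cases hu : u ∈ X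
  · rw [ext2, if_pos hu, hν.self u hu, sub_self, norm_zero, hd.self, mul_zero]
  · rw [ext2, if_neg hu]
    have hpos := pow_pos (near_pos hc hℓ hν hu) m
    have hW := bump2_sum_ge m hc hℓ hν hu
    rw [avg_sub _ _ _ _ (hpos.trans_le hW)]
    apply avg_bound _ _ _ _ (fun i _ => pow_nonneg (bump_nonneg u i) m) (hpos.trans_le hW)
    intro x hx hne
    refine (hf x (mem_attachF.mp hx).1 _ (hν.mem u)).trans ?_
    have h1 := bump_ne (fun h => hne (by rw [h]; exact zero_pow hm))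
    have h2 := hd.tri x u (ν u)
    rw [hd.symm x u] at h2
    calc C * pathDist G ℓ x (ν u) ≤ C * (3 * pathDist G ℓ u (ν u)) :=
          mul_le_mul_of_nonneg_left (by linarith) hC
      _ = _ := by ring

theorem pow_growth {m : ℕ} (hm : 1 ≤ m) {s φ δ : ℝ} (hs : 0 ≤ s) (hφ : 0 < φ) (hδ0 : 0 ≤ δ)
    (hδ : 10 * m * δ ≤ φ) : (s + 3 * δ) ^ (m - 1) ≤ 3 * (max s (φ / 2)) ^ (m - 1) := by
  have hm' : (1 : ℝ) ≤ m := by exact_mod_cast hm
  set M := max s (φ / 2) with hM
  have hM0 : 0 < M := (half_pos hφ).trans_le (le_max_right _ _)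
  have h1 : s + 3 * δ ≤ M * (1 + 1 / m) := by
    have e1 : s ≤ M := le_max_left _ _
    have e2 : φ / 2 ≤ M := le_max_right _ _
    have e3 : 3 * δ ≤ M * (1 / m) := by
      rw [mul_one_div, le_div_iff₀ (by linarith)]
      nlinarith
    calc s + 3 * δ ≤ M + M * (1 / m) := add_le_add e1 e3
      _ = _ := by ring
  have h2 : (s + 3 * δ) ^ (m - 1) ≤ (M * (1 + 1 / m)) ^ (m - 1) :=
    pow_le_pow_left₀ (by positivity) h1 _
  refine h2.trans ?_
  rw [mul_pow, mul_comm]
  refine mul_le_mul_of_nonneg_right ?_ (by positivity)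
  have h3 : (1 + 1 / (m : ℝ)) ^ (m - 1) ≤ (Real.exp (1 / m)) ^ (m - 1) := by
    refine pow_le_pow_left₀ (by positivity) ?_ _
    have := Real.add_one_le_exp (1 / (m : ℝ))
    linarith
  refine h3.trans ?_
  rw [← Real.exp_nat_mul]
  have h4 : ((m - 1 : ℕ) : ℝ) * (1 / m) ≤ 1 := by
    rw [mul_one_div, div_le_one (by linarith)]
    exact_mod_cast Nat.sub_le m 1
  refine (Real.exp_le_exp.mpr h4).trans ?_
  exact Real.exp_one_lt_three.le

theorem sum_max_le {α : Type} (s : Finset α) (a : α → ℝ) {φ : ℝ} (hφ : 0 < φ) {m w : ℕ}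
    (hm : 1 ≤ m) (hcard : s.card ≤ w) (hw : w ≤ 2 ^ (m - 1)) (ha : ∀ i ∈ s, 0 ≤ a i)
    (hA : φ ^ m ≤ ∑ i ∈ s, a i ^ m) :
    ∑ i ∈ s, (max (a i) (φ / 2)) ^ (m - 1) ≤ 3 * (∑ i ∈ s, a i ^ m) / φ := by
  obtain ⟨n, rfl⟩ : ∃ n, m = n + 1 := ⟨m - 1, by omega⟩
  simp only [Nat.add_sub_cancel] at hw ⊢
  have hterm : ∀ i ∈ s, (max (a i) (φ / 2)) ^ n ≤ 2 / φ * a i ^ (n + 1) + (φ / 2) ^ n := by
    intro i hi
    have hai := ha i hi
    have h0 : 0 ≤ 2 / φ * a i ^ (n + 1) := by positivity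
    have h1 : 0 ≤ (φ / 2) ^ n := by positivity
    rcases le_total (φ / 2) (a i) with h | h
    · rw [max_eq_left h]
      have h2 : a i ^ n ≤ 2 / φ * a i ^ (n + 1) := by
        rw [pow_succ, div_mul_eq_mul_div, le_div_iff₀ hφ]
        have := mul_le_mul_of_nonneg_left h (pow_nonneg hai n)
        linarith
      linarith
    · rw [max_eq_right h]
      linarith
  refine (Finset.sum_le_sum hterm).trans ?_
  rw [Finset.sum_add_distrib, ← Finset.mul_sum, Finset.sum_const, nsmul_eq_mul]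
  set A := ∑ i ∈ s, a i ^ (n + 1) with hAdef
  have h3 : (s.card : ℝ) * (φ / 2) ^ n ≤ A / φ := by
    have h4 : (s.card : ℝ) ≤ 2 ^ n := by exact_mod_cast hcard.trans hw
    calc (s.card : ℝ) * (φ / 2) ^ n ≤ 2 ^ n * (φ / 2) ^ n :=
          mul_le_mul_of_nonneg_right h4 (by positivity)
      _ = φ ^ n := by rw [← mul_pow]; congr 1; ring
      _ ≤ A / φ := by
          rw [le_div_iff₀ hφ, ← pow_succ]
          exact hA
  have h5 : 2 / φ * A + A / φ = 3 * A / φ := by ring
  linarith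

theorem ext2_edge {m w : ℕ} (hm : 1 ≤ m) (hwm : w ≤ 2 ^ (m - 1)) (hc : G.Connected)
    (hℓ : ∀ e ∈ G.edgeSet, 0 < ℓ e) (hν : Near G ℓ X ν)
    (hC : 0 ≤ C) (hf : ∀ x ∈ X, ∀ y ∈ X, ‖f x - f y‖ ≤ C * pathDist G ℓ x y)
    (hw : ∀ u ∉ X, (attach G X u).ncard ≤ w) {u v : V} (huv : G.Adj u v) :
    ‖ext2 m G ℓ X ν f u - ext2 m G ℓ X ν f v‖ ≤ 216 * m * C * pathDist G ℓ u v := by
  have hd := pathDist_isMet hc hℓ
  have hm0 : m ≠ 0 := by omega
  -- reduce to `D u ≥ D v`
  wlog hle : pathDist G ℓ v (ν v) ≤ pathDist G ℓ u (ν u) generalizing u v with H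
  · rw [norm_sub_rev, hd.symm]
    exact H huv.symm (le_of_not_ge hle)
  have hδ : 0 < pathDist G ℓ u v := hd.pos _ _ huv.ne
  have hmr : (1 : ℝ) ≤ m := by exact_mod_cast hm
  have hCδ : 0 ≤ C * pathDist G ℓ u v := by positivity
  by_cases hcase : pathDist G ℓ u (ν u) ≤ 10 * m * pathDist G ℓ u v
  · -- far apart
    have h1 := ext2_near hm0 hc hℓ hν hC hf u
    have h2 := ext2_near hm0 hc hℓ hν hC hf v
    have h3 := hf (ν u) (hν.mem u) (ν v) (hν.mem v)
    have h4 : pathDist G ℓ (ν u) (ν v) ≤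
        pathDist G ℓ u (ν u) + pathDist G ℓ u v + pathDist G ℓ v (ν v) := by
      have h5 := hd.tri (ν u) u (ν v)
      have h6 := hd.tri u v (ν v)
      rw [hd.symm (ν u) u] at h5
      linarith
    have h7 : ‖ext2 m G ℓ X ν f u - ext2 m G ℓ X ν f v‖ ≤
        ‖ext2 m G ℓ X ν f u - f (ν u)‖ + ‖f (ν u) - f (ν v)‖ +
          ‖ext2 m G ℓ X ν f v - f (ν v)‖ := by
      have : ext2 m G ℓ X ν f u - ext2 m G ℓ X ν f v =
        (ext2 m G ℓ X ν f u - f (ν u)) + (f (ν u) - f (ν v)) -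
          (ext2 m G ℓ X ν f v - f (ν v)) := by abel
      rw [this]
      exact (norm_sub_le _ _).trans (add_le_add (norm_add_le _ _) le_rfl)
    have h8 : C * pathDist G ℓ (ν u) (ν v) ≤
        C * ((20 * m + 1) * pathDist G ℓ u v) :=
      mul_le_mul_of_nonneg_left (by linarith) hC
    have h9 : C * pathDist G ℓ u (ν u) ≤ C * (10 * m * pathDist G ℓ u v) :=
      mul_le_mul_of_nonneg_left hcase hC
    have h10 : C * pathDist G ℓ v (ν v) ≤ C * (10 * m * pathDist G ℓ u v) :=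
      mul_le_mul_of_nonneg_left (hle.trans hcase) hC
    have h11 : C * pathDist G ℓ u v ≤ m * (C * pathDist G ℓ u v) := by nlinarith
    nlinarith
  · -- close, so both are outside `X`
    rw [not_le] at hcase
    have hφδ : pathDist G ℓ u v < pathDist G ℓ u (ν u) := by nlinarith
    have hu : u ∉ X := by
      intro hu
      rw [hν.self u hu, hd.self] at hφδ
      linarith
    have hv : v ∉ X := fun hv => absurd (hν.le u v hv) (not_le.mpr hφδ)
    have hatt : attachF G X v = attachF G X u := by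
      unfold attachF
      ext x
      simp [attach_congr (ReachOff.adj hu hv huv)]
    have hposu := near_pos hc hℓ hν hu
    have hposv := near_pos hc hℓ hν hv
    have hWu := bump2_sum_ge m hc hℓ hν hu
    have hWv := bump2_sum_ge m hc hℓ hν hv
    have hpu := pow_pos hposu m
    have hpv := pow_pos hposv m
    have e1 : ext2 m G ℓ X ν f u - ext2 m G ℓ X ν f v =
        (ext2 m G ℓ X ν f u - f (ν u)) - (ext2 m G ℓ X ν f v - f (ν u)) := by abel
    rw [e1]
    unfold ext2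
    rw [if_neg hu, if_neg hv, avg_sub _ _ _ _ (hpu.trans_le hWu),
      avg_sub _ _ _ _ (hpv.trans_le hWv)]
    rw [hatt] at hWv ⊢
    refine (avg_diff _ _ _ _ (4 * C * pathDist G ℓ u (ν u))
      (fun i _ => pow_nonneg (bump_nonneg v i) m) (hpu.trans_le hWu) (hpv.trans_le hWv) ?_).trans ?_
    · intro x hx hne
      refine (hf x (mem_attachF.mp hx).1 _ (hν.mem u)).trans ?_
      have h2 := hd.tri x u (ν u)
      rw [hd.symm x u] at h2
      have h3 : pathDist G ℓ u x ≤ 3 * pathDist G ℓ u (ν u) := by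
        rcases hne with hne | hne
        · have := bump_ne (fun h => hne (by rw [h]; exact zero_pow hm0))
          linarith
        · have h4 := bump_ne (fun h => hne (by rw [h]; exact zero_pow hm0))
          have h5 := hd.tri u v x
          linarith
      calc C * pathDist G ℓ x (ν u) ≤ C * (4 * pathDist G ℓ u (ν u)) :=
            mul_le_mul_of_nonneg_left (by linarith) hC
        _ = _ := by ring
    · have hterm0 : ∀ x, |bump G ℓ ν u x - bump G ℓ ν v x| ≤
          3 * pathDist G ℓ u v := by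
        intro x
        unfold bump
        refine (abs_max_sub_max_le_max _ _ _ _).trans (max_le ?_ ?_)
        · simp only [sub_self, abs_zero]; linarith
        · have h1 := hν.lip hc hℓ u v
          have h2 := hν.lip hc hℓ v u
          have h3 := hd.tri u v x
          have h4 := hd.tri v u x
          rw [hd.symm v u] at h2 h4
          rw [abs_le]; constructor <;> linarith
      have hterm : ∀ x ∈ attachF G X u, |bump G ℓ ν u x ^ m - bump G ℓ ν v x ^ m| ≤
          9 * m * pathDist G ℓ u v * (max (bump G ℓ ν u x) (pathDist G ℓ u (ν u) / 2)) ^ (m - 1) := by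
        intro x _
        have hb := hterm0 x
        have hle2 : bump G ℓ ν v x ≤ bump G ℓ ν u x + 3 * pathDist G ℓ u v := by
          rw [abs_le] at hb
          linarith
        have h1 := pow_diff_le (bump_nonneg (G := G) (ℓ := ℓ) (ν := ν) u x) (bump_nonneg v x)
          (by linarith : bump G ℓ ν u x ≤ bump G ℓ ν u x + 3 * pathDist G ℓ u v) hle2 m
        have h2 := pow_growth hm (bump_nonneg (G := G) (ℓ := ℓ) (ν := ν) u x) hposu hδ.le hcase.le
        have hM : 0 ≤ (max (bump G ℓ ν u x) (pathDist G ℓ u (ν u) / 2)) ^ (m - 1) :=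
          pow_nonneg ((bump_nonneg u x).trans (le_max_left _ _)) _
        calc |bump G ℓ ν u x ^ m - bump G ℓ ν v x ^ m|
            ≤ m * (bump G ℓ ν u x + 3 * pathDist G ℓ u v) ^ (m - 1) *
              |bump G ℓ ν u x - bump G ℓ ν v x| := h1
          _ ≤ m * (3 * (max (bump G ℓ ν u x) (pathDist G ℓ u (ν u) / 2)) ^ (m - 1)) *
              (3 * pathDist G ℓ u v) := by
              refine mul_le_mul (mul_le_mul_of_nonneg_left h2 (by positivity)) hb (abs_nonneg _)
                (by positivity)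
          _ = _ := by ring
      have hcard : (attachF G X u).card ≤ w := by
        have := hw u hu
        rwa [Set.ncard_eq_toFinset_card _ (Set.toFinite _)] at this
      set A := ∑ x ∈ attachF G X u, bump G ℓ ν u x ^ m with hAdef
      have hA : 0 < A := hpu.trans_le hWu
      have hsum : ∑ x ∈ attachF G X u, |bump G ℓ ν u x ^ m - bump G ℓ ν v x ^ m| ≤
          27 * m * pathDist G ℓ u v * A / pathDist G ℓ u (ν u) := by
        refine (Finset.sum_le_sum hterm).trans ?_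
        rw [← Finset.mul_sum]
        have h6 := sum_max_le (attachF G X u) (fun x => bump G ℓ ν u x) hposu hm hcard hwm
          (fun i _ => bump_nonneg u i) hWu
        refine (mul_le_mul_of_nonneg_left h6 (by positivity)).trans (le_of_eq ?_)
        rw [← hAdef]
        ring
      have h5 : 0 ≤ 2 * (4 * C * pathDist G ℓ u (ν u)) / A := by positivity
      calc 2 * (4 * C * pathDist G ℓ u (ν u)) / A *
            ∑ x ∈ attachF G X u, |bump G ℓ ν u x ^ m - bump G ℓ ν v x ^ m|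
          ≤ 2 * (4 * C * pathDist G ℓ u (ν u)) / A *
            (27 * m * pathDist G ℓ u v * A / pathDist G ℓ u (ν u)) :=
            mul_le_mul_of_nonneg_left hsum h5
        _ = 216 * m * C * pathDist G ℓ u v := by
            field_simp
            ring

/-- The composition theorem with the logarithm of the number of neighbours. -/
theorem distortion_compose_log {m w : ℕ} {C K : ℝ} (hm : 1 ≤ m) (hwm : w ≤ 2 ^ (m - 1))
    (hC : 1 ≤ C) (hK : 1 ≤ K) {V : Type} [Finite V]
    {G : SimpleGraph V} (hc : G.Connected) {X : Set V} (hX : X.Nonempty)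
    (hw : ∀ u ∉ X, (attach G X u).ncard ≤ w) (htorso : DistortionLE (torso G X) C)
    (hcomp : ∀ u ∉ X, DistortionLE (G.induce (compSet G X u)) K) :
    DistortionLE G (216 * m * C + (1 + 3 * C) * (96 * K + 112)) := by
  classical
  intro ℓ hℓ
  have hC0 : 0 < C := one_pos.trans_le hC
  have hK0 : 0 < K := one_pos.trans_le hK
  have hm0 : m ≠ 0 := by omega
  have hmr : (1 : ℝ) ≤ m := by exact_mod_cast hm
  have hd := pathDist_isMet hc hℓ
  obtain ⟨ν, hν⟩ := exists_near hc hℓ hX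
  have hpos : ∀ e ∈ (torso G X).edgeSet, 0 < torsoLen (pathDist G ℓ) X e := by
    intro e
    induction e using Sym2.inductionOn with
    | hf a b =>
      intro he
      rw [torsoLen_mk hd.symm]
      exact hd.pos _ _ fun e => (SimpleGraph.mem_edgeSet _ |>.mp he).1 (Subtype.ext e)
  obtain ⟨Ω, _, μ, f, hf⟩ := htorso _ hpos
  simp only [torso_dist hc hℓ hX] at hf
  let f' : V → Lp ℝ 1 μ := fun v => if h : v ∈ X then f ⟨v, h⟩ else 0
  have hf' : ∀ x ∈ X, ∀ y ∈ X, pathDist G ℓ x y ≤ ‖f' x - f' y‖ ∧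
      ‖f' x - f' y‖ ≤ C * pathDist G ℓ x y := by
    intro x hx y hy
    have := hf ⟨x, hx⟩ ⟨y, hy⟩
    simpa [f', hx, hy] using this
  have hfu : ∀ x ∈ X, ∀ y ∈ X, ‖f' x - f' y‖ ≤ C * pathDist G ℓ x y :=
    fun x hx y hy => (hf' x hx y hy).2
  obtain ⟨ρ, hρI, hρu, hρl⟩ := comps_embed hK0 hc hℓ hν hcomp
  let σ : V → V → ℝ := fun x y => ‖ext2 m G ℓ X ν f' x - ext2 m G ℓ X ν f' y‖
  have hσL : L1S σ := ⟨Ω, inferInstance, μ, ext2 m G ℓ X ν f', fun _ _ => rfl⟩
  have hK1 : 0 < 216 * (m : ℝ) * C := by positivity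
  have hσu : ∀ x y, σ x y ≤ 216 * m * C * pathDist G ℓ x y := by
    refine pathDist_semi hc hK1 (fun x => by simp [σ])
      (fun x y z => norm_sub_le_norm_sub_add_norm_sub _ _ _) (fun u v huv => ?_)
    refine (ext2_edge hm hwm hc hℓ hν hC0.le hfu hw huv).trans ?_
    exact mul_le_mul_of_nonneg_left (pathDist_adj hℓ huv) hK1.le
  refine (hσL.isL1.add (hρI.smul (by positivity : (0 : ℝ) ≤ 1 + 3 * C))).embeds (fun x y => ?_)
    (fun x y => ?_)
  · have h1 := ext2_near hm0 hc hℓ hν hC0.le hfu x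
    have h2 := ext2_near hm0 hc hℓ hν hC0.le hfu y
    have h3 := (hf' (ν x) (hν.mem x) (ν y) (hν.mem y)).1
    have h4 : pathDist G ℓ x y ≤
        pathDist G ℓ x (ν x) + pathDist G ℓ (ν x) (ν y) + pathDist G ℓ y (ν y) := by
      have h5 := hd.tri x (ν x) y
      have h6 := hd.tri (ν x) (ν y) y
      rw [hd.symm (ν y) y] at h6
      linarith
    have h7 : ‖f' (ν x) - f' (ν y)‖ ≤ ‖ext2 m G ℓ X ν f' x - f' (ν x)‖ +
        ‖ext2 m G ℓ X ν f' x - ext2 m G ℓ X ν f' y‖ + ‖ext2 m G ℓ X ν f' y - f' (ν y)‖ := by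
      have : f' (ν x) - f' (ν y) = -(ext2 m G ℓ X ν f' x - f' (ν x)) +
        (ext2 m G ℓ X ν f' x - ext2 m G ℓ X ν f' y) + (ext2 m G ℓ X ν f' y - f' (ν y)) := by abel
      rw [this]
      refine (norm_add_le _ _).trans (add_le_add ((norm_add_le _ _).trans ?_) le_rfl)
      rw [norm_neg]
    have hl := hρl x y
    have hn := hρI.nonneg x y
    show pathDist G ℓ x y ≤ ‖ext2 m G ℓ X ν f' x - ext2 m G ℓ X ν f' y‖ + (1 + 3 * C) * ρ x y
    have hσn : 0 ≤ ‖ext2 m G ℓ X ν f' x - ext2 m G ℓ X ν f' y‖ := norm_nonneg _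
    rcases min_le_iff.mp hl with h | h
    · have : 0 ≤ 3 * C * ρ x y := by positivity
      linarith
    · have : (1 + 3 * C) * (pathDist G ℓ x (ν x) + pathDist G ℓ y (ν y)) ≤
          (1 + 3 * C) * ρ x y := mul_le_mul_of_nonneg_left h (by positivity)
      linarith
  · have h1 := hσu x y
    have h2 : (1 + 3 * C) * ρ x y ≤ (1 + 3 * C) * ((96 * K + 112) * pathDist G ℓ x y) :=
      mul_le_mul_of_nonneg_left (hρu x y) (by positivity)
    show σ x y + (1 + 3 * C) * ρ x y ≤ _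
    linarith

end

end Vale.Agent.P235
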