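import Vale.Agent.P235.Comp.Defs

namespace Vale.Agent.P235

/-- The face permutation of the rotation `σ`: from the dart (directed edge) `d` go to its head and
turn there, `d ↦ σ d.symm`. -/
def facePerm {V : Type} (G : SimpleGraph V) (σ : Equiv.Perm G.Dart) : Equiv.Perm G.Dart :=
  (⟨SimpleGraph.Dart.symm, SimpleGraph.Dart.symm, SimpleGraph.Dart.symm_symm,
    SimpleGraph.Dart.symm_symm⟩ : Equiv.Perm G.Dart).trans σ

/-- The faces of the map given by the rotation `σ`: the cycles of the face permutation. -/
abbrev Faces {V : Type} (G : SimpleGraph V) (σ : Equiv.Perm G.Dart) : Type :=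
  Quotient (Equiv.Perm.SameCycle.setoid (facePerm G σ))

/-- `σ` describes a drawing of `G` on the sphere: it permutes cyclically the darts starting at any
vertex (their order around this vertex), and `#vertices + #faces = #edges + 2`. -/
structure SphereMap {V : Type} (G : SimpleGraph V) (σ : Equiv.Perm G.Dart) : Prop where
  fst : ∀ d, (σ d).fst = d.fst
  cyc : ∀ d d' : G.Dart, d.fst = d'.fst → σ.SameCycle d d'
  euler : Nat.card V + Nat.card (Faces G σ) = Nat.card G.edgeSet + 2

/-- `X` is the set of all vertices on one face of some drawing of `G` on the sphere (if `G` has only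
one vertex, this is the set of this vertex). -/
def FaceSet {V : Type} (G : SimpleGraph V) (X : Set V) : Prop :=
  (∃ σ : Equiv.Perm G.Dart, SphereMap G σ ∧
    ∃ d : G.Dart, X = {v | ∃ i : ℕ, ((facePerm G σ)^[i] d).fst = v}) ∨
  (Subsingleton V ∧ X = Set.univ)

/-- `PlaneRounds P k G`: at most `k` rounds, each of which deletes from every component all
vertices on one face of a drawing of this component on the sphere, leave components in the class
`P`. -/
inductive PlaneRounds (P : ∀ (V : Type), SimpleGraph V → Prop) :
    ℕ → ∀ {V : Type}, SimpleGraph V → Prop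
  | leaf {k : ℕ} {V : Type} {G : SimpleGraph V} : P V G → PlaneRounds P k G
  | round {k : ℕ} {V : Type} {G : SimpleGraph V} {X : Set V} : X.Nonempty → FaceSet G X →
      (∀ u ∉ X, PlaneRounds P k (G.induce (compSet G X u))) → PlaneRounds P (k + 1) G

end Vale.Agent.P235
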