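import Vale.Agent.P235.H206.Plane
import Vale.Agent.P235.H536.AllRounds

/-!
# The vertices on a face of a drawing on the sphere form a crossless list
-/

namespace Vale.Agent.P235.H206

theorem faceSet_crossless {V : Type} [Finite V] {G : SimpleGraph V} (hc : G.Connected)
    {X : Set V} (h : FaceSet G X) :
    ∃ (n : ℕ) (x : Fin n → V), Crossless G x ∧ X = Set.range x := by
  classical
  have := Fintype.ofFinite V
  rcases h with ⟨σ, hσ, d, rfl⟩ | ⟨hs, rfl⟩
  · have hpos : 0 < faceLen σ d := by
      refine Function.minimalPeriod_pos_of_mem_periodicPts ?_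
      refine Function.mk_mem_periodicPts (orderOf_pos (facePerm G σ)) ?_
      show (facePerm G σ)^[orderOf (facePerm G σ)] d = d
      rw [Equiv.Perm.iterate_eq_pow, pow_orderOf_eq_one]
      rfl
    refine ⟨faceLen σ d, fun i => (fd σ d i).fst, ?_, ?_⟩
    · intro a b c e hab hbc hce p q
      exact face_crossing d hc hσ hab hbc hce e.2 p q
    · ext v
      constructor
      · rintro ⟨i, rfl⟩
        refine ⟨⟨i % faceLen σ d, Nat.mod_lt _ hpos⟩, ?_⟩
        show ((facePerm G σ)^[i % Function.minimalPeriod (facePerm G σ) d] d).fst = _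
        rw [Function.iterate_mod_minimalPeriod_eq]
      · rintro ⟨i, rfl⟩
        exact ⟨i, rfl⟩
  · obtain ⟨v⟩ := hc.nonempty
    refine ⟨1, fun _ => v, ?_, ?_⟩
    · intro a b c e hab hbc _
      exfalso
      have := a.2; have := b.2; have := c.2
      have h1 : (a : ℕ) < b := hab
      omega
    · ext w
      simp only [Set.mem_univ, Set.mem_range, true_iff]
      exact ⟨0, hs.elim _ _⟩

theorem planeRounds_strip {P : ∀ (V : Type), SimpleGraph V → Prop} {k : ℕ} {V : Type}
    {G : SimpleGraph V} (h : PlaneRounds P k G) : Finite V → G.Connected → ∀ ℓ : Sym2 V → ℝ,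
      Strip P 0 k G ℓ := by
  induction h with
  | leaf hP => exact fun _ _ ℓ => .leaf hP
  | @round k V G X hX hF _ ih =>
    intro hfin hc ℓ
    obtain ⟨n, x, hx, hr⟩ := faceSet_crossless hc hF
    refine .round hX (.inr (.inr ⟨n, x, hx, hr⟩)) fun u hu => ?_
    exact ih u hu inferInstance (comp_connected hu) _

/-- `k` rounds of deleting all vertices of a face cost `O(k)` -/
theorem planeRounds_distortion (P : ∀ (V : Type), SimpleGraph V → Prop) (C : ℝ) (hC : 1 ≤ C)
    (hP : ∀ (V : Type) [Finite V] (G : SimpleGraph V), G.Connected → P V G → DistortionLE G C)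
    (k : ℕ) (V : Type) [Finite V] (G : SimpleGraph V) (hG : G.Connected)
    (h : PlaneRounds P k G) : DistortionLE G (3328000 * (C + k)) := by
  refine (strip_distortion P hC hP 0 k V G hG fun ℓ _ =>
    planeRounds_strip h inferInstance hG ℓ).mono ?_
  have h1 : Real.log ((0 : ℕ) + 2) ≤ 1 := by
    have h2 := Real.log_le_sub_one_of_pos (by norm_num : (0 : ℝ) < (0 : ℕ) + 2)
    norm_num at h2 ⊢
    linarith
  have h3 : (k : ℝ) * Real.log ((0 : ℕ) + 2) ≤ k * 1 :=
    mul_le_mul_of_nonneg_left h1 (Nat.cast_nonneg k)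
  linarith

end Vale.Agent.P235.H206
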