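import Vale.Agent.P235.H105.Induced

namespace Vale.Agent.P235

/-- all vertices on the face of the dart `b` of the induced subgraph, taken in `G`, are in `S` -/
def Pure {V : Type} {G : SimpleGraph V} {S : Set V} (σ : Equiv.Perm G.Dart)
    (b : (G.induce S).Dart) : Prop :=
  ∀ d, (faceNext σ).SameCycle (upDart b) d → d.fst ∈ S

end Vale.Agent.P235
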