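import Vale.Agent.P235.Comp.Defs

namespace Vale.Agent.P235

/-- `Rounds P w j G`: the base graphs (round `0`) are those of the class `P`; every round is closed
under gluing two graphs at one vertex; and `G` is allowed in round `j + 1` in each of these cases.
`compose`: for some nonempty vertex set `X` the torso of `X` and all components of `G - X` are
allowed in round `j`. `pathSum`: `G` has a path decomposition with bags of any size in which
consecutive bags share at most `w` vertices, and all components of the subgraph induced on any bag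
are allowed in round `j`. `path`: for all positive edge lengths there is a shortest path, with
vertex set `Q ℓ`, such that all components of `G - Q ℓ` are allowed in round `j`. -/
inductive Rounds (P : ∀ (V : Type), SimpleGraph V → Prop) (w : ℕ) :
    ℕ → ∀ {V : Type}, SimpleGraph V → Prop
  | base {V : Type} {G : SimpleGraph V} : P V G → Rounds P w 0 G
  | lift {j : ℕ} {V : Type} {G : SimpleGraph V} : Rounds P w j G → Rounds P w (j + 1) G
  | vertexSum {j : ℕ} {V : Type} {G : SimpleGraph V} {A B : Set V} {v : V} :
      A ∪ B = Set.univ → A ∩ B = {v} → (∀ a b, a ∉ B → b ∉ A → ¬ G.Adj a b) →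
      Rounds P w j (G.induce A) → Rounds P w j (G.induce B) → Rounds P w j G
  | compose {j : ℕ} {V : Type} {G : SimpleGraph V} {X : Set V} : X.Nonempty →
      Rounds P w j (torso G X) → (∀ u ∉ X, Rounds P w j (G.induce (compSet G X u))) →
      Rounds P w (j + 1) G
  | pathSum {j n : ℕ} {V : Type} {G : SimpleGraph V} {B : Fin n → Set V} : PathDec G w B →
      (∀ i, ∀ u ∈ B i, Rounds P w j (G.induce (compSet G (B i)ᶜ u))) → Rounds P w (j + 1) G
  | path {j : ℕ} {V : Type} {G : SimpleGraph V} {Q : (Sym2 V → ℝ) → Set V} :
      (∀ ℓ : Sym2 V → ℝ, (∀ e ∈ G.edgeSet, 0 < ℓ e) → ∃ (x y : V) (q : G.Walk x y),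
        (q.edges.map ℓ).sum = pathDist G ℓ x y ∧ Q ℓ = {v | v ∈ q.support}) →
      (∀ ℓ : Sym2 V → ℝ, (∀ e ∈ G.edgeSet, 0 < ℓ e) → ∀ u ∉ Q ℓ,
        Rounds P w j (G.induce (compSet G (Q ℓ) u))) → Rounds P w (j + 1) G

end Vale.Agent.P235
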