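import Vale.Agent.P235.H515.Depth
import Vale.Agent.P235.H873.Free
import Vale.Agent.P235.H206.Final

/-!
# Graphs with a tree decomposition of bounded width whose non-free edges have bounded depth
-/

namespace Vale.Agent.P235

theorem depthTD_bounded (k j : ℕ) : ∃ C : ℝ, ∀ (V : Type) [Finite V] (G : SimpleGraph V),
    G.Connected → DepthTD k j G → DistortionLE G C := by
  obtain ⟨C, h⟩ := edgeSum_piece k
  have h0 : ∀ (V : Type) [Finite V] (G : SimpleGraph V), G.Connected →
      (fun (_ : Type) (G : SimpleGraph _) => DepthTD k 0 G) V G → DistortionLE G C :=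
    fun V _ G hG hD => h V G hG (H873.free_edgeSum k G hD)
  obtain ⟨K, hK⟩ := builtOver_bounded (P := fun (V : Type) (G : SimpleGraph V) => DepthTD k 0 G)
    (C0 := C) h0 (k + 1) j
  exact ⟨K, fun V _ G hG hD => hK V G hG (depth_builtOver k j G hG hD)⟩

end Vale.Agent.P235
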