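import Vale.Agent.P235.H206.SurfTop
import Mathlib.LinearAlgebra.Dual.Lemmas

/-!
# Cycles which avoid a cut set of a map of Euler genus `g`
-/

namespace Vale.Agent.P235.H206

open Finset

/-- vectors outside a subspace are detected by a vector orthogonal to it -/
theorem exists_dual {α : Type*} [Fintype α] [DecidableEq α]
    (U : Submodule (ZMod 2) (α → ZMod 2)) {z : α → ZMod 2} (hz : z ∉ U) :
    ∃ w : α → ZMod 2, (∀ u ∈ U, ∑ a, u a * w a = 0) ∧ ∑ a, z a * w a ≠ 0 := by
  obtain ⟨f, hf1, hf2⟩ := Submodule.exists_dual_map_eq_bot_of_notMem hz inferInstance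
  have hsum : ∀ x : α → ZMod 2, ∑ a, x a * f (Pi.single a 1) = f x := by
    intro x
    have h1 : x = ∑ a, x a • (Pi.single a 1 : α → ZMod 2) := by
      funext b
      simp [Finset.sum_apply, Pi.single_apply]
    conv_rhs => rw [h1, map_sum]
    exact Finset.sum_congr rfl fun a _ => by rw [map_smul, smul_eq_mul]
  refine ⟨fun a => f (Pi.single a 1), fun u hu => ?_, ?_⟩
  · rw [hsum]
    have h1 : f u ∈ U.map f := ⟨u, hu, rfl⟩
    rw [hf2] at h1
    exact h1
  · rw [hsum]
    exact hf1

/-- a function is a difference along a permutation if it is orthogonal to all invariant functions -/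
theorem exists_primitive {α : Type*} [Fintype α] [DecidableEq α] (π : Equiv.Perm α)
    (z : α → ZMod 2) (hz : ∀ t : α → ZMod 2, (∀ a, t (π a) = t a) → ∑ a, z a * t a = 0) :
    ∃ h : α → ZMod 2, ∀ a, z a = h (π a) + h a := by
  let D : (α → ZMod 2) →ₗ[ZMod 2] (α → ZMod 2) :=
    { toFun := fun h a => h (π a) + h a
      map_add' := fun x y => by
        funext a
        show (x (π a) + y (π a)) + (x a + y a) = (x (π a) + x a) + (y (π a) + y a)
        ring
      map_smul' := fun c x => by
        funext a
        show c * x (π a) + c * x a = c * (x (π a) + x a)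
        ring }
  by_contra hno
  have hz' : z ∉ LinearMap.range D := by
    rintro ⟨h, hh⟩
    exact hno ⟨h, fun a => (congrFun hh a).symm⟩
  obtain ⟨w, hw1, hw2⟩ := exists_dual _ hz'
  apply hw2
  apply hz w
  intro a
  have h1 := hw1 (D (Pi.single (π a) 1)) (LinearMap.mem_range_self _ _)
  have h2 : ∀ b, D (Pi.single (π a) 1) b * w b = (if b = a then w b else 0) +
      (if b = π a then w b else 0) := by
    intro b
    show ((Pi.single (π a) 1 : α → ZMod 2) (π b) + (Pi.single (π a) 1 : α → ZMod 2) b) * w b = _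
    rw [add_mul, Pi.single_apply, Pi.single_apply, ite_mul, ite_mul, one_mul, zero_mul]
    simp only [π.injective.eq_iff]
  simp only [h2, Finset.sum_add_distrib, Finset.sum_ite_eq', Finset.mem_univ, if_true] at h1
  exact (CharTwo.add_eq_zero.mp h1).symm

section

variable {V : Type} {G : SimpleGraph V} [Fintype V] [DecidableEq V] [Fintype G.Dart]
  {σ : Equiv.Perm G.Dart}

omit [Fintype V] [DecidableEq V] in
theorem sum_darts [Fintype G.edgeSet] (x : G.edgeSet → ZMod 2) (t : G.Dart → ZMod 2) :
    ∑ d : G.Dart, x (eOf d) * t d = ∑ e : G.edgeSet, x e * (t (rep e) + t (rep e).symm) := by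
  classical
  rw [← Finset.sum_fiberwise univ (fun d : G.Dart => eOf d)]
  refine Finset.sum_congr rfl fun e _ => ?_
  have h1 : (univ.filter fun d : G.Dart => eOf d = e) = {rep e, (rep e).symm} := by
    ext d
    simp only [mem_filter, mem_univ, true_and, mem_insert, mem_singleton]
    constructor
    · intro h
      exact eOf_eq (h.trans (eOf_rep e).symm)
    · rintro (rfl | rfl)
      · exact eOf_rep e
      · rw [eOf_symm]; exact eOf_rep e
  rw [h1, Finset.sum_pair (rep e).symm_ne.symm, eOf_symm, eOf_rep]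
  ring

theorem sum_inv (hcyc : ∀ d d' : G.Dart, d.fst = d'.fst → σ.SameCycle d d')
    {y : G.edgeSet → ZMod 2} (hy : bd G y = 0) {t : G.Dart → ZMod 2} (ht : ∀ d, t (σ d) = t d) :
    ∑ d : G.Dart, y (eOf d) * t d = 0 := by
  classical
  rw [← Finset.sum_fiberwise univ (fun d : G.Dart => d.fst)]
  refine Finset.sum_eq_zero fun v _ => ?_
  by_cases h : ∃ d0 : G.Dart, d0.fst = v
  · obtain ⟨d0, rfl⟩ := h
    have h1 : ∀ d ∈ univ.filter (fun d : G.Dart => d.fst = d0.fst),
        y (eOf d) * t d = y (eOf d) * t d0 := by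
      intro d hd
      rw [mem_filter] at hd
      rw [perm_invariant σ t ht (hcyc d d0 hd.2)]
    rw [Finset.sum_congr rfl h1, ← Finset.sum_mul]
    have h2 : ∑ d : G.Dart with d.fst = d0.fst, y (eOf d) = 0 := congrFun hy d0.fst
    rw [h2, zero_mul]
  · push Not at h
    refine Finset.sum_eq_zero fun d hd => ?_
    rw [mem_filter] at hd
    exact absurd hd.2 (h d)

/-- if all cycles modulo boundaries are supported in `Y`, then the cycles avoiding `Y` are
boundaries -/
theorem cut_cycle (hfst : ∀ d, (σ d).fst = d.fst)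
    (hcyc : ∀ d d' : G.Dart, d.fst = d'.fst → σ.SameCycle d d') {Y : Set V}
    (hY : ∀ z : G.edgeSet → ZMod 2, bd G z = 0 → ∃ (s : Faces G σ → ZMod 2)
      (y : G.edgeSet → ZMod 2), bd G y = 0 ∧ (∀ d, y (eOf d) ≠ 0 → d.fst ∈ Y) ∧ z = cb σ s + y)
    {z : G.edgeSet → ZMod 2} (hz : bd G z = 0) (hzY : ∀ d, z (eOf d) ≠ 0 → d.fst ∉ Y) :
    ∃ s : Faces G σ → ZMod 2, z = cb σ s := by
  classical
  have : Finite G.edgeSet := Finite.of_surjective (fun d : G.Dart => eOf d) exists_dart
  have : Fintype G.edgeSet := Fintype.ofFinite _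
  by_contra hno
  have hz' : z ∉ LinearMap.range (cb σ) := by
    rintro ⟨s, hs⟩
    exact hno ⟨s, hs.symm⟩
  obtain ⟨w, hw1, hw2⟩ := exists_dual _ hz'
  apply hw2
  -- the dual cycle `w` is a difference along the faces
  obtain ⟨h, hh⟩ := exists_primitive (facePerm G σ) (fun d => w (eOf d)) (by
    intro t ht
    rw [sum_darts]
    let s : Faces G σ → ZMod 2 := Quotient.lift t fun a b hab =>
      perm_invariant (facePerm G σ) t ht hab
    have h1 := hw1 (cb σ s) (LinearMap.mem_range_self _ _)
    rw [← h1]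
    refine Finset.sum_congr rfl fun e _ => ?_
    show w e * (t (rep e) + t (rep e).symm) = (t (rep e) + t (rep e).symm) * w e
    ring)
  have hw : ∀ d : G.Dart, w (eOf d) = h (σ d.symm) + h d := hh
  let c : G.Dart → ZMod 2 := fun d => h (σ d) + h d
  have hcs : ∀ d : G.Dart, c d.symm = c d := by
    intro d
    have h1 := hw d
    have h2 := hw d.symm
    rw [eOf_symm, SimpleGraph.Dart.symm_symm, h1] at h2
    show h (σ d.symm) + h d.symm = h (σ d) + h d
    have h3 : (h (σ d.symm) + h d) + (h (σ d) + h d.symm) = 0 := by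
      rw [← h2]; exact CharTwo.add_self_eq_zero _
    apply CharTwo.add_eq_zero.mp
    calc h (σ d.symm) + h d.symm + (h (σ d) + h d)
        = (h (σ d.symm) + h d) + (h (σ d) + h d.symm) := by ring
      _ = 0 := h3
  let c' : G.edgeSet → ZMod 2 := fun e => c (rep e)
  have hc' : ∀ d, c' (eOf d) = c d := by
    intro d
    rcases eOf_eq (eOf_rep (eOf d)) with h1 | h1
    · show c (rep (eOf d)) = _
      rw [h1]
    · show c (rep (eOf d)) = _
      rw [h1, hcs]
  have hbc : bd G c' = 0 := by
    funext v
    show ∑ d : G.Dart with d.fst = v, c' (eOf d) = 0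
    simp only [hc']
    show ∑ d : G.Dart with d.fst = v, (h (σ d) + h d) = 0
    rw [Finset.sum_add_distrib]
    have h2 : ∑ d : G.Dart with d.fst = v, h (σ d) = ∑ d : G.Dart with d.fst = v, h d := by
      refine Finset.sum_bij (fun d _ => σ d) ?_ ?_ ?_ ?_
      · intro d hd
        simp only [Finset.mem_filter, Finset.mem_univ, true_and] at hd ⊢
        rw [hfst, hd]
      · intro a _ b _ h
        exact σ.injective h
      · intro b hb
        refine ⟨σ.symm b, ?_, by simp⟩
        simp only [Finset.mem_filter, Finset.mem_univ, true_and] at hb ⊢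
        rw [← hfst, Equiv.apply_symm_apply, hb]
      · intro d _
        rfl
    rw [h2]
    exact CharTwo.add_self_eq_zero _
  obtain ⟨s, y, hy1, hy2, hsy⟩ := hY c' hbc
  obtain ⟨k0, hk0⟩ := exists_primitive σ (fun d => y (eOf d)) (fun t ht => sum_inv hcyc hy1 ht)
  let k : G.Dart → ZMod 2 := fun d => if d.fst ∈ Y then k0 d else 0
  have hk : ∀ d, y (eOf d) = k (σ d) + k d := by
    intro d
    by_cases hd : d.fst ∈ Y
    · have hd' : (σ d).fst ∈ Y := by rw [hfst]; exact hd
      show _ = (if (σ d).fst ∈ Y then k0 (σ d) else 0) + (if d.fst ∈ Y then k0 d else 0)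
      rw [if_pos hd, if_pos hd']
      exact hk0 d
    · have hd' : (σ d).fst ∉ Y := by rw [hfst]; exact hd
      show _ = (if (σ d).fst ∈ Y then k0 (σ d) else 0) + (if d.fst ∈ Y then k0 d else 0)
      rw [if_neg hd, if_neg hd', add_zero]
      by_contra hne
      exact hd (hy2 d hne)
  let n : G.Dart → ZMod 2 := fun d => h d + s ⟦d⟧ + k d
  have hn : ∀ d, n (σ d) = n d := by
    intro d
    apply CharTwo.add_eq_zero.mp
    have h1 : h (σ d) + h d = (s ⟦d⟧ + s ⟦σ d⟧) + (k (σ d) + k d) := by
      have h2 := congrFun hsy (eOf d)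
      rw [hc', Pi.add_apply, cb_apply, face_eq', hk] at h2
      exact h2
    calc h (σ d) + s ⟦σ d⟧ + k (σ d) + (h d + s ⟦d⟧ + k d)
        = (h (σ d) + h d) + ((s ⟦d⟧ + s ⟦σ d⟧) + (k (σ d) + k d)) := by ring
      _ = 0 := by rw [h1]; exact CharTwo.add_self_eq_zero _
  have h0 := sum_inv hcyc hz hn
  rw [sum_darts] at h0
  rw [← h0]
  refine Finset.sum_congr rfl fun e _ => ?_
  by_cases hze : z e = 0
  · rw [hze, zero_mul, zero_mul]
  · congr 1
    have e1 : (rep e).fst ∉ Y := hzY _ (by rw [eOf_rep]; exact hze)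
    have e2 : (rep e).symm.fst ∉ Y := hzY _ (by rw [eOf_symm, eOf_rep]; exact hze)
    have e3 : (σ (rep e).symm).fst ∉ Y := by rw [hfst]; exact e2
    have h1 := hw (rep e)
    rw [eOf_rep] at h1
    rw [h1]
    have k1 : k (rep e) = 0 := if_neg e1
    have k2 : k (σ (rep e).symm) = 0 := if_neg e3
    have n1 : n (rep e) = h (rep e) + s ⟦rep e⟧ := by
      show h (rep e) + s ⟦rep e⟧ + k (rep e) = _
      rw [k1, add_zero]
    have n2 : n (rep e).symm = h (σ (rep e).symm) + s ⟦rep e⟧ := by
      rw [← hn]
      show h (σ (rep e).symm) + s ⟦σ (rep e).symm⟧ + k (σ (rep e).symm) = _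
      rw [k2, add_zero, face_eq]
    rw [n1, n2]
    calc h (σ (rep e).symm) + h (rep e)
        = h (σ (rep e).symm) + h (rep e) + 0 := by rw [add_zero]
      _ = h (σ (rep e).symm) + h (rep e) + (s ⟦rep e⟧ + s ⟦rep e⟧) := by
          rw [CharTwo.add_self_eq_zero]
      _ = _ := by ring

/-- few vectors of a spanning family span modulo a subspace of small codimension -/
theorem exists_few {E : Type*} [AddCommGroup E] [Module (ZMod 2) E] [FiniteDimensional (ZMod 2) E]
    {ι : Type*} [DecidableEq ι] (loop : ι → E) {Z : Submodule (ZMod 2) E}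
    (hl : ∀ i, loop i ∈ Z) : ∀ (n : ℕ) (B : Submodule (ZMod 2) E), B ≤ Z →
      Z ≤ B ⊔ Submodule.span (ZMod 2) (Set.range loop) →
      Module.finrank (ZMod 2) Z ≤ Module.finrank (ZMod 2) B + n →
      ∃ I : Finset ι, I.card ≤ n ∧ Z ≤ B ⊔ Submodule.span (ZMod 2) (loop '' I) := by
  intro n
  induction n with
  | zero =>
    intro B hB _ hf
    have := Submodule.eq_of_le_of_finrank_le hB hf
    exact ⟨∅, by simp, by rw [← this]; exact le_sup_left⟩
  | succ n ih =>
    intro B hB hspan hf
    by_cases hall : ∀ i, loop i ∈ B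
    · refine ⟨∅, by simp, ?_⟩
      refine hspan.trans (sup_le le_sup_left ?_)
      refine Submodule.span_le.2 ?_
      rintro _ ⟨i, rfl⟩
      exact Submodule.mem_sup_left (hall i)
    · push Not at hall
      obtain ⟨i, hi⟩ := hall
      have hlt : B < B ⊔ Submodule.span (ZMod 2) {loop i} := by
        refine lt_of_le_of_ne le_sup_left fun heq => hi ?_
        rw [heq]
        exact Submodule.mem_sup_right (Submodule.mem_span_singleton_self _)
      have h1 := Submodule.finrank_lt_finrank_of_lt hlt
      obtain ⟨I, hI, hZ⟩ := ih (B ⊔ Submodule.span (ZMod 2) {loop i})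
        (sup_le hB (Submodule.span_le.2 (by
          rintro _ rfl
          exact hl i)))
        (hspan.trans (sup_le_sup_right le_sup_left _)) (by omega)
      refine ⟨insert i I, (Finset.card_insert_le _ _).trans (by omega), hZ.trans ?_⟩
      refine sup_le (sup_le le_sup_left ?_) ?_
      · refine Submodule.span_le.2 ?_
        rintro _ rfl
        exact Submodule.mem_sup_right (Submodule.subset_span ⟨i, by simp, rfl⟩)
      · refine Submodule.span_le.2 ?_
        rintro _ ⟨j, hj, rfl⟩
        exact Submodule.mem_sup_right (Submodule.subset_span ⟨j, by simp at hj ⊢; exact Or.inr hj, rfl⟩)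

/-- **The cut set**: walks `p v` from `r` to the vertices `v` of a set of at most `2 g` vertices
such that all cycles modulo 2 which avoid these walks are sums of face boundaries -/
theorem exists_cut {g : ℕ} (hc : G.Connected) (hσ : SurfMap g G σ) {r : V}
    (p : ∀ v, G.Walk r v) :
    ∃ W : Finset V, W.card ≤ 2 * g ∧ ∀ z : G.edgeSet → ZMod 2, bd G z = 0 →
      (∀ d, z (eOf d) ≠ 0 → ∀ v ∈ W, d.fst ∉ (p v).support) →
      ∃ s : Faces G σ → ZMod 2, z = cb σ s := by
  classical
  have : Finite G.edgeSet := Finite.of_surjective (fun d : G.Dart => eOf d) exists_dart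
  have : Fintype G.edgeSet := Fintype.ofFinite _
  have : Fintype (Faces G σ) := Fintype.ofFinite _
  -- dimensions
  have h1 := finrank_ker_cb hc hσ.cyc
  have h2 := finrank_range_bd hc
  have h3 := LinearMap.finrank_range_add_finrank_ker (cb σ)
  have h4 := LinearMap.finrank_range_add_finrank_ker (bd G)
  rw [Module.finrank_fintype_fun_eq_card] at h3 h4
  have h5 : Nat.card G.edgeSet + 2 ≤ Nat.card V + Nat.card (Faces G σ) + g := hσ.euler
  rw [Nat.card_eq_fintype_card, Nat.card_eq_fintype_card, Nat.card_eq_fintype_card] at h5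
  -- the loops
  let Ψ : (V → ZMod 2) →ₗ[ZMod 2] (G.edgeSet → ZMod 2) :=
    Fintype.linearCombination (ZMod 2) fun v => chain (p v)
  have hΨ : ∀ v, Ψ (Pi.single v 1) = chain (p v) := by
    intro v
    rw [Fintype.linearCombination_apply]
    rw [Finset.sum_eq_single v]
    · rw [Pi.single_eq_same, one_smul]
    · intro b _ hb
      rw [Pi.single_eq_of_ne hb, zero_smul]
    · intro h
      exact absurd (Finset.mem_univ _) h
  let L : (G.edgeSet → ZMod 2) →ₗ[ZMod 2] (G.edgeSet → ZMod 2) := LinearMap.id + Ψ ∘ₗ bd G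
  have hL : ∀ d : G.Dart, L (Pi.single (eOf d) 1) =
      Pi.single (eOf d) 1 + (chain (p d.fst) + chain (p d.snd)) := by
    intro d
    show Pi.single (eOf d) 1 + Ψ (bd G (Pi.single (eOf d) 1)) = _
    rw [bd_single, map_add, hΨ, hΨ]
  let loop : G.edgeSet → (G.edgeSet → ZMod 2) := fun e => L (Pi.single e 1)
  have hloop : ∀ e, loop e ∈ LinearMap.ker (bd G) := by
    intro e
    rw [LinearMap.mem_ker]
    show bd G (L (Pi.single e 1)) = 0
    rw [← eOf_rep e, hL, map_add, map_add, bd_single, bd_chain, bd_chain]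
    calc (Pi.single (rep e).fst 1 : V → ZMod 2) + Pi.single (rep e).snd 1 +
          (Pi.single r 1 + Pi.single (rep e).fst 1 + (Pi.single r 1 + Pi.single (rep e).snd 1))
        = (Pi.single (rep e).fst 1 + Pi.single (rep e).fst 1) +
          (Pi.single (rep e).snd 1 + Pi.single (rep e).snd 1) +
          (Pi.single r 1 + Pi.single r 1) := by abel
      _ = 0 := by simp only [self_add', add_zero]
  have hspan : LinearMap.ker (bd G) ≤ LinearMap.range (cb σ) ⊔
      Submodule.span (ZMod 2) (Set.range loop) := by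
    intro z hz
    apply Submodule.mem_sup_right
    have e1 : z = L z := by
      show z = z + Ψ (bd G z)
      rw [LinearMap.mem_ker.mp hz, map_zero, add_zero]
    have e2 : z = ∑ e, z e • (Pi.single e 1 : G.edgeSet → ZMod 2) := by
      funext b
      simp [Finset.sum_apply, Pi.single_apply]
    have e3 : L z = ∑ e, z e • loop e := by
      conv_lhs => rw [e2, map_sum]
      exact Finset.sum_congr rfl fun e _ => by rw [map_smul]
    rw [e1, e3]
    exact Submodule.sum_mem _ fun e _ => Submodule.smul_mem _ _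
      (Submodule.subset_span ⟨e, rfl⟩)
  have hle : LinearMap.range (cb σ) ≤ LinearMap.ker (bd G) := by
    rintro _ ⟨s, rfl⟩
    exact bd_cb hσ.fst s
  obtain ⟨I, hI, hZ⟩ := exists_few loop hloop g (LinearMap.range (cb σ)) hle hspan (by omega)
  refine ⟨I.image (fun e => (rep e).fst) ∪ I.image (fun e => (rep e).snd), ?_, ?_⟩
  · refine (Finset.card_union_le _ _).trans ?_
    have a1 := Finset.card_image_le (s := I) (f := fun e : G.edgeSet => (rep e).fst)
    have a2 := Finset.card_image_le (s := I) (f := fun e : G.edgeSet => (rep e).snd)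
    omega
  intro z hz hzW
  refine cut_cycle (Y := {x | ∃ v ∈ I.image (fun e => (rep e).fst) ∪
    I.image (fun e => (rep e).snd), x ∈ (p v).support}) hσ.fst hσ.cyc ?_ hz ?_
  · intro c hc0
    obtain ⟨b, ⟨s, rfl⟩, y, hy, hby⟩ := Submodule.mem_sup.1 (hZ (LinearMap.mem_ker.2 hc0))
    refine ⟨s, y, ?_, ?_, hby.symm⟩
    · have : y ∈ LinearMap.ker (bd G) := by
        refine Submodule.span_le.2 ?_ hy
        rintro _ ⟨e, _, rfl⟩
        exact hloop e
      exact this
    · -- the support of `y`
      intro d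
      contrapose!
      intro hd
      refine Submodule.span_induction (p := fun y _ => y (eOf d) = 0) ?_ rfl ?_ ?_ hy
      · rintro _ ⟨e, he, rfl⟩
        show L (Pi.single e 1) (eOf d) = 0
        rw [← eOf_rep e, hL]
        have hd1 : ∀ v, (v = (rep e).fst ∨ v = (rep e).snd) → d.fst ∉ (p v).support := by
          intro v hv hmem
          apply hd
          refine ⟨v, ?_, hmem⟩
          rw [Finset.mem_union, Finset.mem_image, Finset.mem_image]
          rcases hv with rfl | rfl
          · exact Or.inl ⟨e, he, rfl⟩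
          · exact Or.inr ⟨e, he, rfl⟩
        have hch : ∀ v, (v = (rep e).fst ∨ v = (rep e).snd) → chain (p v) (eOf d) = 0 := by
          intro v hv
          have h6 : d.edge ∉ (p v).edges := fun h =>
            hd1 v hv ((p v).fst_mem_support_of_mem_edges h)
          simp [chain, eOf, List.count_eq_zero_of_not_mem h6]
        have hne : eOf d ≠ eOf (rep e) := by
          intro h
          rcases eOf_eq h with h | h
          · apply hd1 _ (Or.inl rfl)
            rw [h]
            exact (p _).end_mem_support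
          · apply hd1 _ (Or.inr rfl)
            rw [h]
            exact (p _).end_mem_support
        rw [Pi.add_apply, Pi.add_apply, Pi.single_eq_of_ne hne, hch _ (Or.inl rfl),
          hch _ (Or.inr rfl)]
        simp
      · intro x y _ _ hx hy
        rw [Pi.add_apply, hx, hy, add_zero]
      · intro a x _ hx
        rw [Pi.smul_apply, hx, smul_zero]
  · rintro d hd ⟨v, hv, hmem⟩
    exact hzW d hd v hv hmem

end

end Vale.Agent.P235.H206
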