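import Vale.Agent.P235.H206.Plane
import Vale.Agent.P235.H206.SurfDefs

/-!
# The face boundaries of a map of Euler genus `g`
-/

namespace Vale.Agent.P235.H206

open Finset

section

variable {V : Type} {G : SimpleGraph V} [Fintype V] [DecidableEq V] [Fintype G.Dart]

omit [Fintype V] [DecidableEq V] [Fintype G.Dart] in
theorem faceNext_eq (σ : Equiv.Perm G.Dart) : faceNext σ = facePerm G σ := rfl

/-- `g + 1` cycles modulo 2 of a map of Euler genus `g` have a nontrivial combination which is the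
boundary of a set of faces -/
theorem exists_faces_comb {g : ℕ} {σ : Equiv.Perm G.Dart} (hc : G.Connected) (hσ : SurfMap g G σ)
    {m : ℕ} (hm : g < m) (z : Fin m → G.edgeSet → ZMod 2) (hz : ∀ i, bd G (z i) = 0) :
    ∃ c : Fin m → ZMod 2, c ≠ 0 ∧ ∃ s : Faces G σ → ZMod 2, ∀ d : G.Dart,
      ∑ i, c i * z i (eOf d) = s ⟦d⟧ + s ⟦d.symm⟧ := by
  classical
  have : Finite G.edgeSet := Finite.of_surjective (fun d : G.Dart => eOf d) exists_dart
  have : Fintype G.edgeSet := Fintype.ofFinite _
  have : Fintype (Faces G σ) := Fintype.ofFinite _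
  have h1 := finrank_ker_cb hc hσ.cyc
  have h2 := finrank_range_bd hc
  have h4 := LinearMap.finrank_range_add_finrank_ker (bd G)
  rw [Module.finrank_fintype_fun_eq_card] at h4
  have h5 : Nat.card G.edgeSet + 2 ≤ Nat.card V + Nat.card (Faces G σ) + g := hσ.euler
  rw [Nat.card_eq_fintype_card, Nat.card_eq_fintype_card, Nat.card_eq_fintype_card] at h5
  let A : (Fin m → ZMod 2) →ₗ[ZMod 2] (G.edgeSet → ZMod 2) := Fintype.linearCombination (ZMod 2) z
  let M : ((Fin m → ZMod 2) × (Faces G σ → ZMod 2)) →ₗ[ZMod 2] (G.edgeSet → ZMod 2) :=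
    A.coprod (cb σ)
  have hA : ∀ c, A c = ∑ i, c i • z i := fun c => Fintype.linearCombination_apply (ZMod 2) z c
  by_contra hno
  push Not at hno
  have hker : LinearMap.ker M ≤ (LinearMap.ker (cb σ)).map
      (LinearMap.inr (ZMod 2) (Fin m → ZMod 2) (Faces G σ → ZMod 2)) := by
    rintro ⟨c, s⟩ hcs
    have h6 : A c + cb σ s = 0 := by
      have := LinearMap.mem_ker.mp hcs
      rwa [LinearMap.coprod_apply] at this
    have hc0 : c = 0 := by
      by_contra hne
      obtain ⟨d, hd⟩ := hno c hne s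
      apply hd
      have h7 := congrFun h6 (eOf d)
      rw [Pi.add_apply, hA, Finset.sum_apply, cb_apply] at h7
      simp only [Pi.smul_apply, smul_eq_mul, Pi.zero_apply] at h7
      exact CharTwo.add_eq_zero.mp h7
    subst hc0
    rw [map_zero, zero_add] at h6
    exact ⟨s, LinearMap.mem_ker.mpr h6, rfl⟩
  have hk1 : Module.finrank (ZMod 2) (LinearMap.ker M) ≤ 1 := by
    refine (Submodule.finrank_mono hker).trans ?_
    refine (Submodule.finrank_map_le _ _).trans h1
  have hrange : LinearMap.range M ≤ LinearMap.ker (bd G) := by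
    rintro _ ⟨⟨c, s⟩, rfl⟩
    rw [LinearMap.mem_ker]
    show bd G (A.coprod (cb σ) (c, s)) = 0
    rw [LinearMap.coprod_apply, map_add, bd_cb hσ.fst, add_zero, hA, map_sum]
    refine Finset.sum_eq_zero fun i _ => ?_
    rw [map_smul, hz, smul_zero]
  have hr1 := Submodule.finrank_mono hrange
  have h3 := LinearMap.finrank_range_add_finrank_ker M
  rw [Module.finrank_prod, Module.finrank_fintype_fun_eq_card, Module.finrank_fintype_fun_eq_card,
    Fintype.card_fin] at h3
  omega

variable {σ : Equiv.Perm G.Dart} (d0 : G.Dart)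

/-- on a face of a map of Euler genus `g` walks which join `a 0, …, a m` meet walks which join
`b 0, …, b m`, if `a 0 < b 0 < a 1 < … < b m` and `m > g` -/
theorem face_alt {g : ℕ} (hconn : G.Connected) (hσ : SurfMap g G σ) {m : ℕ} (hm : g < m)
    {a b : ℕ → ℕ} (hab : ∀ i j, i ≤ j → j ≤ m → a i ≤ b j) (hba : ∀ i j, i < j → j ≤ m → b i < a j)
    (hb : b m < faceLen σ d0)
    (p : ∀ i, G.Walk (fd σ d0 (a i)).fst (fd σ d0 (a 0)).fst)
    (q : ∀ i, G.Walk (fd σ d0 (b i)).fst (fd σ d0 (b m)).fst) :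
    ∃ i ≤ m, ∃ j ≤ m, ∃ z, z ∈ (p i).support ∧ z ∈ (q j).support := by
  classical
  by_contra hno
  push Not at hno
  let zz : Fin m → G.edgeSet → ZMod 2 := fun i =>
    chain (p (i + 1)) + arcC σ d0 (a 0) (a (i + 1))
  have h0a : ∀ i : Fin m, a 0 < a (i + 1) := fun i =>
    (hab 0 0 le_rfl (Nat.zero_le _)).trans_lt (hba 0 (i + 1) (by omega) (by omega))
  have hz : ∀ i, bd G (zz i) = 0 := by
    intro i
    show bd G (chain (p (i + 1)) + arcC σ d0 (a 0) (a (i + 1))) = 0
    rw [map_add, bd_chain, bd_arcC d0 hσ.fst (h0a i).le, add_comm (Pi.single _ _) (Pi.single _ _),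
      self_add']
  obtain ⟨c, hc0, s, hs⟩ := exists_faces_comb hconn hσ hm zz hz
  let α : G.Dart → ZMod 2 := fun e => ∑ i : Fin m, c i * arcD σ d0 (a 0) (a (i + 1)) e
  let τ : G.Dart → ZMod 2 := fun e => s ⟦e⟧ + α e
  -- edges off the walks
  have hE : ∀ e : G.Dart, (∀ i : Fin m, e.fst ∉ (p (i + 1)).support) → τ e = τ e.symm := by
    intro e he
    have h1 := hs e
    have h2 : ∀ i, zz i (eOf e) = arcD σ d0 (a 0) (a (i + 1)) e +
        arcD σ d0 (a 0) (a (i + 1)) e.symm := by
      intro i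
      have h2 : chain (p (i + 1)) (eOf e) = 0 := by
        have : e.edge ∉ (p (i + 1)).edges := fun h =>
          he i ((p (i + 1)).fst_mem_support_of_mem_edges h)
        simp [chain, eOf, List.count_eq_zero_of_not_mem this]
      show chain (p (i + 1)) (eOf e) + arcC σ d0 (a 0) (a (i + 1)) (eOf e) = _
      rw [h2, zero_add, arcC_apply]
    have h4 : α e + α e.symm = s ⟦e⟧ + s ⟦e.symm⟧ := by
      rw [← h1]
      show ∑ i : Fin m, _ + ∑ i : Fin m, _ = _
      rw [← Finset.sum_add_distrib]
      refine Finset.sum_congr rfl fun i _ => ?_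
      rw [h2, mul_add]
    show s ⟦e⟧ + α e = s ⟦e.symm⟧ + α e.symm
    have h3 : s ⟦e⟧ + α e + (s ⟦e.symm⟧ + α e.symm) = 0 := by
      calc s ⟦e⟧ + α e + (s ⟦e.symm⟧ + α e.symm)
          = (s ⟦e⟧ + s ⟦e.symm⟧) + (α e + α e.symm) := by ring
        _ = 0 := by rw [h4]; exact CharTwo.add_self_eq_zero _
    exact CharTwo.add_eq_zero.mp h3
  -- rotation at a vertex off the walks
  have hV : ∀ e : G.Dart, (∀ i : Fin m, e.fst ∉ (p (i + 1)).support) → τ (σ e) = τ e := by
    intro e he
    have hface : σ e = facePerm G σ e.symm := by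
      rw [facePerm_apply, SimpleGraph.Dart.symm_symm]
    have hfst : (facePerm G σ e.symm).fst = e.fst := by rw [← hface, hσ.fst]
    have h1 : ∀ i : Fin m, facePerm G σ e.symm ≠ fd σ d0 (a 0) := by
      intro i h
      apply he i
      rw [← hfst, h]
      exact (p (i + 1)).end_mem_support
    have h2 : ∀ i : Fin m, facePerm G σ e.symm ≠ fd σ d0 (a (i + 1)) := by
      intro i h
      apply he i
      rw [← hfst, h]
      exact (p (i + 1)).start_mem_support
    rw [hE e he, hface]
    show s ⟦facePerm G σ e.symm⟧ + α (facePerm G σ e.symm) = s ⟦e.symm⟧ + α e.symm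
    have h3 : α (facePerm G σ e.symm) = α e.symm :=
      Finset.sum_congr rfl fun i _ => by rw [arcD_face d0 (h0a i) (h1 i) (h2 i)]
    rw [h3, facePerm_apply, face_eq]
  have hfst : ∀ e e' : G.Dart, e.fst = e'.fst → (∀ i : Fin m, e.fst ∉ (p (i + 1)).support) →
      τ e = τ e' := by
    intro e e' hee he
    have h1 := perm_invariant σ (fun x => if x.fst = e.fst then τ x else 0) (fun x => by
      show (if (σ x).fst = e.fst then τ (σ x) else 0) = if x.fst = e.fst then τ x else 0
      rw [hσ.fst]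
      by_cases hx : x.fst = e.fst
      · rw [if_pos hx, if_pos hx, hV x (by rw [hx]; exact he)]
      · rw [if_neg hx, if_neg hx]) (hσ.cyc e e' hee)
    simpa [hee] using h1
  have hwalk : ∀ {u v : V} (w : G.Walk u v),
      (∀ x ∈ w.support, ∀ i : Fin m, x ∉ (p (i + 1)).support) →
      ∀ e e' : G.Dart, e.fst = u → e'.fst = v → τ e = τ e' := by
    intro u v w
    induction w with
    | nil =>
      intro hw e e' he he'
      exact hfst e e' (he.trans he'.symm) (by rw [he]; exact hw _ (by simp))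
    | @cons u x v hux r ih =>
      intro hw e e' he he'
      have hu := hw u (by simp)
      rw [hfst e ⟨(u, x), hux⟩ he (by rw [he]; exact hu), hE ⟨(u, x), hux⟩ hu]
      exact ih (fun y hy => hw y (by simp [hy])) _ e' rfl he'
  obtain ⟨i0, hi0⟩ : ∃ i, c i ≠ 0 := by
    by_contra h
    push Not at h
    exact hc0 (funext h)
  obtain ⟨i1, hi1, hmax⟩ := Finset.exists_max_image (Finset.univ.filter fun i => c i ≠ 0)
    (fun i => (i : ℕ)) ⟨i0, by simpa using hi0⟩
  have hi1' : c i1 ≠ 0 := by simpa using hi1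
  have h1 := hwalk (q i1) (fun x hx i hxp => hno (i + 1) (by omega) i1 (by omega) x hxp hx)
    (fd σ d0 (b i1)) (fd σ d0 (b m)) rfl rfl
  have h2 : s ⟦fd σ d0 (b i1)⟧ + α (fd σ d0 (b i1)) =
      s ⟦fd σ d0 (b m)⟧ + α (fd σ d0 (b m)) := h1
  have hbm : ∀ j, j ≤ m → b j < faceLen σ d0 := by
    intro j hj
    rcases hj.eq_or_lt with rfl | hj
    · exact hb
    · have e1 := hba j m hj le_rfl
      have e2 := hab m m le_rfl le_rfl
      omega
  have h3 : α (fd σ d0 (b m)) = 0 := by
    refine Finset.sum_eq_zero fun i _ => ?_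
    rw [arcD_out d0 (hab (i + 1) m (by omega) le_rfl) hb, mul_zero]
  have h4 : α (fd σ d0 (b i1)) = c i1 := by
    show ∑ i : Fin m, c i * arcD σ d0 (a 0) (a (i + 1)) (fd σ d0 (b i1)) = _
    rw [Finset.sum_eq_single i1]
    · have e1 := hba i1 (i1 + 1) (by omega) (by omega)
      have e2 := hab (i1 + 1) m (by omega) le_rfl
      rw [arcD_in d0 (hab 0 i1 (by omega) (by omega)) e1 (by omega), mul_one]
    · intro i _ hne
      rcases lt_or_gt_of_ne (fun h => hne (Fin.ext h) : (i : ℕ) ≠ i1) with h | h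
      · rw [arcD_out d0 (hab (i + 1) i1 (by omega) (by omega)) (hbm _ (by omega)), mul_zero]
      · have : c i = 0 := by
          by_contra hci
          have := hmax i (by simpa using hci)
          omega
        rw [this, zero_mul]
    · intro h
      exact absurd (Finset.mem_univ _) h
  rw [fd_face, fd_face, h3, h4] at h2
  exact hi1' (add_eq_left.mp (h2.trans (add_zero _)))

end

end Vale.Agent.P235.H206
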