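import Vale.Agent.P235.Comp.Defs

namespace Vale.Agent.P235

/-- The bags `B a`, `B b` share at most two vertices or have at most four vertices each. -/
def FreeEdge {V ι : Type} (B : ι → Finset V) (a b : ι) : Prop :=
  {v | v ∈ B a ∧ v ∈ B b}.ncard ≤ 2 ∨ ((B a).card ≤ 4 ∧ (B b).card ≤ 4)

/-- `G` has a tree decomposition of width at most `k` whose tree `T` has a root `r` such that on the
path from `r` to any node at most `j` edges `a b` do not satisfy `FreeEdge B a b`. -/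
def DepthTD (k j : ℕ) {V : Type} (G : SimpleGraph V) : Prop :=
  ∃ (ι : Type) (_ : Finite ι) (T : SimpleGraph ι) (B : ι → Finset V) (r : ι),
    T.IsTree ∧
    (∀ v, ∃ t, v ∈ B t) ∧
    (∀ u v, G.Adj u v → ∃ t, u ∈ B t ∧ v ∈ B t) ∧
    (∀ v, (T.induce {t | v ∈ B t}).Preconnected) ∧
    (∀ t, (B t).card ≤ k + 1) ∧
    ∀ (t : ι) (p : T.Walk r t), p.IsPath →
      ∃ S : Finset (Sym2 ι), S.card ≤ j ∧ ∀ a b, s(a, b) ∈ p.edges → FreeEdge B a b ∨ s(a, b) ∈ S

end Vale.Agent.P235
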